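import Mathlib

/-!
# Row 236 (S0471): basic definitions

Blueprint: `docs/R236/blueprint.md` on branch `helper354`.
-/

namespace Claimed.Agent.R236

open Matrix

/-- `n × n` complex matrices. -/
abbrev Mat (n : ℕ) := Matrix (Fin n) (Fin n) ℂ

/-- `2g`-tuples of matrices: `ρ i 0 = A_i`, `ρ i 1 = B_i`. -/
abbrev Tup (g n : ℕ) := Fin g → Fin 2 → Mat n

variable {g n : ℕ}

/-- group commutator (with Mathlib's total matrix inverse). -/
noncomputable def cm (A B : Mat n) : Mat n := A * B * A⁻¹ * B⁻¹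

/-- the surface word `[A_0,B_0] ⋯ [A_{g-1},B_{g-1}]`. -/
noncomputable def mu (ρ : Tup g n) : Mat n := (List.ofFn fun i => cm (ρ i 0) (ρ i 1)).prod

/-- append one handle. -/
def snocH (ρ : Tup g n) (A B : Mat n) : Tup (g + 1) n := Fin.snoc (α := fun _ => Fin 2 → Mat n) ρ ![A, B]

/-- all blocks invertible. -/
def AllInv (ρ : Tup g n) : Prop := ∀ i c, IsUnit (ρ i c).det

/-- `GL_n`-valued representations. -/
def RC (g n : ℕ) : Set (Tup g n) := {ρ | AllInv ρ ∧ mu ρ = 1}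

/-- `SL_n`-valued representations. -/
def RSL (g n : ℕ) : Set (Tup g n) := {ρ | (∀ i c, (ρ i c).det = 1) ∧ mu ρ = 1}

/-- `SL_n(S)`-valued representations. -/
def RS (S : Subring ℂ) (g n : ℕ) : Set (Tup g n) := {ρ | ρ ∈ RSL g n ∧ ∀ i c p q, ρ i c p q ∈ S}

/-- blockwise scaling. -/
def scl (l : Fin g → Fin 2 → ℂ) (ρ : Tup g n) : Tup g n := fun i c => l i c • ρ i c

/-- the multi-cone over the `S`-points. -/
def Cone (S : Subring ℂ) (g n : ℕ) : Set (Tup g n) := {ρ | ∃ ρ₀ ∈ RS S g n, ∃ l, ρ = scl l ρ₀}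

/-- simultaneous conjugation. -/
noncomputable def conjT (h : Mat n) (ρ : Tup g n) : Tup g n := fun i c => h * ρ i c * h⁻¹

/-- `w` commutes with all blocks. -/
def InComm (ρ : Tup g n) (w : Mat n) : Prop := ∀ i c, w * ρ i c = ρ i c * w

/-- the commutant is reduced to the scalars. -/
def IsSchur (ρ : Tup g n) : Prop := ∀ w, InComm ρ w → ∃ a : ℂ, w = a • (1 : Mat n)

/-- the commutant, as a subspace. -/
def commSub (ρ : Tup g n) : Submodule ℂ (Mat n) where
  carrier := {w | InComm ρ w}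
  add_mem' := by
    intro a b ha hb i c
    rw [add_mul, mul_add, ha i c, hb i c]
  zero_mem' := by intro i c; simp
  smul_mem' := by
    intro t a ha i c
    rw [smul_mul_assoc, mul_smul_comm, ha i c]

/-- Krylov matrix with columns `v, A v, …, A^{n-1} v`. -/
def kry (A : Mat n) (v : Fin n → ℂ) : Mat n := Matrix.of fun i k => ((A ^ (k : ℕ)) *ᵥ v) i

/-- `A` has a cyclic vector. -/
def IsCyc (A : Mat n) : Prop := ∃ v, (kry A v).det ≠ 0

/-- `p_s(M) = ∑_{k<n} s_k M^k`. -/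
def pS (s : Fin n → ℂ) (M : Mat n) : Mat n := ∑ k : Fin n, s k • M ^ (k : ℕ)

/-- no proper nonzero invariant subspace. -/
def IsIrr (ρ : Tup g n) : Prop :=
  ∀ U : Submodule ℂ (Fin n → ℂ), (∀ i c, ∀ v ∈ U, ρ i c *ᵥ v ∈ U) → U = ⊥ ∨ U = ⊤

/-- `w ↦ w A - A w`. -/
def adL (A : Mat n) : Mat n →ₗ[ℂ] Mat n :=
  LinearMap.mulRight ℂ A - LinearMap.mulLeft ℂ A

/-- `diag(2,3,5,…)`. -/
noncomputable def primeDiag (n : ℕ) : Mat n :=
  Matrix.diagonal fun i => ((Nat.nth Nat.Prime (i : ℕ) : ℕ) : ℂ)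

/-- the cyclic permutation matrix `X e_i = e_{i+1}`. -/
def cycX (n : ℕ) : Mat n := (Equiv.Perm.permMatrix ℂ (finRotate n))ᵀ

/-- proportional matrices. -/
def Prp (A B : Mat n) : Prop := ∃ c : ℂ, c ≠ 0 ∧ B = c • A

/-- blockwise proportional tuples. -/
def PrpT (ρ ρ' : Tup g n) : Prop := ∀ i c, Prp (ρ i c) (ρ' i c)

end Claimed.Agent.R236
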