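import Claimed.Agent.R236.VC

/-!
# Row 236: direct sums (blueprint section 12, (U))
-/

namespace Claimed.Agent.R236

open Matrix

variable {g n₁ n₂ : ℕ}

/-- block matrices indexed by `Fin (n₁ + n₂)`. -/
def blk (A : Mat n₁) (B : Matrix (Fin n₁) (Fin n₂) ℂ) (C : Matrix (Fin n₂) (Fin n₁) ℂ) (D : Mat n₂) :
    Mat (n₁ + n₂) :=
  Matrix.reindex finSumFinEquiv finSumFinEquiv (Matrix.fromBlocks A B C D)

/-- block upper triangular tuples. -/
def tri (ρ₁ : Tup g n₁) (β : Fin g → Fin 2 → Matrix (Fin n₁) (Fin n₂) ℂ) (ρ₂ : Tup g n₂) :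
    Tup g (n₁ + n₂) := fun i c => blk (ρ₁ i c) (β i c) 0 (ρ₂ i c)

/-- direct sum of tuples. -/
def dsum (ρ₁ : Tup g n₁) (ρ₂ : Tup g n₂) : Tup g (n₁ + n₂) := tri ρ₁ 0 ρ₂

theorem blk_mul (A A' : Mat n₁) (B B' : Matrix (Fin n₁) (Fin n₂) ℂ) (C C' : Matrix (Fin n₂) (Fin n₁) ℂ)
    (D D' : Mat n₂) :
    blk A B C D * blk A' B' C' D' =
      blk (A * A' + B * C') (A * B' + B * D') (C * A' + D * C') (C * B' + D * D') := by
  simp only [blk, Matrix.reindex_apply, Matrix.submatrix_mul_equiv, Matrix.fromBlocks_multiply]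

theorem blk_one : blk (1 : Mat n₁) 0 0 (1 : Mat n₂) = 1 := by
  simp only [blk, Matrix.fromBlocks_one, Matrix.reindex_apply, Matrix.submatrix_one_equiv]

theorem det_blk_tri (A : Mat n₁) (B : Matrix (Fin n₁) (Fin n₂) ℂ) (D : Mat n₂) :
    (blk A B 0 D).det = A.det * D.det := by
  simp only [blk, Matrix.det_reindex_self, Matrix.det_fromBlocks_zero₂₁]

theorem blk_inj {A A' : Mat n₁} {B B' : Matrix (Fin n₁) (Fin n₂) ℂ} {C C' : Matrix (Fin n₂) (Fin n₁) ℂ}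
    {D D' : Mat n₂} (h : blk A B C D = blk A' B' C' D') : A = A' ∧ B = B' ∧ C = C' ∧ D = D' := by
  have h' := (Matrix.reindex finSumFinEquiv finSumFinEquiv).injective h
  exact Matrix.fromBlocks_inj.1 h'

theorem blk_tri_inv {A : Mat n₁} {B : Matrix (Fin n₁) (Fin n₂) ℂ} {D : Mat n₂}
    (hA : IsUnit A.det) (hD : IsUnit D.det) :
    (blk A B 0 D)⁻¹ = blk A⁻¹ (-(A⁻¹ * B * D⁻¹)) 0 D⁻¹ := by
  apply Matrix.inv_eq_right_inv
  rw [blk_mul, Matrix.mul_nonsing_inv A hA, Matrix.mul_nonsing_inv D hD, ← blk_one]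
  congr 1
  · simp
  · rw [Matrix.mul_neg, ← Matrix.mul_assoc, ← Matrix.mul_assoc, Matrix.mul_nonsing_inv A hA]
    simp
  · simp
  · simp

theorem blk_diag_inv {A : Mat n₁} {D : Mat n₂} (hA : IsUnit A.det) (hD : IsUnit D.det) :
    (blk A 0 0 D)⁻¹ = blk A⁻¹ 0 0 D⁻¹ := by
  rw [blk_tri_inv hA hD]
  simp

/-- commutator of block triangular matrices. -/
theorem blk_cm_tri {A A' : Mat n₁} {B B' : Matrix (Fin n₁) (Fin n₂) ℂ} {D D' : Mat n₂}
    (hA : IsUnit A.det) (hD : IsUnit D.det) (hA' : IsUnit A'.det) (hD' : IsUnit D'.det) :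
    ∃ X, cm (blk A B 0 D) (blk A' B' 0 D') = blk (cm A A') X 0 (cm D D') := by
  unfold cm
  rw [blk_tri_inv hA hD, blk_tri_inv hA' hD', blk_mul, blk_mul, blk_mul]
  simp only [Matrix.zero_mul, Matrix.mul_zero, add_zero, zero_add]
  exact ⟨_, rfl⟩

theorem blk_cm_diag {A A' : Mat n₁} {D D' : Mat n₂}
    (hA : IsUnit A.det) (hD : IsUnit D.det) (hA' : IsUnit A'.det) (hD' : IsUnit D'.det) :
    cm (blk A 0 0 D) (blk A' 0 0 D') = blk (cm A A') 0 0 (cm D D') := by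
  unfold cm
  rw [blk_diag_inv hA hD, blk_diag_inv hA' hD', blk_mul, blk_mul, blk_mul]
  simp only [Matrix.zero_mul, Matrix.mul_zero, add_zero, zero_add]

theorem blk_prod_tri : ∀ (k : ℕ) (a : Fin k → Mat n₁) (b : Fin k → Matrix (Fin n₁) (Fin n₂) ℂ)
    (d : Fin k → Mat n₂),
    ∃ X, (List.ofFn fun i => blk (a i) (b i) 0 (d i)).prod =
      blk (List.ofFn a).prod X 0 (List.ofFn d).prod := by
  intro k
  induction k with
  | zero => intro a b d; exact ⟨0, by simp [blk_one]⟩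
  | succ k ih =>
    intro a b d
    obtain ⟨X, hX⟩ := ih (fun i => a i.succ) (fun i => b i.succ) (fun i => d i.succ)
    simp only [List.ofFn_succ, List.prod_cons]
    rw [hX, blk_mul]
    simp only [Matrix.zero_mul, Matrix.mul_zero, add_zero, zero_add]
    exact ⟨_, rfl⟩

theorem blk_prod_diag : ∀ (k : ℕ) (a : Fin k → Mat n₁) (d : Fin k → Mat n₂),
    (List.ofFn fun i => blk (a i) 0 0 (d i)).prod =
      blk (List.ofFn a).prod 0 0 (List.ofFn d).prod := by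
  intro k
  induction k with
  | zero => intro a d; simp [blk_one]
  | succ k ih =>
    intro a d
    simp only [List.ofFn_succ, List.prod_cons]
    rw [ih (fun i => a i.succ) (fun i => d i.succ), blk_mul]
    simp only [Matrix.zero_mul, Matrix.mul_zero, add_zero, zero_add]

theorem mu_dsum {ρ₁ : Tup g n₁} {ρ₂ : Tup g n₂} (h1 : AllInv ρ₁) (h2 : AllInv ρ₂) :
    mu (dsum ρ₁ ρ₂) = blk (mu ρ₁) 0 0 (mu ρ₂) := by
  unfold mu
  rw [← blk_prod_diag]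
  refine congrArg List.prod (congrArg List.ofFn (funext fun i => ?_))
  exact blk_cm_diag (h1 i 0) (h2 i 0) (h1 i 1) (h2 i 1)

theorem blk_allInv_tri {ρ₁ : Tup g n₁} {β : Fin g → Fin 2 → Matrix (Fin n₁) (Fin n₂) ℂ} {ρ₂ : Tup g n₂}
    (h : AllInv (tri ρ₁ β ρ₂)) : AllInv ρ₁ ∧ AllInv ρ₂ := by
  constructor
  · intro i c
    have := h i c
    rw [tri, det_blk_tri] at this
    exact isUnit_of_mul_isUnit_left this
  · intro i c
    have := h i c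
    rw [tri, det_blk_tri] at this
    exact isUnit_of_mul_isUnit_right this

/-- the diagonal blocks of a block triangular representation are representations. -/
theorem tri_mem_RC {ρ₁ : Tup g n₁} {β : Fin g → Fin 2 → Matrix (Fin n₁) (Fin n₂) ℂ} {ρ₂ : Tup g n₂}
    (h : tri ρ₁ β ρ₂ ∈ RC g (n₁ + n₂)) : ρ₁ ∈ RC g n₁ ∧ ρ₂ ∈ RC g n₂ := by
  obtain ⟨hinv, hmu⟩ := h
  obtain ⟨h1, h2⟩ := blk_allInv_tri hinv
  have hc : ∀ i, ∃ X, cm (tri ρ₁ β ρ₂ i 0) (tri ρ₁ β ρ₂ i 1) =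
      blk (cm (ρ₁ i 0) (ρ₁ i 1)) X 0 (cm (ρ₂ i 0) (ρ₂ i 1)) := fun i =>
    blk_cm_tri (h1 i 0) (h2 i 0) (h1 i 1) (h2 i 1)
  choose X hX using hc
  obtain ⟨Y, hY⟩ := blk_prod_tri g (fun i => cm (ρ₁ i 0) (ρ₁ i 1)) X (fun i => cm (ρ₂ i 0) (ρ₂ i 1))
  have hmu' : mu (tri ρ₁ β ρ₂) = blk (mu ρ₁) Y 0 (mu ρ₂) := by
    unfold mu
    rw [← hY]
    exact congrArg List.prod (congrArg List.ofFn (funext fun i => hX i))
  rw [hmu', ← blk_one] at hmu
  obtain ⟨e1, _, _, e2⟩ := blk_inj hmu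
  exact ⟨⟨h1, e1⟩, ⟨h2, e2⟩⟩


theorem blk_add (A A' : Mat n₁) (B B' : Matrix (Fin n₁) (Fin n₂) ℂ) (C C' : Matrix (Fin n₂) (Fin n₁) ℂ)
    (D D' : Mat n₂) :
    blk (A + A') (B + B') (C + C') (D + D') = blk A B C D + blk A' B' C' D' := by
  simp only [blk, Matrix.reindex_apply, ← Matrix.fromBlocks_add, Matrix.submatrix_add]
  rfl

theorem blk_smul (t : ℂ) (A : Mat n₁) (B : Matrix (Fin n₁) (Fin n₂) ℂ) (C : Matrix (Fin n₂) (Fin n₁) ℂ)
    (D : Mat n₂) :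
    blk (t • A) (t • B) (t • C) (t • D) = t • blk A B C D := by
  simp only [blk, Matrix.reindex_apply, ← Matrix.fromBlocks_smul, Matrix.submatrix_smul]
  rfl

/-- `dsum` as a linear map. -/
def blk_dsumL (g n₁ n₂ : ℕ) : (Tup g n₁ × Tup g n₂) →ₗ[ℂ] Tup g (n₁ + n₂) where
  toFun x := dsum x.1 x.2
  map_add' x y := by
    funext i c
    show blk (x.1 i c + y.1 i c) 0 0 (x.2 i c + y.2 i c) = blk _ 0 0 _ + blk _ 0 0 _
    rw [← blk_add]
    simp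
  map_smul' t x := by
    funext i c
    show blk (t • x.1 i c) 0 0 (t • x.2 i c) = t • blk _ 0 0 _
    rw [← blk_smul]
    simp

theorem polyMap_dsum : PolyMap fun x : Tup g n₁ × Tup g n₂ => dsum x.1 x.2 :=
  polyMap_linear (blk_dsumL g n₁ n₂)


/-- the admissible pairs of scalars. -/
def blk_Q (n₁ n₂ : ℕ) (u y z : ℂ) : Prop :=
  ∃ (ν : ℂ) (a : ℕ), y = ν * u ^ (a * n₂) ∧ z = ν * (u⁻¹) ^ (a * n₁)

theorem blk_Q_pow {u : ℂ} (hu : u ≠ 0) (z : ℂ) (a : ℕ) :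
    blk_Q n₁ n₂ u (z * u ^ (a * (n₁ + n₂))) z := by
  refine ⟨z * u ^ (a * n₁), a, ?_, ?_⟩
  · rw [mul_add, pow_add]; ring
  · rw [mul_assoc, ← mul_pow, mul_inv_cancel₀ hu, one_pow, mul_one]

theorem blk_pow_injective (h1 : 1 ≤ n₁ + n₂) {u : ℂ} (hu1 : 1 < ‖u‖) {z : ℂ} (hz : z ≠ 0) :
    Function.Injective fun a : ℕ => z * u ^ (a * (n₁ + n₂)) := by
  intro a b hab
  have h2 : u ^ (a * (n₁ + n₂)) = u ^ (b * (n₁ + n₂)) := mul_left_cancel₀ hz hab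
  have h3 : ‖u‖ ^ (a * (n₁ + n₂)) = ‖u‖ ^ (b * (n₁ + n₂)) := by
    rw [← norm_pow, ← norm_pow, h2]
  have h4 := pow_right_injective₀ (by linarith) (ne_of_gt hu1) h3
  exact Nat.eq_of_mul_eq_mul_right (by omega) h4

/-- the indicator of one block. -/
def blk_e (j : Fin g × Fin 2) : Fin g → Fin 2 → ℂ := fun i c => if (i, c) = j then 1 else 0

/-- replace the scalars of one block. -/
def blk_upd (x : (Fin g → Fin 2 → ℂ) × (Fin g → Fin 2 → ℂ)) (j : Fin g × Fin 2) (y z : ℂ) :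
    (Fin g → Fin 2 → ℂ) × (Fin g → Fin 2 → ℂ) :=
  (x.1 + (y - x.1 j.1 j.2) • blk_e j, x.2 + (z - x.2 j.1 j.2) • blk_e j)

theorem blk_upd_self (x : (Fin g → Fin 2 → ℂ) × (Fin g → Fin 2 → ℂ)) (j : Fin g × Fin 2) :
    blk_upd x j (x.1 j.1 j.2) (x.2 j.1 j.2) = x := by
  simp [blk_upd]

theorem blk_upd_same (x : (Fin g → Fin 2 → ℂ) × (Fin g → Fin 2 → ℂ)) (j : Fin g × Fin 2) (y z : ℂ) :
    (blk_upd x j y z).1 j.1 j.2 = y ∧ (blk_upd x j y z).2 j.1 j.2 = z := by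
  simp [blk_upd, blk_e]

theorem blk_upd_ne (x : (Fin g → Fin 2 → ℂ) × (Fin g → Fin 2 → ℂ)) (j : Fin g × Fin 2) (y z : ℂ)
    {i : Fin g} {c : Fin 2} (h : (i, c) ≠ j) :
    (blk_upd x j y z).1 i c = x.1 i c ∧ (blk_upd x j y z).2 i c = x.2 i c := by
  simp [blk_upd, blk_e, h]

theorem blk_polyMap_upd₁ (x : (Fin g → Fin 2 → ℂ) × (Fin g → Fin 2 → ℂ)) (j : Fin g × Fin 2) (z : ℂ) :
    PolyMap fun θ : ℂ => blk_upd x j θ z := by
  apply PolyMap.prodMk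
  · apply PolyMap.add (polyMap_const _)
    apply PolyMap.smul _ (polyMap_const _)
    exact PolyFun.sub (PolyFun.linear LinearMap.id) (PolyFun.const _)
  · exact polyMap_const _

theorem blk_polyMap_upd₂ (x : (Fin g → Fin 2 → ℂ) × (Fin g → Fin 2 → ℂ)) (j : Fin g × Fin 2) (y : ℂ) :
    PolyMap fun θ : ℂ => blk_upd x j y θ := by
  apply PolyMap.prodMk
  · exact polyMap_const _
  · apply PolyMap.add (polyMap_const _)
    apply PolyMap.smul _ (polyMap_const _)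
    exact PolyFun.sub (PolyFun.linear LinearMap.id) (PolyFun.const _)

/-- `{(ν u^{a n₂}, ν u^{-a n₁})}` is Zariski dense in `ℂ²`, for all blocks simultaneously.
(For a polynomial function `f` on `(Fin g → Fin 2 → ℂ)²` vanishing on the set: one block at a time;
`f(ν w, ν)` vanishes for the infinitely many values `w = u^{a (n₁+n₂)}`.) -/
theorem ZCl_unit_ratios (h1 : 1 ≤ n₁ + n₂) {u : ℂ} (hu1 : 1 < ‖u‖) :
    ZCl {x : (Fin g → Fin 2 → ℂ) × (Fin g → Fin 2 → ℂ) |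
      ∃ (ν : Fin g → Fin 2 → ℂ) (a : Fin g → Fin 2 → ℕ), ∀ i c,
        x.1 i c = ν i c * u ^ (a i c * n₂) ∧ x.2 i c = ν i c * (u⁻¹) ^ (a i c * n₁)} = Set.univ := by
  set A := {x : (Fin g → Fin 2 → ℂ) × (Fin g → Fin 2 → ℂ) |
      ∃ (ν : Fin g → Fin 2 → ℂ) (a : Fin g → Fin 2 → ℕ), ∀ i c,
        x.1 i c = ν i c * u ^ (a i c * n₂) ∧ x.2 i c = ν i c * (u⁻¹) ^ (a i c * n₁)} with hA
  have hu : u ≠ 0 := by
    intro h
    rw [h, norm_zero] at hu1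
    linarith
  have key : ∀ (s : Finset (Fin g × Fin 2)) (x : (Fin g → Fin 2 → ℂ) × (Fin g → Fin 2 → ℂ)),
      (∀ i c, (i, c) ∉ s → blk_Q n₁ n₂ u (x.1 i c) (x.2 i c)) → x ∈ ZCl A := by
    intro s
    induction s using Finset.induction_on with
    | empty =>
      intro x hx
      apply subset_ZCl
      have hx' : ∀ i c, blk_Q n₁ n₂ u (x.1 i c) (x.2 i c) := fun i c => hx i c (by simp)
      choose ν a h using hx'
      exact ⟨ν, a, h⟩
    | insert j s hj ih =>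
      intro x hx
      -- step (a)
      have ha : ∀ z : ℂ, z ≠ 0 → ∀ y : ℂ, blk_upd x j y z ∈ ZCl A := by
        intro z hz y
        apply ZCl_curve (blk_polyMap_upd₁ x j z)
        apply Set.infinite_of_injective_forall_mem (blk_pow_injective h1 hu1 hz)
        intro a
        apply ih
        intro i c hic
        by_cases hij : (i, c) = j
        · subst hij
          rw [(blk_upd_same x (i, c) _ z).1, (blk_upd_same x (i, c) _ z).2]
          exact blk_Q_pow hu z a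
        · rw [(blk_upd_ne x j _ z hij).1, (blk_upd_ne x j _ z hij).2]
          apply hx
          simp [hij, hic]
      have hb : ∀ y z : ℂ, blk_upd x j y z ∈ ZCl A := by
        intro y z
        apply ZCl_curve (blk_polyMap_upd₂ x j y)
        apply Set.Infinite.mono (s := {θ : ℂ | θ ≠ 0})
        · intro θ hθ
          exact ha θ hθ y
        · have : ({θ : ℂ | θ ≠ 0} : Set ℂ) = {0}ᶜ := by ext; simp
          rw [this]
          exact (Set.finite_singleton (0 : ℂ)).infinite_compl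
      rw [← blk_upd_self x j]
      exact hb _ _
  apply Set.eq_univ_of_forall
  intro x
  apply key Finset.univ x
  intro i c h
  exact absurd (Finset.mem_univ _) h


theorem blk_apply_mem (S : Subring ℂ) {A : Mat n₁} {D : Mat n₂} (hA : ∀ p q, A p q ∈ S)
    (hD : ∀ p q, D p q ∈ S) (p q : Fin (n₁ + n₂)) : blk A 0 0 D p q ∈ S := by
  simp only [blk, Matrix.reindex_apply, Matrix.submatrix_apply]
  rcases finSumFinEquiv.symm p with p' | p' <;> rcases finSumFinEquiv.symm q with q' | q'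
  · simpa using hA p' q'
  · simp
  · simp
  · simpa using hD p' q'

/-- `l ↦ scl l ρ` as a linear map. -/
def blk_sclL' {n : ℕ} (ρ : Tup g n) : (Fin g → Fin 2 → ℂ) →ₗ[ℂ] Tup g n where
  toFun l := scl l ρ
  map_add' l l' := by
    funext i c
    simp [scl, add_smul]
  map_smul' t l := by
    funext i c
    simp [scl, smul_smul]

theorem blk_dsum_scl (ν s t : Fin g → Fin 2 → ℂ) (ρ₁ : Tup g n₁) (ρ₂ : Tup g n₂) :
    dsum (scl (fun i c => ν i c * s i c) ρ₁) (scl (fun i c => ν i c * t i c) ρ₂) =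
      scl ν (dsum (scl s ρ₁) (scl t ρ₂)) := by
  funext i c
  show blk ((ν i c * s i c) • ρ₁ i c) 0 0 ((ν i c * t i c) • ρ₂ i c) =
    ν i c • blk (s i c • ρ₁ i c) 0 0 (t i c • ρ₂ i c)
  rw [← blk_smul]
  simp [smul_smul]

theorem blk_dsum_mem_RS (S : Subring ℂ) {u : ℂ} (hu : u ∈ S) (hu' : u⁻¹ ∈ S) (hu0 : u ≠ 0)
    {ρ₁ : Tup g n₁} {ρ₂ : Tup g n₂} (h1 : ρ₁ ∈ RS S g n₁) (h2 : ρ₂ ∈ RS S g n₂)
    (a : Fin g → Fin 2 → ℕ) :
    dsum (scl (fun i c => u ^ (a i c * n₂)) ρ₁) (scl (fun i c => (u⁻¹) ^ (a i c * n₁)) ρ₂) ∈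
      RS S g (n₁ + n₂) := by
  obtain ⟨⟨hd1, hm1⟩, he1⟩ := h1
  obtain ⟨⟨hd2, hm2⟩, he2⟩ := h2
  have hs : ∀ i c, u ^ (a i c * n₂) ≠ 0 := fun i c => pow_ne_zero _ hu0
  have ht : ∀ i c, (u⁻¹) ^ (a i c * n₁) ≠ 0 := fun i c => pow_ne_zero _ (inv_ne_zero hu0)
  have hi1 : AllInv (scl (fun i c => u ^ (a i c * n₂)) ρ₁) := by
    intro i c
    show IsUnit (u ^ (a i c * n₂) • ρ₁ i c).det
    rw [det_smul, hd1, mul_one]
    exact (isUnit_iff_ne_zero.mpr (hs i c)).pow _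
  have hi2 : AllInv (scl (fun i c => (u⁻¹) ^ (a i c * n₁)) ρ₂) := by
    intro i c
    show IsUnit ((u⁻¹) ^ (a i c * n₁) • ρ₂ i c).det
    rw [det_smul, hd2, mul_one]
    exact (isUnit_iff_ne_zero.mpr (ht i c)).pow _
  refine ⟨⟨?_, ?_⟩, ?_⟩
  · intro i c
    show (blk (u ^ (a i c * n₂) • ρ₁ i c) 0 0 ((u⁻¹) ^ (a i c * n₁) • ρ₂ i c)).det = 1
    rw [det_blk_tri, det_smul, det_smul, hd1, hd2, mul_one, mul_one, Fintype.card_fin,
      Fintype.card_fin, ← pow_mul, ← pow_mul, inv_pow]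
    have : a i c * n₂ * n₁ = a i c * n₁ * n₂ := by ring
    rw [this]
    exact mul_inv_cancel₀ (pow_ne_zero _ hu0)
  · rw [mu_dsum hi1 hi2, mu_scl hs, mu_scl ht, hm1, hm2, blk_one]
  · intro i c p q
    apply blk_apply_mem S
    · intro p q
      exact S.mul_mem (S.pow_mem hu _) (he1 i c p q)
    · intro p q
      exact S.mul_mem (S.pow_mem hu' _) (he2 i c p q)

/-- for `S`-points the scaled direct sums are in the closure of the cone. -/
theorem dsum_scl_mem_VC (S : Subring ℂ) {u : ℂ} (hu : u ∈ S) (hu' : u⁻¹ ∈ S) (hu1 : 1 < ‖u‖)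
    {ρ₁ : Tup g n₁} {ρ₂ : Tup g n₂} (h1 : ρ₁ ∈ RS S g n₁) (h2 : ρ₂ ∈ RS S g n₂)
    (l₁ l₂ : Fin g → Fin 2 → ℂ) : dsum (scl l₁ ρ₁) (scl l₂ ρ₂) ∈ VC S g (n₁ + n₂) := by
  have hu0 : u ≠ 0 := by
    intro h
    rw [h, norm_zero] at hu1
    linarith
  by_cases hn : 1 ≤ n₁ + n₂
  · have hΦ : PolyMap fun x : (Fin g → Fin 2 → ℂ) × (Fin g → Fin 2 → ℂ) =>
        dsum (scl x.1 ρ₁) (scl x.2 ρ₂) :=
      polyMap_linear ((blk_dsumL g n₁ n₂).comp (LinearMap.prodMap (blk_sclL' ρ₁) (blk_sclL' ρ₂)))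
    have := PolyMap.maps_ZCl hΦ (B := Cone S g (n₁ + n₂))
      (A := {x : (Fin g → Fin 2 → ℂ) × (Fin g → Fin 2 → ℂ) |
        ∃ (ν : Fin g → Fin 2 → ℂ) (a : Fin g → Fin 2 → ℕ), ∀ i c,
          x.1 i c = ν i c * u ^ (a i c * n₂) ∧ x.2 i c = ν i c * (u⁻¹) ^ (a i c * n₁)}) ?_ (l₁, l₂)
      (by rw [ZCl_unit_ratios hn hu1]; trivial)
    · exact this
    · rintro ⟨x1, x2⟩ ⟨ν, a, h⟩
      apply subset_ZCl
      have e1 : x1 = fun i c => ν i c * u ^ (a i c * n₂) := by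
        funext i c; exact (h i c).1
      have e2 : x2 = fun i c => ν i c * (u⁻¹) ^ (a i c * n₁) := by
        funext i c; exact (h i c).2
      refine ⟨_, blk_dsum_mem_RS S hu hu' hu0 h1 h2 a, ν, ?_⟩
      show dsum (scl x1 ρ₁) (scl x2 ρ₂) = _
      rw [e1, e2, blk_dsum_scl]
  · have hn0 : n₁ + n₂ = 0 := by omega
    apply subset_ZCl
    have hsub : Subsingleton (Tup g (n₁ + n₂)) := by
      rw [hn0]
      infer_instance
    refine ⟨_, blk_dsum_mem_RS S hu hu' hu0 h1 h2 0, 1, Subsingleton.elim _ _⟩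

/-- **(U)** -/
theorem dsum_mem_VC (S : Subring ℂ) {u : ℂ} (hu : u ∈ S) (hu' : u⁻¹ ∈ S) (hu1 : 1 < ‖u‖)
    {ρ₁ : Tup g n₁} {ρ₂ : Tup g n₂} (h1 : ρ₁ ∈ VC S g n₁) (h2 : ρ₂ ∈ VC S g n₂) :
    dsum ρ₁ ρ₂ ∈ VC S g (n₁ + n₂) := by
  refine PolyMap.maps_ZCl₂ (polyMap_dsum (g := g) (n₁ := n₁) (n₂ := n₂))
    (A := Cone S g n₁) (B := Cone S g n₂) (C := Cone S g (n₁ + n₂)) ?_ ρ₁ h1 ρ₂ h2
  rintro a ⟨ρ₁', h1', l₁, rfl⟩ b ⟨ρ₂', h2', l₂, rfl⟩
  exact dsum_scl_mem_VC S hu hu' hu1 h1' h2' l₁ l₂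

end Claimed.Agent.R236
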