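import Claimed.Agent.R236.ZCl2
import Claimed.Agent.R236.Basic

/-!
# Row 236: rational functions of one complex variable, semantically (blueprint section 9, C1)

`IsRat f` : `f` agrees with `p / q` wherever `q ≠ 0`.  With Lean's total division this class is closed
under ALL field operations, in particular under `Matrix.inv` entrywise.
-/

namespace Claimed.Agent.R236

open Matrix Polynomial

/-- semantic rational functions. -/
def IsRat (f : ℂ → ℂ) : Prop :=
  ∃ p q : Polynomial ℂ, q ≠ 0 ∧ ∀ θ, q.eval θ ≠ 0 → f θ = p.eval θ / q.eval θ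

theorem IsRat.const (c : ℂ) : IsRat fun _ => c := by
  refine ⟨Polynomial.C c, 1, one_ne_zero, fun θ _ => ?_⟩
  simp

theorem IsRat.id : IsRat fun θ => θ := by
  refine ⟨Polynomial.X, 1, one_ne_zero, fun θ _ => ?_⟩
  simp

theorem IsRat.add {f h : ℂ → ℂ} (hf : IsRat f) (hh : IsRat h) : IsRat fun θ => f θ + h θ := by
  obtain ⟨p1, q1, hq1, h1⟩ := hf
  obtain ⟨p2, q2, hq2, h2⟩ := hh
  refine ⟨p1 * q2 + p2 * q1, q1 * q2, mul_ne_zero hq1 hq2, fun θ hθ => ?_⟩
  rw [Polynomial.eval_mul] at hθ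
  have ha : q1.eval θ ≠ 0 := left_ne_zero_of_mul hθ
  have hb : q2.eval θ ≠ 0 := right_ne_zero_of_mul hθ
  simp only [h1 θ ha, h2 θ hb, Polynomial.eval_add, Polynomial.eval_mul]
  field_simp

theorem IsRat.mul {f h : ℂ → ℂ} (hf : IsRat f) (hh : IsRat h) : IsRat fun θ => f θ * h θ := by
  obtain ⟨p1, q1, hq1, h1⟩ := hf
  obtain ⟨p2, q2, hq2, h2⟩ := hh
  refine ⟨p1 * p2, q1 * q2, mul_ne_zero hq1 hq2, fun θ hθ => ?_⟩
  rw [Polynomial.eval_mul] at hθ
  have ha : q1.eval θ ≠ 0 := left_ne_zero_of_mul hθ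
  have hb : q2.eval θ ≠ 0 := right_ne_zero_of_mul hθ
  simp only [h1 θ ha, h2 θ hb, Polynomial.eval_mul]
  field_simp

theorem IsRat.neg {f : ℂ → ℂ} (hf : IsRat f) : IsRat fun θ => - f θ := by
  obtain ⟨p1, q1, hq1, h1⟩ := hf
  refine ⟨-p1, q1, hq1, fun θ hθ => ?_⟩
  simp only [h1 θ hθ, Polynomial.eval_neg, neg_div]

theorem IsRat.sub {f h : ℂ → ℂ} (hf : IsRat f) (hh : IsRat h) : IsRat fun θ => f θ - h θ := by
  simpa only [sub_eq_add_neg] using hf.add hh.neg

/-- if `p = 0` then `f = 0` off the zeros of `q` and `f⁻¹ = 0` there. -/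
theorem IsRat.inv {f : ℂ → ℂ} (hf : IsRat f) : IsRat fun θ => (f θ)⁻¹ := by
  obtain ⟨p, q, hq, h⟩ := hf
  by_cases hp : p = 0
  · refine ⟨0, q, hq, fun θ hθ => ?_⟩
    simp [h θ hθ, hp]
  · refine ⟨q * q, p * q, mul_ne_zero hp hq, fun θ hθ => ?_⟩
    rw [Polynomial.eval_mul] at hθ
    have ha : p.eval θ ≠ 0 := left_ne_zero_of_mul hθ
    have hb : q.eval θ ≠ 0 := right_ne_zero_of_mul hθ
    simp only [h θ hb, Polynomial.eval_mul]
    field_simp

theorem IsRat.pow {f : ℂ → ℂ} (hf : IsRat f) (k : ℕ) : IsRat fun θ => f θ ^ k := by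
  induction k with
  | zero => simpa only [pow_zero] using IsRat.const 1
  | succ k ih => simpa only [pow_succ] using ih.mul hf

theorem IsRat.sum {ι : Type*} (s : Finset ι) {f : ι → ℂ → ℂ} (hf : ∀ i ∈ s, IsRat (f i)) :
    IsRat fun θ => ∑ i ∈ s, f i θ := by
  classical
  induction s using Finset.induction_on with
  | empty => simpa only [Finset.sum_empty] using IsRat.const 0
  | insert a s ha ih =>
    simp only [Finset.sum_insert ha]
    exact (hf a (Finset.mem_insert_self a s)).add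
      (ih fun i hi => hf i (Finset.mem_insert_of_mem hi))

theorem IsRat.prod {ι : Type*} (s : Finset ι) {f : ι → ℂ → ℂ} (hf : ∀ i ∈ s, IsRat (f i)) :
    IsRat fun θ => ∏ i ∈ s, f i θ := by
  classical
  induction s using Finset.induction_on with
  | empty => simpa only [Finset.prod_empty] using IsRat.const 1
  | insert a s ha ih =>
    simp only [Finset.prod_insert ha]
    exact (hf a (Finset.mem_insert_self a s)).mul
      (ih fun i hi => hf i (Finset.mem_insert_of_mem hi))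

/-- vector valued rational functions. -/
def IsRatV {V : Type*} [AddCommGroup V] [Module ℂ V] (γ : ℂ → V) : Prop :=
  ∀ ℓ : V →ₗ[ℂ] ℂ, IsRat fun θ => ℓ (γ θ)

variable {V W : Type*} [AddCommGroup V] [Module ℂ V] [AddCommGroup W] [Module ℂ W]

/-- (adjoin induction) -/
theorem IsRatV.polyFun {γ : ℂ → V} (hγ : IsRatV γ) {f : V → ℂ} (hf : f ∈ PolyFun V) :
    IsRat fun θ => f (γ θ) := by
  induction hf using Algebra.adjoin_induction with
  | mem x hx =>
    obtain ⟨ℓ, rfl⟩ := hx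
    exact hγ ℓ
  | algebraMap r => exact IsRat.const r
  | add x y _ _ hx hy => exact hx.add hy
  | mul x y _ _ hx hy => exact hx.mul hy

theorem IsRatV.polyMap {γ : ℂ → V} (hγ : IsRatV γ) {Φ : V → W} (hΦ : PolyMap Φ) :
    IsRatV fun θ => Φ (γ θ) := fun ℓ => hγ.polyFun (hΦ ℓ)

theorem isRatV_line (x y : V) : IsRatV fun θ : ℂ => x + θ • y := by
  intro ℓ
  simp only [map_add, map_smul, smul_eq_mul]
  exact (IsRat.const _).add (IsRat.id.mul (IsRat.const _))

theorem IsRatV.prodMk {γ : ℂ → V} {γ' : ℂ → W} (h : IsRatV γ) (h' : IsRatV γ') :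
    IsRatV fun θ => (γ θ, γ' θ) := by
  intro ℓ
  have e : (fun θ => ℓ (γ θ, γ' θ))
      = fun θ => (ℓ.comp (LinearMap.inl ℂ V W)) (γ θ) + (ℓ.comp (LinearMap.inr ℂ V W)) (γ' θ) := by
    funext θ
    simp only [LinearMap.comp_apply, LinearMap.inl_apply, LinearMap.inr_apply, ← map_add,
      Prod.mk_add_mk, add_zero, zero_add]
  rw [e]
  exact (h _).add (h' _)

theorem isRatV_pi {ι : Type*} [Finite ι] {X : ι → Type*} [∀ i, AddCommGroup (X i)]
    [∀ i, Module ℂ (X i)] {γ : ℂ → ∀ i, X i} : IsRatV γ ↔ ∀ i, IsRatV fun θ => γ θ i := by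
  classical
  cases nonempty_fintype ι
  constructor
  · intro h i
    exact h.polyMap (polyMap_linear (LinearMap.proj i : (∀ i, X i) →ₗ[ℂ] X i))
  · intro h ℓ
    have h1 : (fun θ => ℓ (γ θ))
        = fun θ => ∑ i, (ℓ.comp (LinearMap.single ℂ X i)) (γ θ i) := by
      funext θ
      simp only [LinearMap.comp_apply, LinearMap.coe_single, ← map_sum, Finset.univ_sum_single]
    rw [h1]
    exact IsRat.sum _ fun i _ => h i _

theorem isRatV_iff_isRat {f : ℂ → ℂ} : IsRatV f ↔ IsRat f := by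
  constructor
  · intro h
    exact h LinearMap.id
  · intro h ℓ
    have h1 : (fun θ => ℓ (f θ)) = fun θ => f θ * ℓ 1 := by
      funext θ
      have : ℓ (f θ) = ℓ (f θ • (1 : ℂ)) := by simp
      rw [this, map_smul, smul_eq_mul]
    rw [h1]
    exact h.mul (IsRat.const _)

theorem isRatV_matrix {m k : Type*} [Finite m] [Finite k] {γ : ℂ → Matrix m k ℂ} :
    IsRatV γ ↔ ∀ i j, IsRat fun θ => γ θ i j := by
  have h1 : IsRatV γ ↔ ∀ i, IsRatV (fun θ => γ θ i) :=
    isRatV_pi (X := fun _ : m => k → ℂ) (γ := γ)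
  rw [h1]
  refine forall_congr' fun i => ?_
  rw [isRatV_pi (X := fun _ : k => ℂ)]
  exact forall_congr' fun j => isRatV_iff_isRat

/-- `Matrix.inv = Ring.inverse det • adjugate`, and `Ring.inverse = ⁻¹` in a field. -/
theorem IsRatV.matInv {m : Type*} [Fintype m] [DecidableEq m] {γ : ℂ → Matrix m m ℂ}
    (h : IsRatV γ) : IsRatV fun θ => (γ θ)⁻¹ := by
  rw [isRatV_matrix]
  intro i j
  have hdet : IsRat fun θ => (γ θ).det := h.polyFun (PolyMap.det polyMap_id)
  have hadj : IsRatV fun θ => (γ θ).adjugate := h.polyMap (PolyMap.adjugate polyMap_id)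
  rw [isRatV_matrix] at hadj
  have e : (fun θ => (γ θ)⁻¹ i j) = fun θ => ((γ θ).det)⁻¹ * (γ θ).adjugate i j := by
    funext θ
    rw [Matrix.inv_def, Ring.inverse_eq_inv', Matrix.smul_apply, smul_eq_mul]
  rw [e]
  exact hdet.inv.mul (hadj i j)

/-- identity theorem. -/
theorem IsRat.finite_ne_zero {f : ℂ → ℂ} (hf : IsRat f) (h : {θ | f θ = 0}.Infinite) :
    {θ | f θ ≠ 0}.Finite := by
  obtain ⟨p, q, hq, hpq⟩ := hf
  have hqfin : {θ | q.eval θ = 0}.Finite := by
    have := Polynomial.finite_setOfPred_isRoot hq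
    simpa only [Polynomial.IsRoot.def] using this
  have hp : p = 0 := by
    by_contra hp
    have hpfin : {θ | p.eval θ = 0}.Finite := by
      have := Polynomial.finite_setOfPred_isRoot hp
      simpa only [Polynomial.IsRoot.def] using this
    refine h ((hpfin.union hqfin).subset ?_)
    intro θ hθ
    by_cases hqθ : q.eval θ = 0
    · exact Or.inr hqθ
    · left
      have h1 : f θ = 0 := hθ
      rw [hpq θ hqθ, div_eq_zero_iff] at h1
      exact h1.resolve_right hqθ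
  refine hqfin.subset ?_
  intro θ hθ
  by_contra hqθ
  exact hθ (by rw [hpq θ hqθ, hp]; simp)

theorem IsRat.eq_zero_of_continuousAt {f : ℂ → ℂ} (hf : IsRat f) (h : {θ | f θ = 0}.Infinite)
    {θ₁ : ℂ} (hc : ContinuousAt f θ₁) : f θ₁ = 0 := by
  have hfin := hf.finite_ne_zero h
  have hcl : IsClosed ({θ | f θ ≠ 0} \ {θ₁}) := (hfin.subset Set.sdiff_subset).isClosed
  have hev : ∀ᶠ θ in nhds θ₁, θ ∉ ({θ | f θ ≠ 0} \ {θ₁}) :=
    hcl.isOpen_compl.mem_nhds (by simp)
  have hev' : ∀ᶠ θ in nhdsWithin θ₁ {θ₁}ᶜ, f θ = 0 := by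
    filter_upwards [nhdsWithin_le_nhds hev, self_mem_nhdsWithin] with θ h1 h2
    by_contra hne
    exact h1 ⟨hne, h2⟩
  have ht : Filter.Tendsto f (nhdsWithin θ₁ {θ₁}ᶜ) (nhds (f θ₁)) :=
    hc.tendsto.mono_left nhdsWithin_le_nhds
  have ht0 : Filter.Tendsto f (nhdsWithin θ₁ {θ₁}ᶜ) (nhds 0) :=
    (tendsto_const_nhds).congr' (hev'.mono fun θ hθ => hθ.symm)
  exact tendsto_nhds_unique ht ht0

/-- a rational function which is continuous and nonzero at one point is nonzero off a finite set. -/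
theorem IsRat.finite_eq_zero {f : ℂ → ℂ} (hf : IsRat f) {θ₁ : ℂ} (hc : ContinuousAt f θ₁)
    (h1 : f θ₁ ≠ 0) : {θ | f θ = 0}.Finite := by
  by_contra hinf
  exact h1 (hf.eq_zero_of_continuousAt hinf hc)

end Claimed.Agent.R236
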