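import Claimed.Agent.R236.ChartAlg
import Claimed.Agent.R236.Rat1

/-!
# Row 236: the chart condition holds on a dense set of handles (blueprint section 9, last paragraph)
-/

namespace Claimed.Agent.R236

open Matrix Topology Filter

variable {n : ℕ}

attribute [local instance] Matrix.linftyOpNormedRing Matrix.linftyOpNormedAlgebra

/-! ### auxiliary facts on `cycX` -/

theorem chartEx_cycX_eq (n : ℕ) : cycX n = Equiv.Perm.permMatrix ℂ (finRotate n)⁻¹ := by
  rw [cycX, Matrix.transpose_permMatrix]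

theorem chartEx_perm_mul_cycX (n : ℕ) : Equiv.Perm.permMatrix ℂ (finRotate n) * cycX n = 1 := by
  rw [chartEx_cycX_eq, ← Matrix.permMatrix_mul]
  simp

theorem chartEx_cycX_mul_perm (n : ℕ) : cycX n * Equiv.Perm.permMatrix ℂ (finRotate n) = 1 := by
  rw [chartEx_cycX_eq, ← Matrix.permMatrix_mul]
  simp

theorem chartEx_cycX_inv (n : ℕ) : (cycX n)⁻¹ = Equiv.Perm.permMatrix ℂ (finRotate n) :=
  Matrix.inv_eq_right_inv (chartEx_cycX_mul_perm n)

theorem chartEx_isUnit_det_cycX (n : ℕ) : IsUnit (cycX n).det :=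
  (Matrix.isUnit_iff_isUnit_det _).mp ⟨⟨cycX n, _, chartEx_cycX_mul_perm n, chartEx_perm_mul_cycX n⟩, rfl⟩

theorem chartEx_one_vecMul_cycX (n : ℕ) : (fun _ : Fin n => (1 : ℂ)) ᵥ* cycX n = fun _ => 1 := by
  rw [chartEx_cycX_eq, Matrix.vecMul_permMatrix]
  rfl

theorem chartEx_isUnit_det_diagonal {x : Fin n → ℂ} (hx0 : ∀ i, x i ≠ 0) :
    IsUnit (Matrix.diagonal x).det := by
  rw [Matrix.det_diagonal, isUnit_iff_ne_zero]
  exact Finset.prod_ne_zero_iff.mpr fun i _ => hx0 i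

theorem chartEx_inv_diagonal {x : Fin n → ℂ} (hx0 : ∀ i, x i ≠ 0) :
    (Matrix.diagonal x)⁻¹ = Matrix.diagonal fun i => (x i)⁻¹ := by
  apply Matrix.inv_eq_right_inv
  rw [Matrix.diagonal_mul_diagonal, ← Matrix.diagonal_one]
  congr 1
  funext i
  exact mul_inv_cancel₀ (hx0 i)

/-- value of the characteristic polynomial of `diag x + a 1ᵀ` at `x i`. -/
theorem chartEx_eval_charpoly_upd (x a : Fin n → ℂ) (i : Fin n) :
    (upd (Matrix.diagonal x) a (fun _ => 1)).charpoly.eval (x i)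
      = - ((∏ j ∈ Finset.univ.erase i, (x i - x j)) * a i) := by
  rw [Matrix.eval_charpoly]
  have h1 : Matrix.scalar (Fin n) (x i) - upd (Matrix.diagonal x) a (fun _ => 1)
      = Matrix.diagonal (fun j => x i - x j) + Matrix.vecMulVec (-a) (fun _ => 1) := by
    ext p q
    by_cases hpq : p = q
    · subst hpq
      simp [upd, Matrix.vecMulVec_apply, Matrix.scalar_apply]
      ring
    · simp [upd, Matrix.vecMulVec_apply, Matrix.scalar_apply, hpq]
  rw [h1, det_add_vecMulVec, Matrix.det_diagonal, Matrix.adjugate_diagonal]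
  have h2 : ∏ j, (x i - x j) = 0 := Finset.prod_eq_zero (Finset.mem_univ i) (sub_self _)
  rw [h2, zero_add, dotProduct, Finset.sum_eq_single i]
  · simp [Matrix.mulVec_diagonal]
  · intro k _ hk
    have : ∏ j ∈ Finset.univ.erase k, (x i - x j) = 0 :=
      Finset.prod_eq_zero (Finset.mem_erase.mpr ⟨hk.symm, Finset.mem_univ i⟩) (sub_self _)
    simp [Matrix.mulVec_diagonal, this]
  · intro h; exact absurd (Finset.mem_univ i) h

theorem chartEx_upd_inj {x : Fin n → ℂ} (hx : Function.Injective x) {a a' : Fin n → ℂ}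
    (h : (upd (Matrix.diagonal x) a (fun _ => 1)).charpoly
      = (upd (Matrix.diagonal x) a' (fun _ => 1)).charpoly) : a = a' := by
  funext i
  have h1 := congrArg (Polynomial.eval (x i)) h
  rw [chartEx_eval_charpoly_upd, chartEx_eval_charpoly_upd] at h1
  have h2 : ∏ j ∈ Finset.univ.erase i, (x i - x j) ≠ 0 := by
    refine Finset.prod_ne_zero_iff.mpr fun j hj => sub_ne_zero.mpr fun hij => ?_
    exact (Finset.mem_erase.mp hj).1 (hx hij).symm
  exact mul_left_cancel₀ h2 (neg_injective h1)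

/-- conjugating `Ki (D + a bᵀ)` back by `C`. -/
theorem chartEx_charpoly_cm_mul_upd_gen {C D : Mat n} (hC : IsUnit C.det) (hD : IsUnit D.det)
    (a b : Fin n → ℂ) :
    (cm C D * upd D a b).charpoly = (upd D ((D * C⁻¹ * D⁻¹) *ᵥ a) (b ᵥ* C)).charpoly := by
  have h1 : cm C D * upd D a b = C * ((D * C⁻¹ * D⁻¹) * upd D a b) := by
    simp only [cm, Matrix.mul_assoc]
  have h2 : (D * C⁻¹ * D⁻¹) * upd D a b * C = upd D ((D * C⁻¹ * D⁻¹) *ᵥ a) (b ᵥ* C) := by
    rw [upd, upd, Matrix.mul_add, Matrix.add_mul, Matrix.mul_vecMulVec, Matrix.vecMulVec_mul,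
      Matrix.mul_assoc (D * C⁻¹), Matrix.nonsing_inv_mul _ hD, Matrix.mul_one, Matrix.mul_assoc,
      Matrix.nonsing_inv_mul _ hC, Matrix.mul_one]
  rw [h1, Matrix.charpoly_mul_comm, h2]

theorem chartEx_charpoly_cm_mul_upd {x : Fin n → ℂ} (hx0 : ∀ i, x i ≠ 0) (a : Fin n → ℂ) :
    (cm (cycX n) (Matrix.diagonal x) * upd (Matrix.diagonal x) a (fun _ => 1)).charpoly
      = (upd (Matrix.diagonal x)
          ((Matrix.diagonal x * (cycX n)⁻¹ * (Matrix.diagonal x)⁻¹) *ᵥ a) (fun _ => 1)).charpoly := by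
  rw [chartEx_charpoly_cm_mul_upd_gen (chartEx_isUnit_det_cycX n) (chartEx_isUnit_det_diagonal hx0),
    chartEx_one_vecMul_cycX]

/-- a vector fixed by the rotation is constant. -/
theorem chartEx_const_of_rot {m : ℕ} (w : Fin (m + 1) → ℂ)
    (h : ∀ i, w i = w (finRotate (m + 1) i)) (i : Fin (m + 1)) : w i = w 0 := by
  induction i using Fin.induction with
  | zero => rfl
  | succ i ih =>
    have h1 := h i.castSucc
    have h2 : finRotate (m + 1) i.castSucc = i.succ := by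
      have := finRotate_of_lt (n := m) i.isLt
      simp [Fin.ext_iff] at this ⊢
    rw [h2] at h1
    rw [← h1, ih]

/-- The example `(C, D) = (cycX n, diag x)`, `x` injective and nowhere zero, `b = (1,…,1)`, `l = e_0`.
Let `sysM *ᵥ a = 0`.  By `chPhi_affine` and `chPhi … 0 = 0` all `Φ_i(a)`, `1 ≤ i < n`, vanish, so
`charpoly (Ki (D + a bᵀ)) = charpoly (D + a bᵀ)` (`charpoly_eq_of_chPhi`).  Evaluate at `t = x_i` with
`det_add_vecMulVec`: `adj (x_i - D) = diag`, only the `i`-th entry `∏_{j≠i} (x_i - x_j)` is nonzero, and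
`adj (x_i - C D C⁻¹) = C adj (x_i - D) C⁻¹`.  This gives `b_i a_i = (Cᵀ b)_i (C⁻¹ Ki a)_i`, i.e.
`a = D C⁻¹ D⁻¹ a`, so `D⁻¹ a` is fixed by the cyclic permutation, `a = t x`; `l ⬝ a = t x_0 = 0`. -/
theorem sysM_example_det_ne_zero (hn : 1 ≤ n) (x : Fin n → ℂ) (hx : Function.Injective x)
    (hx0 : ∀ i, x i ≠ 0) :
    (sysM (cm (cycX n) (Matrix.diagonal x)) (Matrix.diagonal x) (fun _ => 1)
      (fun i => if (i : ℕ) = 0 then 1 else 0)).det ≠ 0 := by
  obtain ⟨m, rfl⟩ : ∃ m, n = m + 1 := ⟨n - 1, by omega⟩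
  intro hdet
  obtain ⟨a, ha0, ha⟩ := Matrix.exists_mulVec_eq_zero_iff.mpr hdet
  apply ha0
  have hD := chartEx_isUnit_det_diagonal hx0
  have hC := chartEx_isUnit_det_cycX (m + 1)
  -- `Φ(0) = 0`
  have hP0 : ∀ i : ℕ, chPhi (cm (cycX (m + 1)) (Matrix.diagonal x)) (Matrix.diagonal x)
      (fun _ => 1) 0 i = 0 := by
    intro i
    rw [chPhi, chartEx_charpoly_cm_mul_upd hx0, Matrix.mulVec_zero, sub_self]
  -- `Φ(a) = 0`
  have hPa : ∀ i : ℕ, 1 ≤ i → i < m + 1 → chPhi (cm (cycX (m + 1)) (Matrix.diagonal x))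
      (Matrix.diagonal x) (fun _ => 1) a i = 0 := by
    intro i hi1 hi2
    rw [chPhi_affine, hP0, zero_add]
    have h1 := congrFun ha ⟨i, hi2⟩
    simp only [sysM, Matrix.mulVec, dotProduct, Matrix.of_apply, Pi.zero_apply] at h1
    refine Eq.trans (Finset.sum_congr rfl fun j _ => ?_) h1
    rw [if_neg (by omega), mul_comm, hP0]
  have hchar := charpoly_eq_of_chPhi (det_cm hC hD) (fun _ => 1) a hPa
  rw [chartEx_charpoly_cm_mul_upd hx0] at hchar
  have hfix := chartEx_upd_inj hx hchar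
  -- row `0`
  have ha00 : a 0 = 0 := by
    have h1 : ∑ j, sysM (cm (cycX (m + 1)) (Matrix.diagonal x)) (Matrix.diagonal x) (fun _ => 1)
      (fun i => if (i : ℕ) = 0 then 1 else 0) 0 j * a j = 0 := congrFun ha 0
    rw [Finset.sum_eq_single 0] at h1
    · simpa [sysM] using h1
    · intro j _ hj
      simp [sysM, hj]
    · intro h; exact absurd (Finset.mem_univ _) h
  -- `w = D⁻¹ a` is fixed by the rotation
  have hw : ∀ i, a i / x i = a (finRotate (m + 1) i) / x (finRotate (m + 1) i) := by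
    intro i
    have h1 := congrFun hfix i
    rw [chartEx_cycX_inv, chartEx_inv_diagonal hx0, ← Matrix.mulVec_mulVec, ← Matrix.mulVec_mulVec,
      Matrix.mulVec_diagonal, Matrix.permMatrix_mulVec, Function.comp_apply,
      Matrix.mulVec_diagonal] at h1
    rw [← h1]
    field_simp [hx0 i]
  funext i
  have h1 := chartEx_const_of_rot (fun i => a i / x i) hw i
  simp only [ha00, zero_div] at h1
  simpa [hx0 i] using h1

theorem W0_example (hn : 1 ≤ n) (x : Fin n → ℂ) (hx : Function.Injective x) (hx0 : ∀ i, x i ≠ 0) :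
    W0 (cycX n) (Matrix.diagonal x) := by
  refine ⟨fun _ => 1, fun i => if (i : ℕ) = 0 then 1 else 0, fun _ => 1,
    sysM_example_det_ne_zero hn x hx hx0, ?_⟩
  rw [kry_diagonal_one]
  exact Matrix.det_vandermonde_ne_zero_iff.mpr hx

/-! ### density -/

theorem chartEx_polyMap_upd (a b : Fin n → ℂ) : PolyMap fun D : Mat n => upd D a b :=
  polyMap_id.add (polyMap_const _)

theorem chartEx_polyFun_chPhi (b a : Fin n → ℂ) (i : ℕ) :
    (fun p : Mat n × Mat n => chPhi p.1 p.2 b a i) ∈ PolyFun (Mat n × Mat n) := by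
  have h2 : PolyMap fun p : Mat n × Mat n => upd p.2 a b :=
    (chartEx_polyMap_upd a b).comp (PolyMap.snd polyMap_id)
  have h1 : PolyMap fun p : Mat n × Mat n => p.1 * upd p.2 a b :=
    PolyMap.matMul (PolyMap.fst polyMap_id) h2
  exact PolyFun.sub (h1.charpoly_coeff i) (h2.charpoly_coeff i)

theorem chartEx_polyMap_sysM (b l : Fin n → ℂ) :
    PolyMap fun p : Mat n × Mat n => sysM p.1 p.2 b l := by
  rw [polyMap_matrix]
  intro i j
  by_cases hi : (i : ℕ) = 0
  · simp only [sysM, Matrix.of_apply, if_pos hi]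
    exact PolyFun.const _
  · simp only [sysM, Matrix.of_apply, if_neg hi]
    exact PolyFun.sub (chartEx_polyFun_chPhi b _ _) (chartEx_polyFun_chPhi b _ _)

theorem chartEx_polyMap_kry (v : Fin n → ℂ) : PolyMap fun D : Mat n => kry D v := by
  rw [polyMap_matrix]
  intro i k
  have h1 : PolyMap fun D : Mat n => (D ^ (k : ℕ)) *ᵥ v :=
    PolyMap.mulVec (PolyMap.matPow polyMap_id _) (polyMap_const v)
  exact (polyMap_pi.mp h1 i) LinearMap.id

theorem chartEx_isRatV_mul {γ γ' : ℂ → Mat n} (h : IsRatV γ) (h' : IsRatV γ') :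
    IsRatV fun θ => γ θ * γ' θ :=
  (h.prodMk h').polyMap (Φ := fun p : Mat n × Mat n => p.1 * p.2)
    (PolyMap.matMul (PolyMap.fst polyMap_id) (PolyMap.snd polyMap_id))

theorem chartEx_isRatV_cm {γ γ' : ℂ → Mat n} (h : IsRatV γ) (h' : IsRatV γ') :
    IsRatV fun θ => cm (γ θ) (γ' θ) :=
  chartEx_isRatV_mul (chartEx_isRatV_mul (chartEx_isRatV_mul h h') h.matInv) h'.matInv

theorem chartEx_continuousAt_inv {A : Mat n} (hA : IsUnit A.det) :
    ContinuousAt (fun B : Mat n => B⁻¹) A := by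
  have h1 : (fun B : Mat n => B⁻¹) = fun B : Mat n => (B.det)⁻¹ • B.adjugate := by
    funext B
    rw [Matrix.inv_def, Ring.inverse_eq_inv']
  rw [h1]
  have hdet : Continuous fun B : Mat n => B.det := continuous_id.matrix_det
  have hadj : Continuous fun B : Mat n => B.adjugate := continuous_id.matrix_adjugate
  exact (hdet.continuousAt.inv₀ hA.ne_zero).smul hadj.continuousAt

theorem chartEx_continuousAt_cm {γ γ' : ℂ → Mat n} {θ : ℂ} (h : ContinuousAt γ θ)
    (h' : ContinuousAt γ' θ) (hu : IsUnit (γ θ).det) (hu' : IsUnit (γ' θ).det) :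
    ContinuousAt (fun θ => cm (γ θ) (γ' θ)) θ := by
  have i1 : ContinuousAt (fun θ => (γ θ)⁻¹) θ :=
    ContinuousAt.comp (f := γ) (g := fun B : Mat n => B⁻¹) (chartEx_continuousAt_inv hu) h
  have i2 : ContinuousAt (fun θ => (γ' θ)⁻¹) θ :=
    ContinuousAt.comp (f := γ') (g := fun B : Mat n => B⁻¹) (chartEx_continuousAt_inv hu') h'
  exact ((h.mul h').mul i1).mul i2

theorem chartEx_continuous_det_sysM (b l : Fin n → ℂ) :
    Continuous fun p : Mat n × Mat n => (sysM p.1 p.2 b l).det :=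
  PolyFun.continuous (chartEx_polyMap_sysM b l).det

theorem chartEx_continuous_det_kry (b : Fin n → ℂ) :
    Continuous fun D : Mat n => (kry D b).det :=
  PolyFun.continuous (chartEx_polyMap_kry b).det

theorem chartEx_continuousAt_comp₂ (F : Mat n × Mat n → ℂ) (hF : Continuous F) {γ γ' : ℂ → Mat n}
    {θ : ℂ} (h : ContinuousAt γ θ) (h' : ContinuousAt γ' θ) :
    ContinuousAt (fun θ => F (γ θ, γ' θ)) θ := by
  have c1 : ContinuousAt (fun θ => (γ θ, γ' θ)) θ := h.prodMk h'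
  exact (hF.tendsto _).comp c1

theorem chartEx_continuousAt_det_sysM {γ γ' : ℂ → Mat n} {θ : ℂ} (h : ContinuousAt γ θ)
    (h' : ContinuousAt γ' θ) (hu : IsUnit (γ θ).det) (hu' : IsUnit (γ' θ).det) (b l : Fin n → ℂ) :
    ContinuousAt (fun θ => (sysM (cm (γ θ) (γ' θ)) (γ' θ) b l).det) θ := by
  exact chartEx_continuousAt_comp₂ (fun p : Mat n × Mat n => (sysM p.1 p.2 b l).det)
    (chartEx_continuous_det_sysM b l) (chartEx_continuousAt_cm h h' hu hu') h'

/-- density: on the line from `(C, D)` to the example, the product of `det sysM`, `det kry`, `det C`,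
`det D` is a rational function of the parameter (`Rat1`), continuous and nonzero at the example, hence
nonzero off a finite set. -/
theorem W0_dense (hn : 1 ≤ n) (C D : Mat n) :
    ∀ N ∈ 𝓝 (C, D), ∃ x ∈ N, IsUnit x.1.det ∧ IsUnit x.2.det ∧ W0 x.1 x.2 := by
  intro N hN
  -- the example
  let x : Fin n → ℂ := fun i => ((i : ℕ) : ℂ) + 1
  have hx : Function.Injective x := by
    intro i j hij
    have : ((i : ℕ) : ℂ) = ((j : ℕ) : ℂ) := add_right_cancel hij
    exact Fin.ext (Nat.cast_injective this)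
  have hx0 : ∀ i, x i ≠ 0 := fun i => Nat.cast_add_one_ne_zero _
  let b : Fin n → ℂ := fun _ => 1
  let l : Fin n → ℂ := fun i => if (i : ℕ) = 0 then 1 else 0
  let γ₁ : ℂ → Mat n := fun θ => C + θ • (cycX n - C)
  let γ₂ : ℂ → Mat n := fun θ => D + θ • (Matrix.diagonal x - D)
  have hγ₁ : IsRatV γ₁ := isRatV_line _ _
  have hγ₂ : IsRatV γ₂ := isRatV_line _ _
  have cγ₁ : Continuous γ₁ := by fun_prop
  have cγ₂ : Continuous γ₂ := by fun_prop
  have e₁ : γ₁ 1 = cycX n := by simp [γ₁]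
  have e₂ : γ₂ 1 = Matrix.diagonal x := by simp [γ₂]
  have z₁ : γ₁ 0 = C := by simp [γ₁]
  have z₂ : γ₂ 0 = D := by simp [γ₂]
  -- the four factors
  have hS : (fun p : Mat n × Mat n => (sysM p.1 p.2 b l).det) ∈ PolyFun (Mat n × Mat n) :=
    (chartEx_polyMap_sysM b l).det
  have hK : (fun D : Mat n => (kry D b).det) ∈ PolyFun (Mat n) := (chartEx_polyMap_kry b).det
  have hdet : (fun D : Mat n => D.det) ∈ PolyFun (Mat n) := polyMap_id.det
  let f : ℂ → ℂ := fun θ => (sysM (cm (γ₁ θ) (γ₂ θ)) (γ₂ θ) b l).det * (kry (γ₂ θ) b).det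
    * (γ₁ θ).det * (γ₂ θ).det
  have hf : IsRat f :=
    (((((chartEx_isRatV_cm hγ₁ hγ₂).prodMk hγ₂).polyFun hS).mul (hγ₂.polyFun hK)).mul
      (hγ₁.polyFun hdet)).mul (hγ₂.polyFun hdet)
  have hu₁ : IsUnit (γ₁ 1).det := by rw [e₁]; exact chartEx_isUnit_det_cycX n
  have hu₂ : IsUnit (γ₂ 1).det := by rw [e₂]; exact chartEx_isUnit_det_diagonal hx0
  have hc : ContinuousAt f 1 := by
    have c2 : ContinuousAt (fun θ => (sysM (cm (γ₁ θ) (γ₂ θ)) (γ₂ θ) b l).det) 1 :=
      chartEx_continuousAt_det_sysM cγ₁.continuousAt cγ₂.continuousAt hu₁ hu₂ b l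
    have c3 : Continuous (fun θ => (kry (γ₂ θ) b).det) := (chartEx_continuous_det_kry b).comp cγ₂
    have c4 : Continuous (fun θ => (γ₁ θ).det) := cγ₁.matrix_det
    have c5 : Continuous (fun θ => (γ₂ θ).det) := cγ₂.matrix_det
    exact ((c2.mul c3.continuousAt).mul c4.continuousAt).mul c5.continuousAt
  have h1 : f 1 ≠ 0 := by
    simp only [f, e₁, e₂]
    refine mul_ne_zero (mul_ne_zero (mul_ne_zero (sysM_example_det_ne_zero hn x hx hx0) ?_)
      (chartEx_isUnit_det_cycX n).ne_zero) (chartEx_isUnit_det_diagonal hx0).ne_zero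
    rw [kry_diagonal_one]
    exact Matrix.det_vandermonde_ne_zero_iff.mpr hx
  have hfin : {θ | f θ = 0}.Finite := hf.finite_eq_zero hc h1
  -- a good parameter near `0`
  have hpre : (fun θ => (γ₁ θ, γ₂ θ)) ⁻¹' N ∈ 𝓝 (0 : ℂ) := by
    apply (cγ₁.prodMk cγ₂).continuousAt
    simpa only [z₁, z₂] using hN
  have hinf : ((fun θ => (γ₁ θ, γ₂ θ)) ⁻¹' N).Infinite := infinite_of_mem_nhds 0 hpre
  obtain ⟨θ, hθN, hθ⟩ := (hinf.sdiff hfin).nonempty
  have hθ' : f θ ≠ 0 := hθ
  simp only [f, mul_ne_zero_iff] at hθ'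
  obtain ⟨⟨⟨a1, a2⟩, a3⟩, a4⟩ := hθ'
  exact ⟨(γ₁ θ, γ₂ θ), hθN, isUnit_iff_ne_zero.mpr a3, isUnit_iff_ne_zero.mpr a4, b, l, b, a1, a2⟩

end Claimed.Agent.R236
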