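import Claimed.Agent.R236.Basic

/-!
# Row 236: elementary facts on cyclic matrices (blueprint section 7: R5, dimension of the commutant,
openness)
-/

namespace Claimed.Agent.R236

open Matrix Module

variable {n : ℕ}

attribute [local instance] Matrix.linftyOpNormedRing Matrix.linftyOpNormedAlgebra

/-- columns of the Krylov matrix. -/
theorem kry_mulVec_single (A : Mat n) (v : Fin n → ℂ) (k : Fin n) :
    kry A v *ᵥ Pi.single k 1 = (A ^ (k : ℕ)) *ᵥ v := by
  ext i
  rw [Matrix.mulVec_single_one]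
  rfl

/-- `p_s(A) v = K(A,v) s`. -/
theorem pS_mulVec_eq_kry_mulVec (A : Mat n) (v s : Fin n → ℂ) :
    pS s A *ᵥ v = kry A v *ᵥ s := by
  ext i
  simp only [pS, kry, Matrix.mulVec, dotProduct, Matrix.of_apply, Matrix.sum_apply,
    Matrix.smul_apply, smul_eq_mul, Finset.sum_mul]
  rw [Finset.sum_comm]
  refine Finset.sum_congr rfl fun k _ => ?_
  refine Finset.sum_congr rfl fun j _ => ?_
  ring

/-- if `v` is cyclic, every vector is `p(A) v`. -/
theorem exists_pS_mulVec_eq {A : Mat n} {v : Fin n → ℂ} (h : (kry A v).det ≠ 0) (y : Fin n → ℂ) :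
    ∃ s : Fin n → ℂ, pS s A *ᵥ v = y := by
  refine ⟨(kry A v)⁻¹ *ᵥ y, ?_⟩
  rw [pS_mulVec_eq_kry_mulVec, Matrix.mulVec_mulVec,
    Matrix.mul_nonsing_inv _ (isUnit_iff_ne_zero.mpr h), Matrix.one_mulVec]

/-- every power of `A` is a `pS`. -/
theorem exists_pS_eq_pow (A : Mat n) (k : ℕ) : ∃ s : Fin n → ℂ, A ^ k = pS s A := by
  have hdeg : (Polynomial.X ^ k %ₘ A.charpoly).natDegree < n ∨ n = 0 := by
    rcases Nat.eq_zero_or_pos n with h0 | hpos
    · exact Or.inr h0
    · left
      have h1 : (Polynomial.X ^ k %ₘ A.charpoly).natDegree < A.charpoly.natDegree := by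
        apply Polynomial.natDegree_modByMonic_lt _ (Matrix.charpoly_monic A)
        intro h1
        have := Matrix.charpoly_natDegree_eq_dim A
        rw [h1] at this
        simp at this
        omega
      rwa [Matrix.charpoly_natDegree_eq_dim, Fintype.card_fin] at h1
  rcases hdeg with hdeg | h0
  · refine ⟨fun j => (Polynomial.X ^ k %ₘ A.charpoly).coeff j, ?_⟩
    rw [Matrix.pow_eq_aeval_mod_charpoly, Polynomial.aeval_eq_sum_range' hdeg, pS,
      Finset.sum_range]
  · subst h0
    exact ⟨0, Subsingleton.elim _ _⟩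

/-- conversely: if the vectors `A^k v` (`k ∈ ℕ`) span, then `v` is cyclic (Cayley-Hamilton reduces
the powers `k ≥ n`). -/
theorem isCyc_of_span_eq_top {A : Mat n} {v : Fin n → ℂ}
    (h : Submodule.span ℂ (Set.range fun k : ℕ => (A ^ k) *ᵥ v) = ⊤) : (kry A v).det ≠ 0 := by
  have hle : Submodule.span ℂ (Set.range fun k : ℕ => (A ^ k) *ᵥ v)
      ≤ LinearMap.range (kry A v).mulVecLin := by
    rw [Submodule.span_le]
    rintro _ ⟨k, rfl⟩
    obtain ⟨s, hs⟩ := exists_pS_eq_pow A k
    refine ⟨s, ?_⟩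
    simp only [Matrix.mulVecLin_apply]
    rw [hs, pS_mulVec_eq_kry_mulVec]
  rw [h, top_le_iff, LinearMap.range_eq_top] at hle
  have hs : Function.Surjective (kry A v).mulVec := hle
  rw [Matrix.mulVec_surjective_iff_isUnit, Matrix.isUnit_iff_isUnit_det] at hs
  exact hs.ne_zero

/-- (R5) `ℂ^n = ℂ v + Im (Y - c)`, so the kernel of `Y - c` has dimension `≤ 1`. -/
theorem IsCyc.ker_le_one {Y : Mat n} (h : IsCyc Y) (c : ℂ) :
    finrank ℂ (LinearMap.ker (Matrix.toLin' (Y - c • (1 : Mat n)))) ≤ 1 := by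
  obtain ⟨v, hv⟩ := h
  set f := Matrix.toLin' (Y - c • (1 : Mat n)) with hf
  have hpow : ∀ k : ℕ, (Y ^ k) *ᵥ v ∈ LinearMap.range f ⊔ Submodule.span ℂ {v} := by
    intro k
    induction k with
    | zero =>
      rw [pow_zero, Matrix.one_mulVec]
      exact Submodule.mem_sup_right (Submodule.mem_span_singleton_self v)
    | succ k ih =>
      have h1 : (Y ^ (k + 1)) *ᵥ v = f ((Y ^ k) *ᵥ v) + c • ((Y ^ k) *ᵥ v) := by
        rw [hf, Matrix.toLin'_apply, Matrix.sub_mulVec, Matrix.smul_mulVec, Matrix.one_mulVec,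
          Matrix.mulVec_mulVec, ← pow_succ']
        abel
      rw [h1]
      exact Submodule.add_mem _ (Submodule.mem_sup_left ⟨_, rfl⟩) (Submodule.smul_mem _ _ ih)
  have htop : LinearMap.range f ⊔ Submodule.span ℂ {v} = ⊤ := by
    rw [eq_top_iff]
    intro y _
    obtain ⟨s, rfl⟩ := exists_pS_mulVec_eq hv y
    rw [pS, Matrix.sum_mulVec]
    refine Submodule.sum_mem _ fun k _ => ?_
    rw [Matrix.smul_mulVec]
    exact Submodule.smul_mem _ _ (hpow k)
  have h1 : finrank ℂ (Fin n → ℂ) ≤ finrank ℂ (LinearMap.range f) + 1 := by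
    calc finrank ℂ (Fin n → ℂ) = finrank ℂ (⊤ : Submodule ℂ (Fin n → ℂ)) := (finrank_top ℂ _).symm
      _ = finrank ℂ (LinearMap.range f ⊔ Submodule.span ℂ {v} : Submodule ℂ (Fin n → ℂ)) := by
          rw [htop]
      _ ≤ finrank ℂ (LinearMap.range f) + finrank ℂ (Submodule.span ℂ {v}) :=
          Submodule.finrank_add_le_finrank_add_finrank _ _
      _ ≤ finrank ℂ (LinearMap.range f) + 1 := by
          gcongr
          exact le_trans (finrank_span_le_card {v}) (by simp)
  have h2 := LinearMap.finrank_range_add_finrank_ker f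
  omega

/-- a matrix commuting with `A` and killing a cyclic vector vanishes. -/
theorem eq_zero_of_comm_of_mulVec_eq_zero {A : Mat n} {v : Fin n → ℂ} (hv : (kry A v).det ≠ 0)
    {w : Mat n} (hw : w * A = A * w) (h0 : w *ᵥ v = 0) : w = 0 := by
  have hc : ∀ k : ℕ, w * A ^ k = A ^ k * w := fun k => (Commute.pow_right (show Commute w A from hw) k)
  have hk : w * kry A v = 0 := by
    ext i k
    have h1 : (w * kry A v) *ᵥ Pi.single k 1 = 0 := by
      rw [← Matrix.mulVec_mulVec, kry_mulVec_single, Matrix.mulVec_mulVec, hc,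
        ← Matrix.mulVec_mulVec, h0, Matrix.mulVec_zero]
    rw [Matrix.mulVec_single_one] at h1
    exact congrFun h1 i
  have hu : IsUnit (kry A v).det := isUnit_iff_ne_zero.mpr hv
  calc w = w * (kry A v * (kry A v)⁻¹) := by rw [Matrix.mul_nonsing_inv _ hu, mul_one]
    _ = 0 := by rw [← mul_assoc, hk, zero_mul]

theorem mem_ker_adL_iff {A w : Mat n} : w ∈ LinearMap.ker (adL A) ↔ w * A = A * w := by
  rw [LinearMap.mem_ker, adL, LinearMap.sub_apply, LinearMap.mulRight_apply,
    LinearMap.mulLeft_apply, sub_eq_zero]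

/-- the commutant of a cyclic matrix has dimension `≤ n` (`w ↦ w v` is injective on it). -/
theorem IsCyc.finrank_ker_adL_le {A : Mat n} (h : IsCyc A) :
    finrank ℂ (LinearMap.ker (adL A)) ≤ n := by
  obtain ⟨v, hv⟩ := h
  let φ : LinearMap.ker (adL A) →ₗ[ℂ] (Fin n → ℂ) :=
    { toFun := fun w => (w : Mat n) *ᵥ v
      map_add' := fun a b => by simp [Matrix.add_mulVec]
      map_smul' := fun t a => by simp [Matrix.smul_mulVec] }
  have hinj : Function.Injective φ := by
    rw [← LinearMap.ker_eq_bot, LinearMap.ker_eq_bot']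
    intro w hw0
    apply Subtype.ext
    exact eq_zero_of_comm_of_mulVec_eq_zero hv (mem_ker_adL_iff.mp w.2) hw0
  have := LinearMap.finrank_le_finrank_of_injective hinj
  simpa using this

theorem pS_comm (s : Fin n → ℂ) (A : Mat n) : pS s A * A = A * pS s A := by
  rw [pS, Finset.sum_mul, Finset.mul_sum]
  refine Finset.sum_congr rfl fun k _ => ?_
  rw [smul_mul_assoc, mul_smul_comm, ← pow_succ, ← pow_succ']

/-- an element commuting with a cyclic matrix is a polynomial in it. -/
theorem IsCyc.exists_pS_eq {A : Mat n} (h : IsCyc A) {w : Mat n} (hw : w * A = A * w) :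
    ∃ s : Fin n → ℂ, w = pS s A := by
  obtain ⟨v, hv⟩ := h
  obtain ⟨s, hs⟩ := exists_pS_mulVec_eq hv (w *ᵥ v)
  refine ⟨s, ?_⟩
  have h0 : w - pS s A = 0 := by
    apply eq_zero_of_comm_of_mulVec_eq_zero hv
    · rw [sub_mul, mul_sub, hw, pS_comm]
    · rw [Matrix.sub_mulVec, hs, sub_self]
  exact sub_eq_zero.mp h0

theorem isOpen_isCyc : IsOpen {A : Mat n | IsCyc A} := by
  have : {A : Mat n | IsCyc A} = ⋃ v : Fin n → ℂ, {A : Mat n | (kry A v).det ≠ 0} := by
    ext A
    simp [IsCyc]
  rw [this]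
  refine isOpen_iUnion fun v => ?_
  have hc : Continuous fun A : Mat n => (kry A v).det := by
    apply Continuous.matrix_det
    apply continuous_matrix
    intro i k
    have h1 : Continuous fun A : Mat n => (A ^ (k : ℕ)) *ᵥ v :=
      (continuous_pow (k : ℕ)).matrix_mulVec continuous_const
    exact (continuous_apply i).comp h1
  exact isOpen_ne_fun hc continuous_const

theorem kry_diagonal_one (d : Fin n → ℂ) :
    kry (Matrix.diagonal d) (fun _ => 1) = Matrix.vandermonde d := by
  ext i k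
  simp [kry, Matrix.diagonal_pow, Matrix.mulVec_diagonal, Matrix.vandermonde_apply]

/-- a diagonal matrix with distinct entries is cyclic (vector `(1,…,1)`, Vandermonde). -/
theorem isCyc_diagonal {d : Fin n → ℂ} (hd : Function.Injective d) : IsCyc (Matrix.diagonal d) := by
  refine ⟨fun _ => 1, ?_⟩
  rw [kry_diagonal_one]
  exact Matrix.det_vandermonde_ne_zero_iff.mpr hd

/-- every diagonal matrix is a polynomial in a diagonal matrix with distinct entries. -/
theorem exists_pS_diagonal {d : Fin n → ℂ} (hd : Function.Injective d) (y : Fin n → ℂ) :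
    ∃ s : Fin n → ℂ, pS s (Matrix.diagonal d) = Matrix.diagonal y := by
  have hdet : (kry (Matrix.diagonal d) (fun _ => 1)).det ≠ 0 := by
    rw [kry_diagonal_one]
    exact Matrix.det_vandermonde_ne_zero_iff.mpr hd
  obtain ⟨s, hs⟩ := exists_pS_mulVec_eq hdet y
  refine ⟨s, ?_⟩
  have hdiag : pS s (Matrix.diagonal d) = Matrix.diagonal fun i => ∑ k : Fin n, s k * d i ^ (k : ℕ) := by
    ext i j
    simp only [pS, Matrix.diagonal_pow, Matrix.sum_apply, Matrix.smul_apply, smul_eq_mul]
    by_cases hij : i = j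
    · subst hij
      simp
    · simp [Matrix.diagonal_apply_ne _ hij]
  rw [hdiag] at hs ⊢
  congr 1
  ext i
  have := congrFun hs i
  simpa [Matrix.mulVec_diagonal] using this

end Claimed.Agent.R236
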