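import Claimed.Agent.R236.Cyc1
import Claimed.Agent.R236.Cyc2

/-!
# Row 236: the pencil lemma (blueprint section 7: R6)
-/

namespace Claimed.Agent.R236

open Matrix Module

variable {n : ℕ}

/-- the Krylov determinant of the pencil `X - t A'` as a polynomial in `t`. -/
noncomputable def pencilPoly (X A' : Mat n) (v : Fin n → ℂ) : Polynomial ℂ :=
  (Matrix.of fun i k : Fin n =>
    (((X.map Polynomial.C - (Polynomial.X : Polynomial ℂ) • A'.map Polynomial.C) ^ (k : ℕ))
      *ᵥ fun j => Polynomial.C (v j)) i).det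

theorem pencilPoly_eval (X A' : Mat n) (v : Fin n → ℂ) (t : ℂ) :
    (pencilPoly X A' v).eval t = (kry (X - t • A') v).det := by
  have hP : (Polynomial.evalRingHom t).mapMatrix
      (X.map Polynomial.C - (Polynomial.X : Polynomial ℂ) • A'.map Polynomial.C) = X - t • A' := by
    ext i j
    simp
    ring
  rw [pencilPoly, ← Polynomial.coe_evalRingHom, RingHom.map_det]
  congr 1
  ext i k
  rw [RingHom.mapMatrix_apply, Matrix.map_apply, Matrix.of_apply, RingHom.map_mulVec,
    ← RingHom.mapMatrix_apply, map_pow, hP]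
  simp only [kry, Matrix.of_apply]
  have hv : (⇑(Polynomial.evalRingHom t) ∘ fun j => Polynomial.C (v j)) = v := by
    ext j
    simp
  rw [hv]

/-- `X - t A⁻¹` is cyclic for all but finitely many `t`: with `v` cyclic for `X`,
`t ↦ det (kry (X - t • A') v)` is a polynomial function of `t`, nonzero at `t = 0`. -/
theorem finite_not_isCyc_sub_smul (X A' : Mat n) (hX : IsCyc X) :
    {t : ℂ | ¬ IsCyc (X - t • A')}.Finite := by
  obtain ⟨v, hv⟩ := hX
  have hne : pencilPoly X A' v ≠ 0 := by
    intro h0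
    have h1 := pencilPoly_eval X A' v 0
    rw [h0] at h1
    simp only [Polynomial.eval_zero, zero_smul, sub_zero] at h1
    exact hv h1.symm
  refine (Polynomial.finite_setOfPred_isRoot hne).subset fun t ht => ?_
  by_contra hroot
  refine ht ⟨v, ?_⟩
  rw [← pencilPoly_eval]
  exact hroot

theorem pencil_ker_mul_left (A M : Mat n) (hA : IsUnit A.det) :
    LinearMap.ker (Matrix.toLin' (A * M)) = LinearMap.ker (Matrix.toLin' M) := by
  have hinj : Function.Injective A.mulVec :=
    Matrix.mulVec_injective_iff_isUnit.2 ((Matrix.isUnit_iff_isUnit_det A).2 hA)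
  ext v
  simp only [LinearMap.mem_ker, Matrix.toLin'_apply, ← Matrix.mulVec_mulVec]
  constructor
  · intro h
    exact hinj (by rw [h, Matrix.mulVec_zero])
  · intro h
    rw [h, Matrix.mulVec_zero]

theorem pencil_ker_smul (M : Mat n) {a : ℂ} (ha : a ≠ 0) :
    LinearMap.ker (Matrix.toLin' (a • M)) = LinearMap.ker (Matrix.toLin' M) := by
  rw [map_smul, LinearMap.ker_smul _ _ ha]

theorem pencil_hasEigenvalue (Y : Mat n) (c : ℂ)
    (h : LinearMap.ker (Matrix.toLin' (Y - c • (1 : Mat n))) ≠ ⊥) :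
    Module.End.HasEigenvalue (Matrix.toLin' Y) c := by
  have : Module.End.eigenspace (Matrix.toLin' Y) c
      = LinearMap.ker (Matrix.toLin' (Y - c • (1 : Mat n))) := by
    rw [Module.End.eigenspace_def, map_sub, map_smul, Matrix.toLin'_one]
    rfl
  rw [Module.End.hasEigenvalue_iff, this]
  exact h

/-- the set of `(c,t)` where `A (X - c) - t` has corank `≥ 2` is finite:
`A (X - c) - t = A ((X - t A⁻¹) - c)`; for `t` outside the finite set above use `IsCyc.ker_le_one`;
for each of the finitely many remaining `t` the number `c` must be an eigenvalue of `X - t A⁻¹`. -/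
theorem finite_bad_pairs (A X : Mat n) (hA : IsUnit A.det) (hX : IsCyc X) :
    {x : ℂ × ℂ | 1 < finrank ℂ (LinearMap.ker
      (Matrix.toLin' (A * (X - x.1 • (1 : Mat n)) - x.2 • (1 : Mat n))))}.Finite := by
  have hF := finite_not_isCyc_sub_smul X A⁻¹ hX
  have hfin : (⋃ t ∈ {t : ℂ | ¬ IsCyc (X - t • A⁻¹)},
      {c : ℂ | Module.End.HasEigenvalue (Matrix.toLin' (X - t • A⁻¹)) c} ×ˢ ({t} : Set ℂ)).Finite :=
    hF.biUnion fun t _ => (Module.End.finite_hasEigenvalue _).prod (Set.finite_singleton t)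
  refine hfin.subset ?_
  rintro ⟨c, t⟩ hx
  have hx' : 1 < finrank ℂ (LinearMap.ker
      (Matrix.toLin' (A * (X - c • (1 : Mat n)) - t • (1 : Mat n)))) := hx
  have hrew : A * (X - c • (1 : Mat n)) - t • (1 : Mat n)
      = A * ((X - t • A⁻¹) - c • (1 : Mat n)) := by
    have h1 : A * A⁻¹ = 1 := Matrix.mul_nonsing_inv A hA
    rw [mul_sub, mul_sub, mul_sub, mul_smul_comm, mul_smul_comm, h1]
    abel
  rw [hrew, pencil_ker_mul_left _ _ hA] at hx'
  have hnc : ¬ IsCyc (X - t • A⁻¹) := fun hc => absurd (hc.ker_le_one c) (not_le.2 hx')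
  have hne : LinearMap.ker (Matrix.toLin' ((X - t • A⁻¹) - c • (1 : Mat n))) ≠ ⊥ := by
    intro h0
    rw [h0, finrank_bot] at hx'
    omega
  simp only [Set.mem_iUnion]
  exact ⟨t, hnc, pencil_hasEigenvalue _ _ hne, rfl⟩

/-- (R6) **pencil lemma**: for `c = 1/ε` outside the projection of the finite bad set,
`A (X - c)` is cyclic by `isCyc_of_ker_le_one`; `A (1 - ε X) = -ε • A (X - c)`; cyclicity is invariant
under nonzero scalars; `det (1 - ε X)` is a nonzero polynomial in `ε`. -/
theorem pencil (A X : Mat n) (hA : IsUnit A.det) (hX : IsCyc X) :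
    {ε : ℂ | ¬ (IsCyc (A * (1 - ε • X)) ∧ IsUnit (A * (1 - ε • X)).det)}.Finite := by
  have hB := finite_bad_pairs A X hA hX
  have hB1 := (hB.image Prod.fst).preimage (f := fun ε : ℂ => ε⁻¹) inv_injective.injOn
  have hE := (Module.End.finite_hasEigenvalue (Matrix.toLin' X)).preimage
    (f := fun ε : ℂ => ε⁻¹) inv_injective.injOn
  refine (((Set.finite_singleton (0 : ℂ)).union hB1).union hE).subset ?_
  intro ε hε
  by_contra hnot
  simp only [Set.mem_union, Set.mem_singleton_iff, Set.mem_preimage, not_or] at hnot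
  obtain ⟨⟨hε0, hbad⟩, heig⟩ := hnot
  refine hε ⟨?_, ?_⟩
  · refine isCyc_of_ker_le_one _ fun t => ?_
    have hrew : A * (1 - ε • X) - t • (1 : Mat n)
        = (-ε) • (A * (X - ε⁻¹ • (1 : Mat n)) - (-(t / ε)) • (1 : Mat n)) := by
      rw [smul_sub, ← mul_smul_comm, smul_sub, smul_smul, smul_smul]
      have e1 : -ε * ε⁻¹ = -1 := by field_simp
      have e2 : -ε * -(t / ε) = t := by field_simp
      rw [e1, e2]
      congr 2
      rw [neg_smul, neg_smul, one_smul]
      abel
    rw [hrew, pencil_ker_smul _ (neg_ne_zero.2 hε0)]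
    by_contra hlt
    exact hbad ⟨(ε⁻¹, -(t / ε)), not_le.1 hlt, rfl⟩
  · rw [Matrix.det_mul]
    refine hA.mul (isUnit_iff_ne_zero.2 fun hdet => heig ?_)
    obtain ⟨v, hv0, hv⟩ := Matrix.exists_mulVec_eq_zero_iff.2 hdet
    refine pencil_hasEigenvalue X ε⁻¹ fun hbot => hv0 ?_
    have hmem : v ∈ LinearMap.ker (Matrix.toLin' (X - ε⁻¹ • (1 : Mat n))) := by
      rw [LinearMap.mem_ker, Matrix.toLin'_apply]
      have hrew : X - ε⁻¹ • (1 : Mat n) = (-ε⁻¹) • (1 - ε • X) := by
        rw [smul_sub, smul_smul]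
        have e1 : -ε⁻¹ * ε = -1 := by field_simp
        rw [e1, neg_smul, neg_smul, one_smul]
        abel
      rw [hrew, Matrix.smul_mulVec, hv, smul_zero]
    rw [hbot] at hmem
    exact (Submodule.mem_bot ℂ).1 hmem

end Claimed.Agent.R236
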