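import Claimed.Agent.R236.PropG
import Claimed.Agent.R236.Pencil
import Claimed.Agent.R236.ChartEx

/-!
# Row 236: the closure chain (blueprint section 8)
-/

namespace Claimed.Agent.R236

open Matrix Module Topology Filter

variable {g n : ℕ}

attribute [local instance] Matrix.linftyOpNormedRing Matrix.linftyOpNormedAlgebra

/-- `M2` move: multiplying `A` on the right by an invertible element commuting with `B` does not change
the commutator. -/
theorem cm_mul_right {A B z : Mat n} (hz : IsUnit z.det) (hA : IsUnit A.det) (h : z * B = B * z) :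
    cm (A * z) B = cm A B := by
  unfold cm
  rw [Matrix.mul_inv_rev]
  calc A * z * B * (z⁻¹ * A⁻¹) * B⁻¹ = A * (z * B) * z⁻¹ * A⁻¹ * B⁻¹ := by
        simp only [Matrix.mul_assoc]
    _ = A * B * (z * z⁻¹) * A⁻¹ * B⁻¹ := by rw [h]; simp only [Matrix.mul_assoc]
    _ = A * B * A⁻¹ * B⁻¹ := by rw [Matrix.mul_nonsing_inv z hz, Matrix.mul_one]

theorem chain_eventually_not_mem {F : Set ℂ} (hF : F.Finite) : ∀ᶠ ε in 𝓝[≠] (0 : ℂ), ε ∉ F := by
  have h1 : (F \ {0})ᶜ ∈ 𝓝 (0 : ℂ) :=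
    (hF.subset Set.sdiff_subset).isClosed.isOpen_compl.mem_nhds (by simp)
  filter_upwards [mem_nhdsWithin_of_mem_nhds h1, self_mem_nhdsWithin] with ε h2 h3 h4
  exact h2 ⟨h4, h3⟩

/-- the `M2`-deformation of a tuple: `A_i ↦ A_i (1 - ε Y_i)`. -/
def chainDef (ρ : Tup g n) (Y : Fin g → Mat n) (ε : ℂ) : Tup g n :=
  fun i => ![ρ i 0 * (1 - ε • Y i), ρ i 1]

theorem chainDef_zero (ρ : Tup g n) (Y : Fin g → Mat n) : chainDef ρ Y 0 = ρ := by
  funext i c
  fin_cases c <;> simp [chainDef]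

theorem continuous_chainDef (ρ : Tup g n) (Y : Fin g → Mat n) : Continuous (chainDef ρ Y) := by
  refine continuous_pi fun i => continuous_pi fun c => ?_
  fin_cases c
  · show Continuous fun ε : ℂ => ρ i 0 * (1 - ε • Y i)
    exact continuous_const.mul (continuous_const.sub (continuous_id.smul continuous_const))
  · show Continuous fun _ : ℂ => ρ i 1
    exact continuous_const

theorem mu_chainDef {ρ : Tup g n} {Y : Fin g → Mat n} {ε : ℂ} (hρ : AllInv ρ)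
    (hz : ∀ i, IsUnit (1 - ε • Y i).det) (hY : ∀ i, Y i * ρ i 1 = ρ i 1 * Y i) :
    mu (chainDef ρ Y ε) = mu ρ := by
  unfold mu
  congr 2
  funext i
  show cm (ρ i 0 * (1 - ε • Y i)) (ρ i 1) = cm (ρ i 0) (ρ i 1)
  refine cm_mul_right (hz i) (hρ i 0) ?_
  rw [sub_mul, mul_sub, one_mul, mul_one, smul_mul_assoc, mul_smul_comm, hY i]

theorem allInv_chainDef {ρ : Tup g n} {Y : Fin g → Mat n} {ε : ℂ} (hρ : AllInv ρ)
    (hz : ∀ i, IsUnit (1 - ε • Y i).det) : AllInv (chainDef ρ Y ε) := by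
  intro i c
  fin_cases c
  · show IsUnit (ρ i 0 * (1 - ε • Y i)).det
    rw [Matrix.det_mul]
    exact (hρ i 0).mul (hz i)
  · exact hρ i 1

theorem chain_step_a (hn : 1 ≤ n) {ρ : Tup (g + 2) n} (hρ : ρ ∈ RC (g + 2) n) (hS : IsSchur ρ) :
    ρ ∈ closure {ρ : Tup (g + 2) n | ρ ∈ RC (g + 2) n ∧ IsSchur ρ ∧ IsCyc (ρ 0 0) ∧
      IsCyc (ρ (Fin.last (g + 1)) 0)} := by
  obtain ⟨X1, hX1c, hX1⟩ := exists_cyc_commute (ρ 0 1)
  obtain ⟨Xg, hXgc, hXg⟩ := exists_cyc_commute (ρ (Fin.last (g + 1)) 1)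
  have h0l : Fin.last (g + 1) ≠ 0 := Fin.last_pos.ne'
  set Y : Fin (g + 2) → Mat n :=
    fun i => if i = 0 then X1 else if i = Fin.last (g + 1) then Xg else 0 with hYdef
  have hY0 : Y 0 = X1 := by simp [hYdef]
  have hYl : Y (Fin.last (g + 1)) = Xg := by simp [hYdef, h0l]
  have hYo : ∀ i, i ≠ 0 → i ≠ Fin.last (g + 1) → Y i = 0 := by
    intro i h1 h2
    simp [hYdef, h1, h2]
  have hY : ∀ i, Y i * ρ i 1 = ρ i 1 * Y i := by
    intro i
    by_cases h1 : i = 0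
    · subst h1; rw [hY0, hX1]
    · by_cases h2 : i = Fin.last (g + 1)
      · subst h2; rw [hYl, hXg]
      · rw [hYo i h1 h2]; simp
  have hF1 := pencil (ρ 0 0) X1 (hρ.1 0 0) hX1c
  have hF2 := pencil (ρ (Fin.last (g + 1)) 0) Xg (hρ.1 _ 0) hXgc
  have hev := chain_eventually_not_mem (hF1.union hF2)
  have hcont : Tendsto (chainDef ρ Y) (𝓝[≠] 0) (𝓝 ρ) := by
    have := (continuous_chainDef ρ Y).tendsto 0
    rw [chainDef_zero] at this
    exact this.mono_left nhdsWithin_le_nhds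
  have hSch : ∀ᶠ ε in 𝓝[≠] (0 : ℂ), IsSchur (chainDef ρ Y ε) :=
    hcont.eventually ((isOpen_isSchur hn).mem_nhds hS)
  refine mem_closure_of_tendsto hcont ?_
  filter_upwards [hev, hSch] with ε h1 h2
  have h1a : IsCyc (ρ 0 0 * (1 - ε • X1)) ∧ IsUnit (ρ 0 0 * (1 - ε • X1)).det := by
    by_contra hh
    exact h1 (Or.inl hh)
  have h1b : IsCyc (ρ (Fin.last (g + 1)) 0 * (1 - ε • Xg)) ∧
      IsUnit (ρ (Fin.last (g + 1)) 0 * (1 - ε • Xg)).det := by
    by_contra hh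
    exact h1 (Or.inr hh)
  have hz : ∀ i, IsUnit (1 - ε • Y i).det := by
    intro i
    by_cases h3 : i = 0
    · subst h3
      rw [hY0]
      have := h1a.2
      rw [Matrix.det_mul] at this
      exact isUnit_of_mul_isUnit_right this
    · by_cases h4 : i = Fin.last (g + 1)
      · subst h4
        rw [hYl]
        have := h1b.2
        rw [Matrix.det_mul] at this
        exact isUnit_of_mul_isUnit_right this
      · rw [hYo i h3 h4]; simp
  refine ⟨⟨allInv_chainDef hρ.1 hz, ?_⟩, h2, ?_, ?_⟩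
  · rw [mu_chainDef hρ.1 hz hY]; exact hρ.2
  · show IsCyc (ρ 0 0 * (1 - ε • Y 0))
    rw [hY0]; exact h1a.1
  · show IsCyc (ρ (Fin.last (g + 1)) 0 * (1 - ε • Y (Fin.last (g + 1))))
    rw [hYl]; exact h1b.1

/-- **Step a.**  `X₁ ∈ Comm (σ 0 1)`, `X_g ∈ Comm D` cyclic (`exists_cyc_commute`);
`ρ(ε)` = `ρ` with `σ 0 0` replaced by `σ 0 0 * (1 - ε X₁)` and `C` by `C * (1 - ε X_g)`.
`ρ(ε) ∈ RC` and both are cyclic for all but finitely many `ε` (`pencil`), `ρ(ε) → ρ`, Schur is open. -/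
theorem step_a (hn : 1 ≤ n) {σ : Tup (g + 1) n} {C D : Mat n} (hρ : snocH σ C D ∈ RC (g + 2) n)
    (hS : IsSchur (snocH σ C D)) :
    snocH σ C D ∈ closure {ρ : Tup (g + 2) n | ρ ∈ RC (g + 2) n ∧ IsSchur ρ ∧ IsCyc (ρ 0 0) ∧
      IsCyc (ρ (Fin.last (g + 1)) 0)} :=
  chain_step_a hn hρ hS

theorem chain_step_b_aux (hn : 1 ≤ n) : ∀ (d : ℕ) (ρ : Tup (g + 2) n), ρ ∈ RC (g + 2) n → IsSchur ρ →
    IsCyc (ρ 0 0) → IsCyc (ρ (Fin.last (g + 1)) 0) →
    finrank ℂ (commSub (Fin.init (α := fun _ => Fin 2 → Mat n) ρ)) = d →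
    ρ ∈ closure {ρ : Tup (g + 2) n | ρ ∈ RC (g + 2) n ∧
      IsSchur (Fin.init (α := fun _ => Fin 2 → Mat n) ρ)} := by
  intro d
  induction d using Nat.strong_induction_on with
  | _ d ih =>
    intro ρ hρ hS h1 h2 hd
    by_cases hσ : IsSchur (Fin.init (α := fun _ => Fin 2 → Mat n) ρ)
    · exact subset_closure ⟨hρ, hσ⟩
    · rw [mem_closure_iff]
      intro o ho hρo
      have hc1 : Continuous fun ρ : Tup (g + 2) n => ρ 0 0 := by fun_prop
      have hc2 : Continuous fun ρ : Tup (g + 2) n => ρ (Fin.last (g + 1)) 0 := by fun_prop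
      have hO1 : IsOpen {ρ : Tup (g + 2) n | IsCyc (ρ 0 0)} := isOpen_isCyc.preimage hc1
      have hO2 : IsOpen {ρ : Tup (g + 2) n | IsCyc (ρ (Fin.last (g + 1)) 0)} :=
        isOpen_isCyc.preimage hc2
      have hN : ((o ∩ {ρ : Tup (g + 2) n | IsSchur ρ}) ∩ {ρ : Tup (g + 2) n | IsCyc (ρ 0 0)}) ∩
          {ρ : Tup (g + 2) n | IsCyc (ρ (Fin.last (g + 1)) 0)} ∈ 𝓝 ρ :=
        (((ho.inter (isOpen_isSchur hn)).inter hO1).inter hO2).mem_nhds ⟨⟨⟨hρo, hS⟩, h1⟩, h2⟩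
      have key := propG hn (σ := Fin.init (α := fun _ => Fin 2 → Mat n) ρ)
        (C := ρ (Fin.last (g + 1)) 0) (D := ρ (Fin.last (g + 1)) 1)
        (by rw [snocH_init_last]; exact hρ) (by rw [snocH_init_last]; exact hS) h1 h2 hσ
      rw [snocH_init_last] at key
      obtain ⟨ρ', hρ'N, hρ'RC, hlt⟩ := key _ hN
      have h3 := ih _ (hd ▸ hlt) ρ' hρ'RC hρ'N.1.1.2 hρ'N.1.2 hρ'N.2 rfl
      rw [mem_closure_iff] at h3
      exact h3 o ho hρ'N.1.1.1

/-- **Step b'.**  Strong induction on `finrank (commSub (init ρ))` using `propG`; Schur, cyclic are open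
conditions. -/
theorem step_b (hn : 1 ≤ n) {ρ : Tup (g + 2) n} (hρ : ρ ∈ RC (g + 2) n) (hS : IsSchur ρ)
    (h1 : IsCyc (ρ 0 0)) (h2 : IsCyc (ρ (Fin.last (g + 1)) 0)) :
    ρ ∈ closure {ρ : Tup (g + 2) n | ρ ∈ RC (g + 2) n ∧
      IsSchur (Fin.init (α := fun _ => Fin 2 → Mat n) ρ)} :=
  chain_step_b_aux hn _ ρ hρ hS h1 h2 rfl

theorem continuous_snocH :
    Continuous fun x : Tup g n × Mat n × Mat n => snocH x.1 x.2.1 x.2.2 :=
  (snocL g n).toLinearMap.continuous_of_finiteDimensional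

theorem chain_continuousAt_inv {M : Mat n} (hM : IsUnit M.det) :
    ContinuousAt (fun A : Mat n => A⁻¹) M := by
  have h : (fun A : Mat n => A⁻¹) = fun A : Mat n => (A.det)⁻¹ • A.adjugate := by
    funext A
    rw [Matrix.inv_def, Ring.inverse_eq_inv']
  rw [h]
  have h1 : Continuous fun A : Mat n => A.det := continuous_id.matrix_det
  have h2 : Continuous fun A : Mat n => A.adjugate := continuous_id.matrix_adjugate
  exact (h1.continuousAt.inv₀ hM.ne_zero).smul h2.continuousAt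

/-- **Step c (FV1).**  Given a neighbourhood `N_σ × N_τ`: by `om_mu` the matrices of determinant one near
`mu σ` are `mu σ'`, `σ' ∈ N_σ`; `τ' ↦ (cm τ')⁻¹` is continuous at `τ`; choose `τ' ∈ N_τ` with `W0 τ'`
(`W0_dense`). -/
theorem step_c (hn : 1 ≤ n) {σ : Tup g n} {C D : Mat n} (hρ : snocH σ C D ∈ RC (g + 1) n)
    (hσ : IsSchur σ) : snocH σ C D ∈ closure (Wset g n) := by
  obtain ⟨hinv, hmu⟩ := hρ
  rw [allInv_snocH] at hinv
  obtain ⟨hσi, hC, hD⟩ := hinv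
  rw [mu_snocH] at hmu
  rw [mem_closure_iff]
  intro o ho hρo
  -- neighbourhoods
  have hpre : (fun x : Tup g n × Mat n × Mat n => snocH x.1 x.2.1 x.2.2) ⁻¹' o ∈ 𝓝 (σ, C, D) :=
    continuous_snocH.continuousAt.preimage_mem_nhds (ho.mem_nhds hρo)
  rw [nhds_prod_eq] at hpre
  obtain ⟨Nσ, hNσ, Nτ, hNτ, hsub⟩ := Filter.mem_prod_iff.1 hpre
  have hom := om_mu hn hσi hσ Nσ hNσ
  have hcmdet : IsUnit (cm C D).det := by rw [det_cm hC hD]; exact isUnit_one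
  have hval : (cm C D)⁻¹ = mu σ := Matrix.inv_eq_left_inv hmu
  have hcont : ContinuousAt (fun x : Mat n × Mat n => (cm x.1 x.2)⁻¹) (C, D) := by
    have h1 : ContinuousAt (fun x : Mat n × Mat n => cm x.1 x.2) (C, D) :=
      (hasStrictFDerivAt_cm hC hD).continuousAt
    exact ContinuousAt.comp (f := fun x : Mat n × Mat n => cm x.1 x.2)
      (g := fun A : Mat n => A⁻¹) (chain_continuousAt_inv hcmdet) h1
  have hev : ∀ᶠ x in 𝓝 (C, D), ((cm x.1 x.2)⁻¹).det = 1 →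
      ∃ σ' ∈ Nσ, AllInv σ' ∧ mu σ' = (cm x.1 x.2)⁻¹ := by
    have : Tendsto (fun x : Mat n × Mat n => (cm x.1 x.2)⁻¹) (𝓝 (C, D)) (𝓝 (mu σ)) := by
      have h2 := hcont.tendsto
      simp only [hval] at h2
      exact h2
    exact this.eventually hom
  obtain ⟨x, hxN, hx1, hx2, hW⟩ := W0_dense hn C D _ (Filter.inter_mem hNτ hev)
  have hdet : (cm x.1 x.2).det = 1 := det_cm hx1 hx2
  have hdet' : ((cm x.1 x.2)⁻¹).det = 1 := by
    rw [Matrix.det_nonsing_inv, hdet]; simp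
  obtain ⟨σ', hσ'N, hσ'i, hσ'mu⟩ := hxN.2 hdet'
  refine ⟨snocH σ' x.1 x.2, ?_, ⟨allInv_snocH.2 ⟨hσ'i, hx1, hx2⟩, ?_⟩, ?_⟩
  · exact hsub (Set.mk_mem_prod hσ'N hxN.1)
  · rw [mu_snocH, hσ'mu]
    exact Matrix.nonsing_inv_mul _ (by rw [hdet]; exact isUnit_one)
  · rw [(snocH_last σ' x.1 x.2).1, (snocH_last σ' x.1 x.2).2]
    exact hW

/-- **Corollary.** -/
theorem schur_mem_closure_Wset (hn : 1 ≤ n) {ρ : Tup (g + 2) n} (hρ : ρ ∈ RC (g + 2) n)
    (hS : IsSchur ρ) : ρ ∈ closure (Wset (g + 1) n) := by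
  have h2 : {ρ : Tup (g + 2) n | ρ ∈ RC (g + 2) n ∧
      IsSchur (Fin.init (α := fun _ => Fin 2 → Mat n) ρ)} ⊆ closure (Wset (g + 1) n) := by
    intro ρ' h
    have h3 := step_c hn (σ := Fin.init (α := fun _ => Fin 2 → Mat n) ρ')
      (C := ρ' (Fin.last (g + 1)) 0) (D := ρ' (Fin.last (g + 1)) 1)
      (by rw [snocH_init_last]; exact h.1) h.2
    rwa [snocH_init_last] at h3
  have h1 : {ρ : Tup (g + 2) n | ρ ∈ RC (g + 2) n ∧ IsSchur ρ ∧ IsCyc (ρ 0 0) ∧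
      IsCyc (ρ (Fin.last (g + 1)) 0)} ⊆ closure (Wset (g + 1) n) := by
    intro ρ' h
    exact closure_minimal h2 isClosed_closure (step_b hn h.1 h.2.1 h.2.2.1 h.2.2.2)
  exact closure_minimal h1 isClosed_closure (chain_step_a hn hρ hS)

end Claimed.Agent.R236
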