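import Claimed.Agent.R236.ChartDefs
import Claimed.Agent.R236.Cyc2

/-!
# Row 236: algebra of the chart (blueprint section 9)
-/

namespace Claimed.Agent.R236

open Matrix

variable {g n : ℕ}

theorem det_add_vecMulVec_of_isUnit (A : Mat n) (hA : IsUnit A.det) (u v : Fin n → ℂ) :
    (A + Matrix.vecMulVec u v).det = A.det + v ⬝ᵥ (A.adjugate *ᵥ u) := by
  have hne : A.det ≠ 0 := hA.ne_zero
  rw [Matrix.vecMulVec_eq Unit, Matrix.det_add_replicateCol_mul_replicateRow hA]
  have h1 : (1 + replicateRow Unit v * A⁻¹ * replicateCol Unit u).det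
      = 1 + v ⬝ᵥ (A⁻¹ *ᵥ u) := by
    rw [Matrix.det_unique, Matrix.add_apply, Matrix.one_apply_eq, Matrix.mul_assoc]
    congr 1
  rw [h1, Matrix.inv_def, Ring.inverse_eq_inv', Matrix.smul_mulVec, dotProduct_smul, smul_eq_mul]
  field_simp

/-- matrix determinant lemma without invertibility (over `ℂ`). -/
theorem det_add_vecMulVec (A : Mat n) (u v : Fin n → ℂ) :
    (A + Matrix.vecMulVec u v).det = A.det + v ⬝ᵥ (A.adjugate *ᵥ u) := by
  -- continuity in `t` of both sides for `A + t • 1`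
  let F : ℂ → ℂ := fun t => ((A + t • (1 : Mat n)) + Matrix.vecMulVec u v).det
  let G : ℂ → ℂ := fun t => (A + t • (1 : Mat n)).det + v ⬝ᵥ ((A + t • (1 : Mat n)).adjugate *ᵥ u)
  have hcA : Continuous fun t : ℂ => A + t • (1 : Mat n) := by fun_prop
  have hF : Continuous F := (hcA.add continuous_const).matrix_det
  have hG : Continuous G := by
    refine hcA.matrix_det.add ?_
    exact Continuous.dotProduct continuous_const (hcA.matrix_adjugate.matrix_mulVec continuous_const)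
  have hfin : {t : ℂ | (A + t • (1 : Mat n)).det = 0}.Finite := by
    have hsub : {t : ℂ | (A + t • (1 : Mat n)).det = 0} ⊆ ((-A).charpoly.roots.toFinset : Set ℂ) := by
      intro t ht
      have ht' : (A + t • (1 : Mat n)).det = 0 := ht
      simp only [Finset.mem_coe, Multiset.mem_toFinset]
      rw [Polynomial.mem_roots ((-A).charpoly_monic.ne_zero), Polynomial.IsRoot, Matrix.eval_charpoly]
      rw [← ht']
      congr 1
      ext i j
      simp [Matrix.scalar_apply, Matrix.diagonal_apply, Matrix.one_apply, add_comm]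
    exact (Finset.finite_toSet _).subset hsub
  have hdense : Dense ({t : ℂ | (A + t • (1 : Mat n)).det = 0}ᶜ) :=
    hfin.countable.dense_compl ℂ
  have hEq : F = G := by
    refine Continuous.ext_on hdense hF hG ?_
    intro t ht
    have ht' : (A + t • (1 : Mat n)).det ≠ 0 := ht
    exact det_add_vecMulVec_of_isUnit _ (isUnit_iff_ne_zero.mpr ht') u v
  have := congrFun hEq 0
  simpa [F, G] using this


theorem mul_upd (M D0 : Mat n) (a b : Fin n → ℂ) :
    M * upd D0 a b = M * D0 + Matrix.vecMulVec (M *ᵥ a) b := by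
  unfold upd
  rw [Matrix.mul_add, Matrix.mul_vecMulVec]

theorem eval_charpoly_mul_upd (M D0 : Mat n) (a b : Fin n → ℂ) (t : ℂ) :
    (M * upd D0 a b).charpoly.eval t = (Matrix.scalar (Fin n) t - M * D0).det
      - (b ᵥ* ((Matrix.scalar (Fin n) t - M * D0).adjugate * M)) ⬝ᵥ a := by
  rw [Matrix.eval_charpoly, mul_upd]
  have h : Matrix.scalar (Fin n) t - (M * D0 + Matrix.vecMulVec (M *ᵥ a) b)
      = (Matrix.scalar (Fin n) t - M * D0) + Matrix.vecMulVec (-(M *ᵥ a)) b := by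
    rw [Matrix.neg_vecMulVec]; abel
  rw [h, det_add_vecMulVec, Matrix.mulVec_neg, dotProduct_neg, Matrix.mulVec_mulVec,
    Matrix.dotProduct_mulVec, ← sub_eq_add_neg]

/-- the characteristic polynomial of `M (D₀ + a bᵀ)` is affine in `a`. -/
theorem charpoly_upd_affine (M D0 : Mat n) (a b : Fin n → ℂ) :
    (M * upd D0 a b).charpoly = (M * upd D0 0 b).charpoly
      + ∑ j, Polynomial.C (a j) * ((M * upd D0 (Pi.single j 1) b).charpoly - (M * upd D0 0 b).charpoly) := by
  apply Polynomial.funext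
  intro t
  rw [Polynomial.eval_add, Polynomial.eval_finsetSum]
  simp only [Polynomial.eval_mul, Polynomial.eval_C, Polynomial.eval_sub, eval_charpoly_mul_upd,
    dotProduct_zero, dotProduct_single, mul_one, sub_zero]
  rw [dotProduct, sub_eq_add_neg, ← Finset.sum_neg_distrib]
  congr 1
  apply Finset.sum_congr rfl
  intro j _
  ring

/-- (Ch1) -/
theorem chPhi_affine (Ki D0 : Mat n) (b a : Fin n → ℂ) (i : ℕ) :
    chPhi Ki D0 b a i = chPhi Ki D0 b 0 i
      + ∑ j, a j * (chPhi Ki D0 b (Pi.single j 1) i - chPhi Ki D0 b 0 i) := by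
  unfold chPhi
  have h1 := congrArg (fun p => Polynomial.coeff p i) (charpoly_upd_affine Ki D0 a b)
  have h2 := congrArg (fun p => Polynomial.coeff p i) (charpoly_upd_affine 1 D0 a b)
  simp only [Matrix.one_mul, Polynomial.coeff_add, Polynomial.finsetSum_coeff,
    Polynomial.coeff_C_mul, Polynomial.coeff_sub] at h1 h2
  rw [h1, h2]
  have : ∀ x y : ℂ, ∀ f g : Fin n → ℂ, (x + ∑ j, f j) - (y + ∑ j, g j) = (x - y) + ∑ j, (f j - g j) := by
    intro x y f g
    rw [Finset.sum_sub_distrib]; ring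
  rw [this]
  congr 1
  apply Finset.sum_congr rfl
  intro j _
  ring

/-- if `det Ki = 1` and `Φ_i(a) = 0` for `1 ≤ i < n` the two characteristic polynomials agree. -/
theorem charpoly_eq_of_chPhi {Ki D0 : Mat n} (hK : Ki.det = 1) (b a : Fin n → ℂ)
    (h : ∀ i : ℕ, 1 ≤ i → i < n → chPhi Ki D0 b a i = 0) :
    (Ki * upd D0 a b).charpoly = (upd D0 a b).charpoly := by
  ext i
  rcases Nat.eq_zero_or_pos i with hi0 | hipos
  · subst hi0
    have h1 := Matrix.det_eq_sign_charpoly_coeff (Ki * upd D0 a b)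
    have h2 := Matrix.det_eq_sign_charpoly_coeff (upd D0 a b)
    rw [Matrix.det_mul, hK, one_mul, h2] at h1
    have hs : ((-1 : ℂ) ^ Fintype.card (Fin n)) ≠ 0 := pow_ne_zero _ (by norm_num)
    exact (mul_left_cancel₀ hs h1).symm
  · rcases lt_trichotomy i n with hlt | heq | hgt
    · have := h i hipos hlt
      unfold chPhi at this
      exact sub_eq_zero.mp this
    · have e1 : (Ki * upd D0 a b).charpoly.natDegree = i := by
        rw [Matrix.charpoly_natDegree_eq_dim, Fintype.card_fin, heq]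
      have e2 : (upd D0 a b).charpoly.natDegree = i := by
        rw [Matrix.charpoly_natDegree_eq_dim, Fintype.card_fin, heq]
      have m1 := (Matrix.charpoly_monic (Ki * upd D0 a b)).coeff_natDegree
      have m2 := (Matrix.charpoly_monic (upd D0 a b)).coeff_natDegree
      rw [e1] at m1
      rw [e2] at m2
      rw [m1, m2]
    · rw [Polynomial.coeff_eq_zero_of_natDegree_lt, Polynomial.coeff_eq_zero_of_natDegree_lt]
      · rw [Matrix.charpoly_natDegree_eq_dim, Fintype.card_fin]; exact hgt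
      · rw [Matrix.charpoly_natDegree_eq_dim, Fintype.card_fin]; exact hgt


/-- the system `sysM a = sysR` says `l ⬝ a = ups` and `Φ_i(a) = 0`. -/
theorem sysM_mulVec_apply (Ki D0 : Mat n) (b l a : Fin n → ℂ) (i : Fin n) :
    (sysM Ki D0 b l *ᵥ a) i
      = if (i : ℕ) = 0 then l ⬝ᵥ a else chPhi Ki D0 b a i - chPhi Ki D0 b 0 i := by
  split_ifs with hi
  · simp only [sysM, Matrix.mulVec, dotProduct, Matrix.of_apply, hi, if_true]
  · rw [chPhi_affine Ki D0 b a i, add_sub_cancel_left]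
    simp only [sysM, Matrix.mulVec, dotProduct, Matrix.of_apply, hi, if_false]
    apply Finset.sum_congr rfl
    intro j _
    ring

theorem sysM_mulVec_solA {Ki D0 : Mat n} (b l : Fin n → ℂ) (ups : ℂ)
    (hΔ : (sysM Ki D0 b l).det ≠ 0) :
    sysM Ki D0 b l *ᵥ solA Ki D0 b l ups = sysR Ki D0 b ups := by
  unfold solA
  rw [Matrix.mulVec_mulVec, Matrix.mul_nonsing_inv _ (isUnit_iff_ne_zero.mpr hΔ), Matrix.one_mulVec]

/-- (Ch2) -/
theorem charpoly_chD {Ki D0 : Mat n} (hK : Ki.det = 1) (b l : Fin n → ℂ) (ups : ℂ)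
    (hΔ : (sysM Ki D0 b l).det ≠ 0) :
    (Ki * chD Ki D0 b l ups).charpoly = (chD Ki D0 b l ups).charpoly := by
  unfold chD
  apply charpoly_eq_of_chPhi hK
  intro i hi1 hin
  have h := congrFun (sysM_mulVec_solA b l ups hΔ) ⟨i, hin⟩
  rw [sysM_mulVec_apply] at h
  have hi0 : ¬ (i = 0) := by omega
  simp only [sysR, hi0, if_false] at h
  linear_combination h

/-- uniqueness: a solution of the system is `solA`. -/
theorem solA_unique {Ki D0 : Mat n} (b l : Fin n → ℂ) (ups : ℂ)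
    (hΔ : (sysM Ki D0 b l).det ≠ 0) (a : Fin n → ℂ) (hl : 0 < n → l ⬝ᵥ a = ups)
    (h : ∀ i : ℕ, 1 ≤ i → i < n → chPhi Ki D0 b a i = 0) : solA Ki D0 b l ups = a := by
  have hsys : sysM Ki D0 b l *ᵥ a = sysR Ki D0 b ups := by
    funext i
    rw [sysM_mulVec_apply]
    unfold sysR
    split_ifs with hi
    · exact hl (lt_of_le_of_lt (Nat.zero_le _) i.isLt)
    · rw [h i (by omega) i.isLt]; ring
  unfold solA
  rw [← hsys, Matrix.mulVec_mulVec, Matrix.nonsing_inv_mul _ (isUnit_iff_ne_zero.mpr hΔ),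
    Matrix.one_mulVec]

/-- companion matrix of a polynomial (only its coefficients below `n` are used). -/
noncomputable def cmpM (n : ℕ) (p : Polynomial ℂ) : Mat n :=
  Matrix.of fun i k => if (k : ℕ) + 1 < n then (if (i : ℕ) = (k : ℕ) + 1 then 1 else 0) else - p.coeff i

theorem pow_card_eq_neg_sum (A : Mat n) :
    A ^ n = - ∑ j : Fin n, A.charpoly.coeff j • A ^ (j : ℕ) := by
  have h := Matrix.aeval_self_charpoly A
  rw [Polynomial.aeval_eq_sum_range, Matrix.charpoly_natDegree_eq_dim, Fintype.card_fin,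
    Finset.sum_range_succ] at h
  have hm : A.charpoly.coeff n = 1 := by
    have := (Matrix.charpoly_monic A).coeff_natDegree
    rwa [Matrix.charpoly_natDegree_eq_dim, Fintype.card_fin] at this
  rw [hm, one_smul, Finset.sum_range] at h
  exact eq_neg_of_add_eq_zero_right h

theorem mul_kry (A : Mat n) (v : Fin n → ℂ) :
    A * kry A v = kry A v * cmpM n A.charpoly := by
  ext i k
  have hL : (A * kry A v) i k = ((A ^ ((k : ℕ) + 1)) *ᵥ v) i := by
    rw [pow_succ', ← Matrix.mulVec_mulVec]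
    simp only [Matrix.mul_apply, kry, Matrix.of_apply, Matrix.mulVec, dotProduct]
  rw [hL]
  simp only [Matrix.mul_apply, kry, cmpM, Matrix.of_apply]
  by_cases hk : (k : ℕ) + 1 < n
  · simp only [hk, if_true]
    rw [Finset.sum_eq_single (⟨(k : ℕ) + 1, hk⟩ : Fin n)]
    · simp
    · intro j _ hj
      have : ¬ ((j : ℕ) = (k : ℕ) + 1) := fun h => hj (Fin.ext h)
      simp [this]
    · intro h; exact absurd (Finset.mem_univ _) h
  · simp only [hk, if_false]
    have hkn : (k : ℕ) + 1 = n := by have := k.isLt; omega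
    rw [hkn, pow_card_eq_neg_sum, Matrix.neg_mulVec, Matrix.sum_mulVec, Pi.neg_apply,
      Finset.sum_apply, ← Finset.sum_neg_distrib]
    apply Finset.sum_congr rfl
    intro j _
    rw [Matrix.smul_mulVec, Pi.smul_apply, smul_eq_mul]
    ring

/-- (Ch3) intertwining by Krylov matrices (Cayley-Hamilton for both matrices, same polynomial). -/
theorem kry_intertwine {ξ D : Mat n} (hχ : ξ.charpoly = D.charpoly) (g1 g2 : Fin n → ℂ)
    (h1 : (kry D g1).det ≠ 0) :
    ξ * (kry ξ g2 * (kry D g1)⁻¹) = (kry ξ g2 * (kry D g1)⁻¹) * D := by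
  have hu : IsUnit (kry D g1).det := isUnit_iff_ne_zero.mpr h1
  have e1 : ξ * kry ξ g2 = kry ξ g2 * cmpM n D.charpoly := by rw [mul_kry, hχ]
  have e2 : D * kry D g1 = kry D g1 * cmpM n D.charpoly := mul_kry D g1
  have e3 : (kry D g1)⁻¹ * D = cmpM n D.charpoly * (kry D g1)⁻¹ := by
    calc (kry D g1)⁻¹ * D = (kry D g1)⁻¹ * D * (kry D g1 * (kry D g1)⁻¹) := by
          rw [Matrix.mul_nonsing_inv _ hu, Matrix.mul_one]
      _ = (kry D g1)⁻¹ * (D * kry D g1) * (kry D g1)⁻¹ := by simp only [Matrix.mul_assoc]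
      _ = ((kry D g1)⁻¹ * kry D g1) * cmpM n D.charpoly * (kry D g1)⁻¹ := by
          rw [e2]; simp only [Matrix.mul_assoc]
      _ = cmpM n D.charpoly * (kry D g1)⁻¹ := by
          rw [Matrix.nonsing_inv_mul _ hu, Matrix.one_mul]
  rw [← Matrix.mul_assoc, e1, Matrix.mul_assoc, Matrix.mul_assoc, e3]


/-- (Ch4) the chart lands in `RC`. -/
theorem chart_mem_RC {σ : Tup g n} (hσ : AllInv σ) {D : Mat n} (hD : IsUnit D.det)
    (hχ : ((mu σ)⁻¹ * D).charpoly = D.charpoly) (g1 g2 : Fin n → ℂ)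
    (h1 : (kry D g1).det ≠ 0) (h2 : (kry ((mu σ)⁻¹ * D) g2).det ≠ 0) :
    snocH σ (chC (mu σ)⁻¹ D g1 g2) D ∈ RC (g + 1) n := by
  have hC : IsUnit (chC (mu σ)⁻¹ D g1 g2).det := by
    unfold chC
    rw [Matrix.det_mul, Matrix.det_nonsing_inv, Ring.inverse_eq_inv']
    exact isUnit_iff_ne_zero.mpr (mul_ne_zero h2 (inv_ne_zero h1))
  have hμ : IsUnit (mu σ).det := by rw [det_mu hσ]; exact isUnit_one
  refine ⟨allInv_snocH.mpr ⟨hσ, hC, hD⟩, ?_⟩
  rw [mu_snocH]
  have hint : (mu σ)⁻¹ * D * chC (mu σ)⁻¹ D g1 g2 = chC (mu σ)⁻¹ D g1 g2 * D :=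
    kry_intertwine hχ g1 g2 h1
  unfold cm
  rw [← hint, Matrix.mul_assoc ((mu σ)⁻¹ * D), Matrix.mul_nonsing_inv _ hC, Matrix.mul_one,
    Matrix.mul_assoc (mu σ)⁻¹, Matrix.mul_nonsing_inv _ hD, Matrix.mul_one,
    Matrix.mul_nonsing_inv _ hμ]

theorem inv_mu_eq_cm {σ : Tup g n} {C D : Mat n} (hρ : snocH σ C D ∈ RC (g + 1) n) :
    (mu σ)⁻¹ = cm C D := by
  have h := hρ.2
  rw [mu_snocH] at h
  exact Matrix.inv_eq_right_inv h

/-- for a point of `RC`: `(mu σ)⁻¹ D = C D C⁻¹`. -/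
theorem inv_mu_mul_eq {σ : Tup g n} {C D : Mat n} (hρ : snocH σ C D ∈ RC (g + 1) n) :
    (mu σ)⁻¹ * D = C * D * C⁻¹ := by
  have hD : IsUnit D.det := (allInv_snocH.mp hρ.1).2.2
  rw [inv_mu_eq_cm hρ]
  unfold cm
  rw [Matrix.mul_assoc (C * D * C⁻¹), Matrix.nonsing_inv_mul _ hD, Matrix.mul_one]

/-- (Ch5) every point of the chart domain is in the image: `D`-part. -/
theorem chD_eq_of_mem_RC {σ : Tup g n} {C D : Mat n} (hρ : snocH σ C D ∈ RC (g + 1) n)
    (b l : Fin n → ℂ) (hΔ : (sysM (mu σ)⁻¹ D b l).det ≠ 0) :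
    chD (mu σ)⁻¹ D b l 0 = D := by
  have hC : IsUnit C.det := (allInv_snocH.mp hρ.1).2.1
  have hupd : upd D 0 b = D := by
    unfold upd
    rw [Matrix.zero_vecMulVec, add_zero]
  have h0 : solA (mu σ)⁻¹ D b l 0 = 0 := by
    apply solA_unique b l 0 hΔ 0 (fun _ => dotProduct_zero l)
    intro i _ _
    unfold chPhi
    rw [hupd, inv_mu_mul_eq hρ, Matrix.charpoly_mul_comm, ← Matrix.mul_assoc,
      Matrix.nonsing_inv_mul _ hC, Matrix.one_mul, sub_self]
  unfold chD
  rw [h0, hupd]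

theorem conj_pow_mul {C D : Mat n} (hC : IsUnit C.det) (k : ℕ) :
    (C * D * C⁻¹) ^ k * C = C * D ^ k := by
  induction k with
  | zero => simp
  | succ k ih =>
    rw [pow_succ', Matrix.mul_assoc, ih, pow_succ', Matrix.mul_assoc (C * D), ← Matrix.mul_assoc C⁻¹,
      Matrix.nonsing_inv_mul _ hC, Matrix.one_mul, Matrix.mul_assoc]

/-- (Ch5) `C`-part: `C (D^k g1) = ξ^k (C g1)`. -/
theorem chC_eq_of_mem_RC {σ : Tup g n} {C D : Mat n} (hρ : snocH σ C D ∈ RC (g + 1) n)
    (g1 : Fin n → ℂ) (h1 : (kry D g1).det ≠ 0) :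
    chC (mu σ)⁻¹ D g1 (C *ᵥ g1) = C := by
  have hC : IsUnit C.det := (allInv_snocH.mp hρ.1).2.1
  have hk : kry ((mu σ)⁻¹ * D) (C *ᵥ g1) = C * kry D g1 := by
    rw [inv_mu_mul_eq hρ]
    ext i k
    have hR : (C * kry D g1) i k = (C *ᵥ ((D ^ (k : ℕ)) *ᵥ g1)) i := by
      simp only [Matrix.mul_apply, kry, Matrix.of_apply, Matrix.mulVec, dotProduct]
    rw [hR]
    simp only [kry, Matrix.of_apply]
    rw [Matrix.mulVec_mulVec, Matrix.mulVec_mulVec, conj_pow_mul hC]
  unfold chC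
  rw [hk, Matrix.mul_assoc, Matrix.mul_nonsing_inv _ (isUnit_iff_ne_zero.mpr h1), Matrix.mul_one]

end Claimed.Agent.R236
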