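import Claimed.Agent.R236.VC

/-!
# Row 236: definitions for the chart of the last handle (blueprint section 9)

`ρ = (σ, C, D) ∈ RC` iff `ξ C = C D` with `ξ = Ki * D`, `Ki = (mu σ)⁻¹`.
-/

namespace Claimed.Agent.R236

open Matrix

variable {g n : ℕ}

/-- rank one update `D₀ + a bᵀ`. -/
def upd (D0 : Mat n) (a b : Fin n → ℂ) : Mat n := D0 + Matrix.vecMulVec a b

/-- `Φ_i(a) = coeff_i charpoly (Ki (D₀ + a bᵀ)) - coeff_i charpoly (D₀ + a bᵀ)`. -/
noncomputable def chPhi (Ki D0 : Mat n) (b a : Fin n → ℂ) (i : ℕ) : ℂ :=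
  (Ki * upd D0 a b).charpoly.coeff i - (upd D0 a b).charpoly.coeff i

/-- the matrix of the affine system: row `0` is `l`, row `i ≥ 1` is the linear part of `Φ_i`. -/
noncomputable def sysM (Ki D0 : Mat n) (b l : Fin n → ℂ) : Mat n :=
  Matrix.of fun i j =>
    if (i : ℕ) = 0 then l j else chPhi Ki D0 b (Pi.single j 1) i - chPhi Ki D0 b 0 i

/-- right hand side. -/
noncomputable def sysR (Ki D0 : Mat n) (b : Fin n → ℂ) (ups : ℂ) : Fin n → ℂ :=
  fun i => if (i : ℕ) = 0 then ups else - chPhi Ki D0 b 0 i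

/-- the solution `a`. -/
noncomputable def solA (Ki D0 : Mat n) (b l : Fin n → ℂ) (ups : ℂ) : Fin n → ℂ :=
  (sysM Ki D0 b l)⁻¹ *ᵥ sysR Ki D0 b ups

/-- the matrix `D` of the chart. -/
noncomputable def chD (Ki D0 : Mat n) (b l : Fin n → ℂ) (ups : ℂ) : Mat n :=
  upd D0 (solA Ki D0 b l ups) b

/-- the matrix `C` of the chart. -/
noncomputable def chC (Ki D : Mat n) (g1 g2 : Fin n → ℂ) : Mat n :=
  kry (Ki * D) g2 * (kry D g1)⁻¹

/-- the chart condition on the last handle. -/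
def W0 (C D : Mat n) : Prop :=
  ∃ b l g1 : Fin n → ℂ, (sysM (cm C D) D b l).det ≠ 0 ∧ (kry D g1).det ≠ 0

/-- the chart domain. -/
def Wset (g n : ℕ) : Set (Tup (g + 1) n) :=
  {ρ | ρ ∈ RC (g + 1) n ∧ W0 (ρ (Fin.last g) 0) (ρ (Fin.last g) 1)}

end Claimed.Agent.R236
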