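import Claimed.Agent.R236.ChartAlg
import Claimed.Agent.R236.Rat1

/-!
# Row 236: the identity theorem along the chart (blueprint section 9, C1)
-/

namespace Claimed.Agent.R236

open Matrix Topology Filter

variable {g n : ℕ}

attribute [local instance] Matrix.linftyOpNormedRing Matrix.linftyOpNormedAlgebra

/-- chart parameters `(σ, D₀, b, l, ups, g1, g2)`. -/
abbrev Par (g n : ℕ) :=
  Tup g n × Mat n × (Fin n → ℂ) × (Fin n → ℂ) × ℂ × (Fin n → ℂ) × (Fin n → ℂ)

/-- the `D`-component of the chart. -/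
noncomputable def parD (p : Par g n) : Mat n := chD (mu p.1)⁻¹ p.2.1 p.2.2.1 p.2.2.2.1 p.2.2.2.2.1

/-- the chart. -/
noncomputable def chart (p : Par g n) : Tup (g + 1) n :=
  snocH p.1 (chC (mu p.1)⁻¹ (parD p) p.2.2.2.2.2.1 p.2.2.2.2.2.2) (parD p)

/-- all denominators are nonzero. -/
def GoodPar (p : Par g n) : Prop :=
  AllInv p.1 ∧ (sysM (mu p.1)⁻¹ p.2.1 p.2.2.1 p.2.2.2.1).det ≠ 0 ∧ (parD p).det ≠ 0 ∧
    (kry (parD p) p.2.2.2.2.2.1).det ≠ 0 ∧ (kry ((mu p.1)⁻¹ * parD p) p.2.2.2.2.2.2).det ≠ 0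

/-! ### the polynomial pieces of the chart -/

section Pieces

variable {V : Type*} [AddCommGroup V] [Module ℂ V]

theorem PolyMap.cp_apply {a : V → Fin n → ℂ} (ha : PolyMap a) (i : Fin n) :
    (fun v => a v i) ∈ PolyFun V :=
  polyMap_iff_polyFun.mp ((polyMap_pi (X := fun _ : Fin n => ℂ)).mp ha i)

theorem PolyMap.cp_vecMulVec {a b : V → Fin n → ℂ} (ha : PolyMap a) (hb : PolyMap b) :
    PolyMap fun v => Matrix.vecMulVec (a v) (b v) := by
  rw [polyMap_matrix]
  intro i j
  simp only [Matrix.vecMulVec_apply]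
  exact PolyFun.mul (ha.cp_apply i) (hb.cp_apply j)

theorem PolyMap.cp_upd {D : V → Mat n} {a b : V → Fin n → ℂ} (hD : PolyMap D) (ha : PolyMap a)
    (hb : PolyMap b) : PolyMap fun v => upd (D v) (a v) (b v) :=
  hD.add (ha.cp_vecMulVec hb)

theorem PolyMap.cp_chPhi {K D : V → Mat n} {b a : V → Fin n → ℂ} (hK : PolyMap K) (hD : PolyMap D)
    (hb : PolyMap b) (ha : PolyMap a) (i : ℕ) :
    (fun v => chPhi (K v) (D v) (b v) (a v) i) ∈ PolyFun V :=
  PolyFun.sub (PolyMap.charpoly_coeff (hK.matMul (hD.cp_upd ha hb)) i)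
    (PolyMap.charpoly_coeff (hD.cp_upd ha hb) i)

theorem PolyMap.cp_sysM {K D : V → Mat n} {b l : V → Fin n → ℂ} (hK : PolyMap K) (hD : PolyMap D)
    (hb : PolyMap b) (hl : PolyMap l) : PolyMap fun v => sysM (K v) (D v) (b v) (l v) := by
  rw [polyMap_matrix]
  intro i j
  simp only [sysM, Matrix.of_apply]
  split_ifs with h
  · exact hl.cp_apply j
  · exact PolyFun.sub (PolyMap.cp_chPhi hK hD hb (polyMap_const _) i)
      (PolyMap.cp_chPhi hK hD hb (polyMap_const _) i)

theorem PolyMap.cp_sysR {K D : V → Mat n} {b : V → Fin n → ℂ} {u : V → ℂ} (hK : PolyMap K)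
    (hD : PolyMap D) (hb : PolyMap b) (hu : PolyMap u) :
    PolyMap fun v => sysR (K v) (D v) (b v) (u v) := by
  rw [polyMap_pi (X := fun _ : Fin n => ℂ)]
  intro i
  rw [polyMap_iff_polyFun]
  simp only [sysR]
  split_ifs with h
  · exact polyMap_iff_polyFun.mp hu
  · exact PolyFun.neg (PolyMap.cp_chPhi hK hD hb (polyMap_const _) i)

theorem PolyMap.cp_kry {A : V → Mat n} {w : V → Fin n → ℂ} (hA : PolyMap A) (hw : PolyMap w) :
    PolyMap fun v => kry (A v) (w v) := by
  rw [polyMap_matrix]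
  intro i k
  simp only [kry, Matrix.of_apply]
  exact ((hA.matPow (k : ℕ)).mulVec hw).cp_apply i

end Pieces

/-! ### packaged polynomial maps -/

/-- `sysM` as a map on a product space. -/
noncomputable def cpSys (x : Mat n × Mat n × (Fin n → ℂ) × (Fin n → ℂ)) : Mat n :=
  sysM x.1 x.2.1 x.2.2.1 x.2.2.2

theorem polyMap_cpSys : PolyMap (cpSys (n := n)) :=
  PolyMap.cp_sysM polyMap_id.fst polyMap_id.snd.fst polyMap_id.snd.snd.fst polyMap_id.snd.snd.snd

/-- `sysR` as a map on a product space. -/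
noncomputable def cpRhs (x : Mat n × Mat n × (Fin n → ℂ) × ℂ) : Fin n → ℂ :=
  sysR x.1 x.2.1 x.2.2.1 x.2.2.2

theorem polyMap_cpRhs : PolyMap (cpRhs (n := n)) :=
  PolyMap.cp_sysR polyMap_id.fst polyMap_id.snd.fst polyMap_id.snd.snd.fst polyMap_id.snd.snd.snd

/-- `upd D0 (Si *ᵥ r) b` as a map on a product space. -/
def cpUpd (x : Mat n × Mat n × (Fin n → ℂ) × (Fin n → ℂ)) : Mat n :=
  upd x.1 (x.2.1 *ᵥ x.2.2.1) x.2.2.2

theorem polyMap_cpUpd : PolyMap (cpUpd (n := n)) :=
  PolyMap.cp_upd polyMap_id.fst (polyMap_id.snd.fst.mulVec polyMap_id.snd.snd.fst)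
    polyMap_id.snd.snd.snd

/-- `kry` as a map on a product space. -/
def cpKry (x : Mat n × (Fin n → ℂ)) : Mat n := kry x.1 x.2

theorem polyMap_cpKry : PolyMap (cpKry (n := n)) := PolyMap.cp_kry polyMap_id.fst polyMap_id.snd

/-- multiplication as a map on a product space. -/
def cpMul (x : Mat n × Mat n) : Mat n := x.1 * x.2

theorem polyMap_cpMul : PolyMap (cpMul (n := n)) := polyMap_id.fst.matMul polyMap_id.snd

/-! ### the intermediate functions -/

/-- `K⁻¹`. -/
noncomputable def parK (p : Par g n) : Mat n := (mu p.1)⁻¹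

/-- the matrix of the system. -/
noncomputable def parS (p : Par g n) : Mat n := sysM (parK p) p.2.1 p.2.2.1 p.2.2.2.1

/-- first Krylov matrix. -/
noncomputable def parG1 (p : Par g n) : Mat n := kry (parD p) p.2.2.2.2.2.1

/-- second Krylov matrix. -/
noncomputable def parG2 (p : Par g n) : Mat n := kry (parK p * parD p) p.2.2.2.2.2.2

theorem parS_eq (p : Par g n) : parS p = cpSys (parK p, p.2.1, p.2.2.1, p.2.2.2.1) := rfl

theorem parD_eq (p : Par g n) :
    parD p = cpUpd (p.2.1, (parS p)⁻¹, cpRhs (parK p, p.2.1, p.2.2.1, p.2.2.2.2.1), p.2.2.1) := rfl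

theorem parG1_eq (p : Par g n) : parG1 p = cpKry (parD p, p.2.2.2.2.2.1) := rfl

theorem parG2_eq (p : Par g n) : parG2 p = cpKry (cpMul (parK p, parD p), p.2.2.2.2.2.2) := rfl

theorem chart_eq (p : Par g n) :
    chart p = snocL g n (p.1, cpMul (parG2 p, (parG1 p)⁻¹), parD p) := rfl

theorem goodPar_iff (p : Par g n) : GoodPar p ↔ AllInv p.1 ∧ (parS p).det ≠ 0 ∧ (parD p).det ≠ 0 ∧
    (parG1 p).det ≠ 0 ∧ (parG2 p).det ≠ 0 := Iff.rfl

/-! ### rationality -/

theorem IsRatV.cp_const {V : Type*} [AddCommGroup V] [Module ℂ V] (v : V) :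
    IsRatV fun _ : ℂ => v := fun _ => IsRat.const _

theorem IsRatV.cp_mul {γ γ' : ℂ → Mat n} (h : IsRatV γ) (h' : IsRatV γ') :
    IsRatV fun θ => γ θ * γ' θ :=
  (h.prodMk h').polyMap polyMap_cpMul

theorem IsRatV.cp_cm {γ γ' : ℂ → Mat n} (h : IsRatV γ) (h' : IsRatV γ') :
    IsRatV fun θ => cm (γ θ) (γ' θ) :=
  ((h.cp_mul h').cp_mul h.matInv).cp_mul h'.matInv

theorem IsRatV.cp_mu : ∀ {g : ℕ} {γ : ℂ → Tup g n}, IsRatV γ → IsRatV fun θ => mu (γ θ)
  | 0, γ, _ => by
    simp only [mu_zero]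
    exact IsRatV.cp_const 1
  | g + 1, γ, h => by
    have e : (fun θ => mu (γ θ))
        = fun θ => mu (Fin.init (γ θ) : Tup g n) * cm (γ θ (Fin.last g) 0) (γ θ (Fin.last g) 1) := by
      funext θ
      conv_lhs => rw [← snocH_init_last (γ θ)]
      rw [mu_snocH]
    rw [e]
    have h1 : ∀ i, IsRatV fun θ => γ θ i := (isRatV_pi (X := fun _ => Fin 2 → Mat n)).mp h
    have h2 : IsRatV fun θ => (Fin.init (γ θ) : Tup g n) :=
      (isRatV_pi (X := fun _ => Fin 2 → Mat n)).mpr fun i => h1 i.castSucc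
    have h3 : ∀ c, IsRatV fun θ => γ θ (Fin.last g) c :=
      (isRatV_pi (X := fun _ => Mat n)).mp (h1 (Fin.last g))
    exact (IsRatV.cp_mu h2).cp_mul ((h3 0).cp_cm (h3 1))

section RatChain

variable {γ : ℂ → Par g n}

theorem isRatV_parK (hγ : IsRatV γ) : IsRatV fun θ => parK (γ θ) :=
  (IsRatV.cp_mu (hγ.polyMap polyMap_id.fst)).matInv

theorem isRatV_parS (hγ : IsRatV γ) : IsRatV fun θ => parS (γ θ) :=
  ((isRatV_parK hγ).prodMk ((hγ.polyMap polyMap_id.snd.fst).prodMk
    ((hγ.polyMap polyMap_id.snd.snd.fst).prodMk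
      (hγ.polyMap polyMap_id.snd.snd.snd.fst)))).polyMap polyMap_cpSys

theorem isRatV_parD (hγ : IsRatV γ) : IsRatV fun θ => parD (γ θ) :=
  ((hγ.polyMap polyMap_id.snd.fst).prodMk ((isRatV_parS hγ).matInv.prodMk
    ((((isRatV_parK hγ).prodMk ((hγ.polyMap polyMap_id.snd.fst).prodMk
      ((hγ.polyMap polyMap_id.snd.snd.fst).prodMk
        (hγ.polyMap polyMap_id.snd.snd.snd.snd.fst)))).polyMap polyMap_cpRhs).prodMk
      (hγ.polyMap polyMap_id.snd.snd.fst)))).polyMap polyMap_cpUpd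

theorem isRatV_parG1 (hγ : IsRatV γ) : IsRatV fun θ => parG1 (γ θ) :=
  ((isRatV_parD hγ).prodMk (hγ.polyMap polyMap_id.snd.snd.snd.snd.snd.fst)).polyMap polyMap_cpKry

theorem isRatV_parG2 (hγ : IsRatV γ) : IsRatV fun θ => parG2 (γ θ) :=
  (((isRatV_parK hγ).cp_mul (isRatV_parD hγ)).prodMk
    (hγ.polyMap polyMap_id.snd.snd.snd.snd.snd.snd)).polyMap polyMap_cpKry

theorem isRatV_chart (hγ : IsRatV γ) : IsRatV fun θ => chart (γ θ) :=
  ((hγ.polyMap polyMap_id.fst).prodMk
    (((isRatV_parG2 hγ).cp_mul (isRatV_parG1 hγ).matInv).prodMk (isRatV_parD hγ))).polyMap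
    (polyMap_linear (snocL g n).toLinearMap)

end RatChain

/-- (P1) the chart is rational along lines (`Rat1`: products, `matInv`, `PolyMap.charpoly_coeff`,
`PolyMap.det`; `mu` by induction on `g` with `mu_snocH`). -/
theorem isRatV_chart_line (p q : Par g n) : IsRatV fun θ : ℂ => chart (p + θ • q) :=
  isRatV_chart (isRatV_line p q)

/-! ### continuity -/

theorem PolyMap.cp_continuous {E F : Type*} [NormedAddCommGroup E] [NormedSpace ℂ E]
    [FiniteDimensional ℂ E] [NormedAddCommGroup F] [NormedSpace ℂ F] [FiniteDimensional ℂ F]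
    {Φ : E → F} (hΦ : PolyMap Φ) : Continuous Φ := (PolyMap.contDiff hΦ).continuous

theorem cp_continuousAt_inv {X : Type*} [TopologicalSpace X] {F : X → Mat n} {x : X}
    (hF : ContinuousAt F x) (h : (F x).det ≠ 0) : ContinuousAt (fun y => (F y)⁻¹) x := by
  have h1 : ContinuousAt Ring.inverse (F x).det := by
    rw [Ring.inverse_eq_inv']
    exact continuousAt_inv₀ h
  exact (continuousAt_matrix_inv (F x) h1).comp hF

theorem cp_continuousAt_cm {X : Type*} [TopologicalSpace X] {F G : X → Mat n} {x : X}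
    (hF : ContinuousAt F x) (hG : ContinuousAt G x) (h : (F x).det ≠ 0) (h' : (G x).det ≠ 0) :
    ContinuousAt (fun y => cm (F y) (G y)) x :=
  ((hF.mul hG).mul (cp_continuousAt_inv hF h)).mul (cp_continuousAt_inv hG h')

theorem cp_continuousAt_mu : ∀ {g : ℕ} {σ : Tup g n}, AllInv σ → ContinuousAt (mu (g := g) (n := n)) σ
  | 0, σ, _ => by
    have : (mu : Tup 0 n → Mat n) = fun _ => 1 := by
      funext ρ
      exact mu_zero ρ
    rw [this]
    exact continuousAt_const
  | g + 1, σ, h => by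
    have e : (mu : Tup (g + 1) n → Mat n)
        = fun ρ : Tup (g + 1) n =>
          mu (Fin.init ρ : Tup g n) * cm (ρ (Fin.last g) 0) (ρ (Fin.last g) 1) := by
      funext ρ
      conv_lhs => rw [← snocH_init_last ρ]
      rw [mu_snocH]
    rw [e]
    have h1 : AllInv (Fin.init σ : Tup g n) := fun i c => h i.castSucc c
    have h2 : ContinuousAt (fun ρ : Tup (g + 1) n => (Fin.init ρ : Tup g n)) σ := by
      refine Continuous.continuousAt ?_
      refine continuous_pi fun i => ?_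
      exact continuous_apply i.castSucc
    have h3 : ∀ c, ContinuousAt (fun ρ : Tup (g + 1) n => ρ (Fin.last g) c) σ := fun c =>
      ((continuous_apply c).comp (continuous_apply (Fin.last g))).continuousAt
    exact (ContinuousAt.comp (f := fun ρ : Tup (g + 1) n => (Fin.init ρ : Tup g n))
      (cp_continuousAt_mu h1) h2).mul
      (cp_continuousAt_cm (h3 0) (h3 1) (h _ 0).ne_zero (h _ 1).ne_zero)

theorem continuous_cpSys : Continuous (cpSys (n := n)) := polyMap_cpSys.cp_continuous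

theorem continuous_cpRhs : Continuous (cpRhs (n := n)) := polyMap_cpRhs.cp_continuous

theorem continuous_cpUpd : Continuous (cpUpd (n := n)) := polyMap_cpUpd.cp_continuous

theorem continuous_cpKry : Continuous (cpKry (n := n)) := polyMap_cpKry.cp_continuous

theorem continuous_snocL : Continuous (fun x => snocL g n x) :=
  (polyMap_linear (snocL g n).toLinearMap).cp_continuous

section ContChain

variable {p : Par g n}

theorem continuousAt_parK (h : AllInv p.1) : ContinuousAt (parK (g := g) (n := n)) p := by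
  refine cp_continuousAt_inv (F := fun q : Par g n => mu q.1) ?_ ?_
  · exact ContinuousAt.comp (f := fun q : Par g n => q.1) (cp_continuousAt_mu h) continuousAt_fst
  · rw [det_mu h]
    exact one_ne_zero

theorem continuousAt_parS (h : AllInv p.1) : ContinuousAt (parS (g := g) (n := n)) p := by
  have h0 : ContinuousAt (fun q : Par g n => (q.2.1, q.2.2.1, q.2.2.2.1)) p := by fun_prop
  have h1 : ContinuousAt (fun q : Par g n => (parK q, q.2.1, q.2.2.1, q.2.2.2.1)) p :=
    (continuousAt_parK h).prodMk h0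
  have e : (parS (g := g) (n := n)) = fun q => cpSys (parK q, q.2.1, q.2.2.1, q.2.2.2.1) := rfl
  rw [e]
  exact continuous_cpSys.continuousAt.comp h1

theorem continuousAt_parD (h : AllInv p.1) (hS : (parS p).det ≠ 0) :
    ContinuousAt (parD (g := g) (n := n)) p := by
  have h00 : ContinuousAt (fun q : Par g n => (q.2.1, q.2.2.1, q.2.2.2.2.1)) p := by fun_prop
  have h0 : ContinuousAt (fun q : Par g n => (parK q, q.2.1, q.2.2.1, q.2.2.2.2.1)) p :=
    (continuousAt_parK h).prodMk h00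
  have h1 : ContinuousAt (fun q : Par g n => cpRhs (parK q, q.2.1, q.2.2.1, q.2.2.2.2.1)) p :=
    continuous_cpRhs.continuousAt.comp h0
  have h2a : ContinuousAt (fun q : Par g n => q.2.1) p := by fun_prop
  have h2b : ContinuousAt (fun q : Par g n => q.2.2.1) p := by fun_prop
  have h2 : ContinuousAt (fun q : Par g n => (q.2.1, (parS q)⁻¹,
      cpRhs (parK q, q.2.1, q.2.2.1, q.2.2.2.2.1), q.2.2.1)) p :=
    h2a.prodMk ((cp_continuousAt_inv (continuousAt_parS h) hS).prodMk (h1.prodMk h2b))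
  have e : (parD (g := g) (n := n)) = fun q => cpUpd (q.2.1, (parS q)⁻¹,
      cpRhs (parK q, q.2.1, q.2.2.1, q.2.2.2.2.1), q.2.2.1) := rfl
  rw [e]
  exact continuous_cpUpd.continuousAt.comp h2

theorem continuousAt_parG1 (h : AllInv p.1) (hS : (parS p).det ≠ 0) :
    ContinuousAt (parG1 (g := g) (n := n)) p := by
  have h0 : ContinuousAt (fun q : Par g n => q.2.2.2.2.2.1) p := by fun_prop
  have h1 : ContinuousAt (fun q : Par g n => (parD q, q.2.2.2.2.2.1)) p :=
    (continuousAt_parD h hS).prodMk h0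
  have e : (parG1 (g := g) (n := n)) = fun q => cpKry (parD q, q.2.2.2.2.2.1) := rfl
  rw [e]
  exact continuous_cpKry.continuousAt.comp h1

theorem continuousAt_parG2 (h : AllInv p.1) (hS : (parS p).det ≠ 0) :
    ContinuousAt (parG2 (g := g) (n := n)) p := by
  have h0 : ContinuousAt (fun q : Par g n => q.2.2.2.2.2.2) p := by fun_prop
  have h1 : ContinuousAt (fun q : Par g n => (parK q * parD q, q.2.2.2.2.2.2)) p :=
    ((continuousAt_parK h).mul (continuousAt_parD h hS)).prodMk h0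
  have e : (parG2 (g := g) (n := n)) = fun q => cpKry (parK q * parD q, q.2.2.2.2.2.2) := rfl
  rw [e]
  exact continuous_cpKry.continuousAt.comp h1

end ContChain

/-- (P2) -/
theorem continuousAt_chart {p : Par g n} (hp : GoodPar p) : ContinuousAt chart p := by
  obtain ⟨h, hS, -, hG1, -⟩ := (goodPar_iff p).mp hp
  have h1 : ContinuousAt (fun q : Par g n => (q.1, parG2 q * (parG1 q)⁻¹, parD q)) p :=
    continuousAt_fst.prodMk (((continuousAt_parG2 h hS).mul
      (cp_continuousAt_inv (continuousAt_parG1 h hS) hG1)).prodMk (continuousAt_parD h hS))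
  have e : (chart (g := g) (n := n))
      = fun q => snocL g n (q.1, parG2 q * (parG1 q)⁻¹, parD q) := rfl
  rw [e]
  exact continuous_snocL.continuousAt.comp h1

theorem cp_eventually_allInv {σ : Tup g n} (h : AllInv σ) : ∀ᶠ τ in 𝓝 σ, AllInv τ := by
  unfold AllInv
  rw [eventually_all]
  intro i
  rw [eventually_all]
  intro c
  have h1 : ContinuousAt (fun τ : Tup g n => (τ i c).det) σ :=
    (((continuous_apply c).comp (continuous_apply i)).matrix_det).continuousAt
  filter_upwards [h1.eventually_ne (h i c).ne_zero] with τ hτ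
  exact isUnit_iff_ne_zero.mpr hτ

theorem cp_eventually_det {F : Par g n → Mat n} {p : Par g n} (hF : ContinuousAt F p)
    (h : (F p).det ≠ 0) : ∀ᶠ q in 𝓝 p, (F q).det ≠ 0 := by
  have h1 : ContinuousAt (fun q => (F q).det) p :=
    ContinuousAt.comp (g := fun A : Mat n => A.det) (continuous_id.matrix_det).continuousAt hF
  exact h1.eventually_ne h

/-- (P3) -/
theorem eventually_goodPar {p : Par g n} (hp : GoodPar p) : ∀ᶠ q in 𝓝 p, GoodPar q := by
  obtain ⟨h, hS, hD, hG1, hG2⟩ := (goodPar_iff p).mp hp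
  have h0 : ∀ᶠ q : Par g n in 𝓝 p, AllInv q.1 :=
    (continuousAt_fst (p := p)).eventually (cp_eventually_allInv h)
  filter_upwards [h0, cp_eventually_det (continuousAt_parS h) hS,
    cp_eventually_det (continuousAt_parD h hS) hD, cp_eventually_det (continuousAt_parG1 h hS) hG1,
    cp_eventually_det (continuousAt_parG2 h hS) hG2] with q a1 a2 a3 a4 a5
  exact (goodPar_iff q).mpr ⟨a1, a2, a3, a4, a5⟩

theorem cp_det_inv_mu {σ : Tup g n} (h : AllInv σ) : ((mu σ)⁻¹).det = 1 := by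
  rw [Matrix.det_nonsing_inv, det_mu h, Ring.inverse_one]

/-- (P4) -/
theorem chart_mem_RC_of_good {p : Par g n} (hp : GoodPar p) : chart p ∈ RC (g + 1) n := by
  obtain ⟨h, hS, hD, hG1, hG2⟩ := hp
  exact chart_mem_RC h (isUnit_iff_ne_zero.mpr hD)
    (charpoly_chD (cp_det_inv_mu h) _ _ _ hS) _ _ hG1 hG2

/-- (P5) -/
theorem exists_goodPar_of_mem_Wset {ρ : Tup (g + 1) n} (hρ : ρ ∈ Wset g n) :
    ∃ p : Par g n, GoodPar p ∧ chart p = ρ := by
  obtain ⟨hRC, b, l, g1, hS, hG1⟩ := hρ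
  set σ : Tup g n := Fin.init ρ with hσ
  set C : Mat n := ρ (Fin.last g) 0 with hC
  set D : Mat n := ρ (Fin.last g) 1 with hD
  have hsn : snocH σ C D = ρ := snocH_init_last ρ
  have hRC' : snocH σ C D ∈ RC (g + 1) n := by rw [hsn]; exact hRC
  have hinv := allInv_snocH.mp hRC'.1
  have hK : (mu σ)⁻¹ = cm C D := inv_mu_eq_cm hRC'
  have hS' : (sysM (mu σ)⁻¹ D b l).det ≠ 0 := by rw [hK]; exact hS
  have e1 : chD (mu σ)⁻¹ D b l 0 = D := chD_eq_of_mem_RC hRC' b l hS'
  have e2 : chC (mu σ)⁻¹ D g1 (C *ᵥ g1) = C := chC_eq_of_mem_RC hRC' g1 hG1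
  have hpD : parD ((σ, D, b, l, 0, g1, C *ᵥ g1) : Par g n) = D := e1
  refine ⟨(σ, D, b, l, 0, g1, C *ᵥ g1), ⟨hinv.1, hS', ?_, ?_, ?_⟩, ?_⟩
  · rw [hpD]
    exact hinv.2.2.ne_zero
  · rw [hpD]
    exact hG1
  · rw [hpD]
    show (kry ((mu σ)⁻¹ * D) (C *ᵥ g1)).det ≠ 0
    intro h0
    have h1 : C.det = 0 := by
      rw [← e2, chC, Matrix.det_mul, h0, zero_mul]
    exact hinv.2.1.ne_zero h1
  · show snocH σ (chC (mu σ)⁻¹ (parD ((σ, D, b, l, 0, g1, C *ᵥ g1) : Par g n)) g1 (C *ᵥ g1))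
      (parD ((σ, D, b, l, 0, g1, C *ᵥ g1) : Par g n)) = ρ
    rw [hpD, e2, hsn]

/-- **C1.**  Take good parameters `p₀`, `p₁` of a point of `N ∩ W` and of `ρ ∈ W`;
`γ θ = chart (p₀ + θ • (p₁ - p₀))`.  For `θ` near `0`: `γ θ ∈ N ∩ RC ⊆ ZCl A`.  For `f ∈ PolyFun` vanishing
on `A`, `f ∘ γ` is rational, vanishes on a neighbourhood of `0` (an infinite set) and is continuous at
`θ = 1`: `IsRat.eq_zero_of_continuousAt`. -/
theorem Wset_subset_of_local {A N : Set (Tup (g + 1) n)} (hN : IsOpen N)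
    (hsub : ∀ ρ ∈ N, ρ ∈ RC (g + 1) n → ρ ∈ ZCl A) (hne : (N ∩ Wset g n).Nonempty) :
    Wset g n ⊆ ZCl A := by
  obtain ⟨ρ0, hρ0N, hρ0W⟩ := hne
  intro ρ hρ f hf hfA
  obtain ⟨p0, hp0, hc0⟩ := exists_goodPar_of_mem_Wset hρ0W
  obtain ⟨p1, hp1, hc1⟩ := exists_goodPar_of_mem_Wset hρ
  set line : ℂ → Par g n := fun θ => p0 + θ • (p1 - p0) with hline
  have hlc : Continuous line := by
    rw [hline]
    fun_prop
  have hl0 : line 0 = p0 := by simp [hline]
  have hl1 : line 1 = p1 := by simp [hline]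
  have hrat : IsRat fun θ => f (chart (line θ)) := (isRatV_chart_line p0 (p1 - p0)).polyFun hf
  -- near `0`
  have hev1 : ∀ᶠ θ in 𝓝 (0 : ℂ), GoodPar (line θ) := by
    have : Tendsto line (𝓝 0) (𝓝 p0) := by
      have := hlc.tendsto 0
      rwa [hl0] at this
    exact this.eventually (eventually_goodPar hp0)
  have hev2 : ∀ᶠ θ in 𝓝 (0 : ℂ), chart (line θ) ∈ N := by
    have h1 : ContinuousAt (fun θ => chart (line θ)) 0 := by
      refine ContinuousAt.comp (g := chart) ?_ hlc.continuousAt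
      rw [hl0]
      exact continuousAt_chart hp0
    refine h1.eventually_mem (hN.mem_nhds ?_)
    rw [hl0, hc0]
    exact hρ0N
  have hzero : {θ | f (chart (line θ)) = 0} ∈ 𝓝 (0 : ℂ) := by
    filter_upwards [hev1, hev2] with θ h1 h2
    exact hsub _ h2 (chart_mem_RC_of_good h1) f hf hfA
  have hinf : {θ | f (chart (line θ)) = 0}.Infinite := infinite_of_mem_nhds 0 hzero
  have hcont : ContinuousAt (fun θ => f (chart (line θ))) 1 := by
    have h1 : ContinuousAt (fun θ => chart (line θ)) 1 := by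
      refine ContinuousAt.comp (g := chart) ?_ hlc.continuousAt
      rw [hl1]
      exact continuousAt_chart hp1
    exact ContinuousAt.comp (g := f) (PolyFun.continuous hf).continuousAt h1
  have := hrat.eq_zero_of_continuousAt hinf hcont
  rw [hl1, hc1] at this
  exact this

end Claimed.Agent.R236
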