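import Claimed.Agent.R236.Moves3

/-!
# Row 236: the derivative of a staged composition of flows at the trivial parameters
(blueprint section 10)
-/

namespace Claimed.Agent.R236

open Matrix Topology Filter

variable {g n : ℕ}

attribute [local instance] Matrix.linftyOpNormedRing Matrix.linftyOpNormedAlgebra

section core

variable {B : Type*} [NormedAddCommGroup B] [NormedSpace ℂ B]

/-- value at the base point (`run_base`, `stepK_e0`). -/
theorem fam_base (hn : 1 ≤ n) (κ : ℕ → Bool × ℕ) (K₀ : ℕ) {x₀ : P4 g n} (hx : AllInv4 x₀) :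
    fam minv κ K₀ x₀ (embP e0 (fun _ : Fin K₀ => e0)) = x₀ :=
  run_base (fun k x s => stepK minv (κ k) x s) x₀ e0 (fun k => stepK_e0 hn (κ k) hx)

/-- near the trivial parameters the run is good (`eventually_run_good`, `eventually_isUnit_pS_mxK`,
`eventually_allInv4`). -/
theorem eventually_goodRun (hn : 1 ≤ n) (κ : ℕ → Bool × ℕ) (K₀ : ℕ) {x₀ : P4 g n}
    (hx : AllInv4 x₀) (β : B → P4 g n) (b₀ : B) (hβ : ContinuousAt β b₀) (hb : β b₀ = x₀) :
    ∀ᶠ q : B × (Fin K₀ → Fin n → ℂ) in 𝓝 (b₀, fun _ => e0),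
      GoodRun κ K₀ (β q.1) (embP e0 q.2) := by
  have hc : ∀ k, ContinuousAt
      (fun p : P4 g n × (Fin n → ℂ) => stepK minv (κ k) p.1 p.2) (x₀, e0) :=
    fun k => (contDiffAt_stepK hn (κ k) hx).continuousAt
  have h1 := eventually_run_good (K₀ := K₀) (fun k x s => stepK minv (κ k) x s) x₀ e0 hc
    (fun k => stepK_e0 hn (κ k) hx)
    (fun k x s => IsUnit (pS s (mxK minv (κ k) x)).det)
    (fun k => eventually_isUnit_pS_mxK hn (κ k) hx) β b₀ hβ hb
  have h2 : ∀ᶠ q : B × (Fin K₀ → Fin n → ℂ) in 𝓝 (b₀, fun _ => e0), AllInv4 (β q.1) := by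
    have h3 : Tendsto β (𝓝 b₀) (𝓝 x₀) := by
      have : Tendsto β (𝓝 b₀) (𝓝 (β b₀)) := hβ
      rwa [hb] at this
    have h4 : Tendsto (fun q : B × (Fin K₀ → Fin n → ℂ) => β q.1) (𝓝 (b₀, fun _ => e0)) (𝓝 x₀) :=
      h3.comp (continuous_fst.tendsto (b₀, fun _ : Fin K₀ => e0))
    exact h4.eventually (eventually_allInv4 hx)
  filter_upwards [h1, h2] with q hq1 hq2
  exact ⟨hq2, hq1⟩

/-- the continuous linear projection of `P4` to the `A₂`-component. -/
noncomputable def projA2 (g n : ℕ) : P4 g n →L[ℂ] Mat n :=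
  (ContinuousLinearMap.fst ℂ (Mat n) (Mat n)).comp
    ((ContinuousLinearMap.snd ℂ (Mat n) (Mat n × Mat n)).comp
      ((ContinuousLinearMap.snd ℂ (Mat n) (Mat n × Mat n × Mat n)).comp
        (ContinuousLinearMap.snd ℂ (Tup g n) (Mat n × Mat n × Mat n × Mat n))))

theorem projA2_apply (x : P4 g n) : projA2 g n x = x.2.2.2.1 := rfl

/-- the `A₂`-component of the parameter derivative of one stage. -/
theorem stage_A2 (k : Bool × ℕ) {x₀ : P4 g n} (hx : AllInv4 x₀)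
    (T : P4 g n × (Fin n → ℂ) →L[ℂ] P4 g n)
    (hT : HasStrictFDerivAt (fun p : P4 g n × (Fin n → ℂ) => stepK minv k p.1 p.2) T (x₀, e0))
    (δ : Fin n → ℂ) :
    (T (0, δ)).2.2.2.1 = x₀.2.2.2.1 * pS δ ((lkE minv (preK k x₀))⁻¹ ^ k.2 * x₀.2.2.2.2) := by
  have h1 : HasStrictFDerivAt (fun s : Fin n → ℂ => (x₀, s))
      (ContinuousLinearMap.inr ℂ (P4 g n) (Fin n → ℂ)) e0 := by
    have := (hasStrictFDerivAt_const (𝕜 := ℂ) x₀ (e0 : Fin n → ℂ)).prodMk
      (hasStrictFDerivAt_id (𝕜 := ℂ) (e0 : Fin n → ℂ))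
    exact this
  have h2 : HasStrictFDerivAt (fun s : Fin n → ℂ => stepK minv k x₀ s)
      (T.comp (ContinuousLinearMap.inr ℂ (P4 g n) (Fin n → ℂ))) e0 :=
    HasStrictFDerivAt.comp (g := fun p : P4 g n × (Fin n → ℂ) => stepK minv k p.1 p.2)
      (f := fun s : Fin n → ℂ => (x₀, s)) e0 hT h1
  have h3 : HasStrictFDerivAt (fun s : Fin n → ℂ => projA2 g n (stepK minv k x₀ s))
      ((projA2 g n).comp (T.comp (ContinuousLinearMap.inr ℂ (P4 g n) (Fin n → ℂ)))) e0 :=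
    (projA2 g n).hasStrictFDerivAt.comp e0 h2
  -- the linear map
  let Lm : (Fin n → ℂ) →ₗ[ℂ] Mat n :=
    (LinearMap.mulLeft ℂ x₀.2.2.2.1).comp (pSL ((lkE minv (preK k x₀))⁻¹ ^ k.2 * x₀.2.2.2.2))
  have h4 : (fun s : Fin n → ℂ => projA2 g n (stepK minv k x₀ s))
      = fun s => LinearMap.toContinuousLinearMap Lm s := by
    funext s
    rw [projA2_apply, stepK_A2' k hx s]
    rfl
  rw [h4] at h3
  have h5 := h3.hasFDerivAt.unique (LinearMap.toContinuousLinearMap Lm).hasFDerivAt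
  have h6 := congrArg (fun φ => φ δ) h5
  exact h6

/-- evaluation of the derivative of a staged composition on `(δb, 0)`. -/
theorem run_deriv_left {Y Z : Type*} [NormedAddCommGroup Y] [NormedSpace ℂ Y]
    [NormedAddCommGroup Z] [NormedSpace ℂ Z] {K₀ : ℕ} (β' : B →L[ℂ] Y)
    (D : Fin K₀ → Z →L[ℂ] Y) (δb : B) :
    (β'.comp (ContinuousLinearMap.fst ℂ B (Fin K₀ → Z)) +
        ∑ k : Fin K₀, (D k).comp
          ((ContinuousLinearMap.proj k).comp (ContinuousLinearMap.snd ℂ B (Fin K₀ → Z))))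
      (δb, 0) = β' δb := by
  simp [_root_.sum_apply]

/-- evaluation of the derivative of a staged composition on `(0, δs)`. -/
theorem run_deriv_right {Y Z : Type*} [NormedAddCommGroup Y] [NormedSpace ℂ Y]
    [NormedAddCommGroup Z] [NormedSpace ℂ Z] {K₀ : ℕ} (β' : B →L[ℂ] Y)
    (D : Fin K₀ → Z →L[ℂ] Y) (δs : Fin K₀ → Z) :
    (β'.comp (ContinuousLinearMap.fst ℂ B (Fin K₀ → Z)) +
        ∑ k : Fin K₀, (D k).comp
          ((ContinuousLinearMap.proj k).comp (ContinuousLinearMap.snd ℂ B (Fin K₀ → Z))))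
      (0, δs) = ∑ k : Fin K₀, D k (δs k) := by
  simp [_root_.sum_apply]

/-- **derivative of the family at the trivial parameters.**  `hasStrictFDerivAt_run` with
`T k` = the strict derivative of the stage (`contDiffAt_stepK`, `ContDiffAt.hasStrictFDerivAt`), `hid` from
`stepK_e0` and `eventually_allInv4`.  The `A₂`-component of `s ↦ stepK minv k x₀ s` is the linear map of
`stepK_A2'`, so the `A₂`-component of `T k (0, δs)` is that linear map applied to `δs`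
(uniqueness of derivatives). -/
theorem fam_core (hn : 1 ≤ n) (κ : ℕ → Bool × ℕ) (K₀ : ℕ) {x₀ : P4 g n} (hx : AllInv4 x₀)
    (β : B → P4 g n) (β' : B →L[ℂ] P4 g n) (b₀ : B) (hβ : HasStrictFDerivAt β β' b₀)
    (hb : β b₀ = x₀) :
    ∃ Ψ' : B × (Fin K₀ → Fin n → ℂ) →L[ℂ] P4 g n,
      HasStrictFDerivAt
        (fun q : B × (Fin K₀ → Fin n → ℂ) => fam minv κ K₀ (β q.1) (embP e0 q.2)) Ψ'
        (b₀, fun _ => e0) ∧
      (∀ δb, Ψ' (δb, 0) = β' δb) ∧
      ∀ δs, (Ψ' (0, δs)).2.2.2.1 = ∑ k : Fin K₀,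
        x₀.2.2.2.1 * pS (δs k) ((lkE minv (preK (κ k) x₀))⁻¹ ^ (κ k).2 * x₀.2.2.2.2) := by
  let T : ℕ → P4 g n × (Fin n → ℂ) →L[ℂ] P4 g n := fun k =>
    fderiv ℂ (fun p : P4 g n × (Fin n → ℂ) => stepK minv (κ k) p.1 p.2) (x₀, e0)
  have hT : ∀ k, HasStrictFDerivAt
      (fun p : P4 g n × (Fin n → ℂ) => stepK minv (κ k) p.1 p.2) (T k) (x₀, e0) :=
    fun k => (contDiffAt_stepK hn (κ k) hx).hasStrictFDerivAt one_ne_zero
  have hid : ∀ k, ∀ᶠ x in 𝓝 x₀, stepK minv (κ k) x e0 = x := by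
    intro k
    filter_upwards [eventually_allInv4 hx] with x hx'
    exact stepK_e0 hn (κ k) hx'
  have hrun := hasStrictFDerivAt_run (K₀ := K₀) (fun k x s => stepK minv (κ k) x s) x₀ e0 T hT hid
    β β' b₀ hβ hb
  refine ⟨_, hrun, fun δb => run_deriv_left β' _ δb, fun δs => ?_⟩
  have h := run_deriv_right β'
    (fun k : Fin K₀ => (T k).comp (ContinuousLinearMap.inr ℂ (P4 g n) (Fin n → ℂ))) δs
  refine (congrArg (fun y : P4 g n => y.2.2.2.1) h).trans ?_
  have hsum : ∀ y : Fin K₀ → P4 g n, (∑ k, y k).2.2.2.1 = ∑ k, (y k).2.2.2.1 := by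
    intro y
    simp [Prod.snd_sum, Prod.fst_sum]
  refine (hsum _).trans ?_
  apply Finset.sum_congr rfl
  intro k _
  exact stage_A2 (κ k) hx (T k) (hT k) (δs k)

end core

end Claimed.Agent.R236
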