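import Claimed.Agent.R236.VC

/-!
# Row 236: the derivative of the surface word (blueprint section 5)

Norm on matrices: the local instances below (all files of this row doing analysis use them).
-/

namespace Claimed.Agent.R236

open Matrix Module Topology

variable {g n : ℕ}

set_option linter.unusedSimpArgs false
set_option linter.unusedVariables false

attribute [local instance] Matrix.linftyOpNormedRing Matrix.linftyOpNormedAlgebra

/-- derivative of the commutator at `(C,D)` in the direction `(δC,δD)`. -/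
noncomputable def dcm (C D δC δD : Mat n) : Mat n :=
  δC * D * C⁻¹ * D⁻¹ + C * δD * C⁻¹ * D⁻¹ - C * D * C⁻¹ * δC * C⁻¹ * D⁻¹
    - C * D * C⁻¹ * D⁻¹ * δD * D⁻¹

/-- derivative of `mu` at `ρ` in the direction `δ`. -/
noncomputable def dmu : ∀ {g : ℕ}, Tup g n → Tup g n → Mat n
  | 0, _, _ => 0
  | g + 1, ρ, δ =>
      dmu (Fin.init (α := fun _ => Fin 2 → Mat n) ρ) (Fin.init (α := fun _ => Fin 2 → Mat n) δ)
          * cm (ρ (Fin.last g) 0) (ρ (Fin.last g) 1)
        + mu (Fin.init (α := fun _ => Fin 2 → Mat n) ρ)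
          * dcm (ρ (Fin.last g) 0) (ρ (Fin.last g) 1) (δ (Fin.last g) 0) (δ (Fin.last g) 1)

theorem dmu_snocH (σ δσ : Tup g n) (C D δC δD : Mat n) :
    dmu (snocH σ C D) (snocH δσ δC δD) = dmu σ δσ * cm C D + mu σ * dcm C D δC δD := by
  rw [dmu, init_snocH, init_snocH, (snocH_last σ C D).1, (snocH_last σ C D).2,
    (snocH_last δσ δC δD).1, (snocH_last δσ δC δD).2]

theorem dcm_add (C D a b a' b' : Mat n) : dcm C D (a + a') (b + b') = dcm C D a b + dcm C D a' b' := by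
  unfold dcm
  noncomm_ring

theorem dcm_smul (C D a b : Mat n) (t : ℂ) : dcm C D (t • a) (t • b) = t • dcm C D a b := by
  unfold dcm
  simp only [smul_mul_assoc, mul_smul_comm, smul_add, smul_sub]

theorem dmu_add (ρ δ δ' : Tup g n) : dmu ρ (δ + δ') = dmu ρ δ + dmu ρ δ' := by
  induction g with
  | zero => simp [dmu]
  | succ g ih =>
    rw [← snocH_init_last ρ, ← snocH_init_last δ, ← snocH_init_last δ', ← snocH_add, dmu_snocH,
      dmu_snocH, dmu_snocH, ih, dcm_add]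
    noncomm_ring

theorem dmu_smul (ρ δ : Tup g n) (t : ℂ) : dmu ρ (t • δ) = t • dmu ρ δ := by
  induction g with
  | zero => simp [dmu]
  | succ g ih =>
    rw [← snocH_init_last ρ, ← snocH_init_last δ, ← snocH_smul, dmu_snocH,
      dmu_snocH, ih, dcm_smul]
    simp only [smul_mul_assoc, mul_smul_comm, smul_add]

/-- `dmu ρ` as a linear map. -/
noncomputable def dmuL (ρ : Tup g n) : Tup g n →ₗ[ℂ] Mat n where
  toFun := dmu ρ
  map_add' := dmu_add ρ
  map_smul' t δ := dmu_smul ρ δ t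

/-- `dcm C D` as a linear map. -/
noncomputable def dcmL (C D : Mat n) : Mat n × Mat n →ₗ[ℂ] Mat n where
  toFun x := dcm C D x.1 x.2
  map_add' x y := dcm_add C D x.1 x.2 y.1 y.2
  map_smul' t x := dcm_smul C D x.1 x.2 t

theorem hasStrictFDerivAt_matInv {C : Mat n} (hC : IsUnit C.det) :
    HasStrictFDerivAt (fun x : Mat n => x⁻¹)
      (-(ContinuousLinearMap.mulLeftRight ℂ (Mat n) C⁻¹ C⁻¹)) C := by
  obtain ⟨u, rfl⟩ := (Matrix.isUnit_iff_isUnit_det C).mpr hC
  have h := hasStrictFDerivAt_ringInverse (𝕜 := ℂ) u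
  have e : (fun x : Mat n => x⁻¹) = Ring.inverse := by
    funext x; exact nonsing_inv_eq_ringInverse x
  rw [e, ← Matrix.coe_units_inv]
  exact h

/-- (use `hasStrictFDerivAt_ringInverse`, `Matrix.nonsing_inv_eq_ringInverse`,
`HasStrictFDerivAt.mul'`). -/
theorem hasStrictFDerivAt_cm {C D : Mat n} (hC : IsUnit C.det) (hD : IsUnit D.det) :
    HasStrictFDerivAt (fun x : Mat n × Mat n => cm x.1 x.2)
      (LinearMap.toContinuousLinearMap (dcmL C D)) (C, D) := by
  have h1 : HasStrictFDerivAt (fun x : Mat n × Mat n => x.1)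
      (ContinuousLinearMap.fst ℂ (Mat n) (Mat n)) (C, D) := hasStrictFDerivAt_fst
  have h2 : HasStrictFDerivAt (fun x : Mat n × Mat n => x.2)
      (ContinuousLinearMap.snd ℂ (Mat n) (Mat n)) (C, D) := hasStrictFDerivAt_snd
  have i1 := (hasStrictFDerivAt_matInv hC).comp (C, D) h1
  have i2 := (hasStrictFDerivAt_matInv hD).comp (C, D) h2
  have key := ((h1.mul' h2).mul' i1).mul' i2
  refine key.congr_fderiv ?_
  refine ContinuousLinearMap.ext fun x => ?_
  obtain ⟨a, b⟩ := x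
  show C * D * C⁻¹ * (-(D⁻¹ * b * D⁻¹)) + (C * D * (-(C⁻¹ * a * C⁻¹)) + (C * b + a * D) * C⁻¹) * D⁻¹
    = dcm C D a b
  unfold dcm
  noncomm_ring


theorem mu_succ_eq (ρ : Tup (g + 1) n) :
    mu ρ = mu (Fin.init (α := fun _ => Fin 2 → Mat n) ρ) * cm (ρ (Fin.last g) 0) (ρ (Fin.last g) 1) := by
  conv_lhs => rw [← snocH_init_last ρ, mu_snocH]

/-- induction on `g` through `snocL`. -/
theorem hasStrictFDerivAt_mu {ρ : Tup g n} (h : AllInv ρ) :
    HasStrictFDerivAt (mu : Tup g n → Mat n) (LinearMap.toContinuousLinearMap (dmuL ρ)) ρ := by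
  induction g with
  | zero =>
    have e : (mu : Tup 0 n → Mat n) = fun _ => 1 := by funext x; exact mu_zero x
    rw [e]
    refine (hasStrictFDerivAt_const (1 : Mat n) ρ).congr_fderiv ?_
    refine ContinuousLinearMap.ext fun x => ?_
    rfl
  | succ g ih =>
    have h' := h
    rw [← snocH_init_last ρ, allInv_snocH] at h'
    let P : Tup (g + 1) n →L[ℂ] Tup g n :=
      ContinuousLinearMap.pi fun i => ContinuousLinearMap.proj (i.castSucc)
    let Q : Tup (g + 1) n →L[ℂ] Mat n × Mat n :=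
      ((ContinuousLinearMap.proj (R := ℂ) (φ := fun _ : Fin 2 => Mat n) 0).comp
        (ContinuousLinearMap.proj (R := ℂ) (φ := fun _ : Fin (g + 1) => Fin 2 → Mat n) (Fin.last g))).prod
        ((ContinuousLinearMap.proj (R := ℂ) (φ := fun _ : Fin 2 => Mat n) 1).comp
        (ContinuousLinearMap.proj (R := ℂ) (φ := fun _ : Fin (g + 1) => Fin 2 → Mat n) (Fin.last g)))
    have k1 := (ih h'.1).comp ρ P.hasStrictFDerivAt
    have k2 := (hasStrictFDerivAt_cm h'.2.1 h'.2.2).comp ρ Q.hasStrictFDerivAt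
    have key := k1.mul' k2
    have e : (mu : Tup (g + 1) n → Mat n) =
        ((mu : Tup g n → Mat n) ∘ P) * ((fun x : Mat n × Mat n => cm x.1 x.2) ∘ Q) := by
      funext x
      exact mu_succ_eq x
    rw [e]
    refine key.congr_fderiv ?_
    refine ContinuousLinearMap.ext fun x => ?_
    show mu (Fin.init (α := fun _ => Fin 2 → Mat n) ρ) *
        dcm (ρ (Fin.last g) 0) (ρ (Fin.last g) 1) (x (Fin.last g) 0) (x (Fin.last g) 1) +
        dmu (Fin.init (α := fun _ => Fin 2 → Mat n) ρ) (Fin.init (α := fun _ => Fin 2 → Mat n) x) *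
          cm (ρ (Fin.last g) 0) (ρ (Fin.last g) 1) = dmu ρ x
    rw [dmu, add_comm]


theorem cm_inv_eq {C D : Mat n} (hC : IsUnit C.det) (hD : IsUnit D.det) :
    (cm C D)⁻¹ = D * C * D⁻¹ * C⁻¹ := by
  unfold cm
  rw [Matrix.mul_inv_rev, Matrix.mul_inv_rev, Matrix.mul_inv_rev, nonsing_inv_nonsing_inv _ hC,
    nonsing_inv_nonsing_inv _ hD]
  simp only [Matrix.mul_assoc]

/-- with `δC = C α`, `δD = D β`:
`dcm · (cm C D)⁻¹ = C (α - D α D⁻¹) C⁻¹ + C D (β - C⁻¹ β C) D⁻¹ C⁻¹`. -/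
theorem dcm_mul_inv {C D : Mat n} (hC : IsUnit C.det) (hD : IsUnit D.det) (α β : Mat n) :
    dcm C D (C * α) (D * β) * (cm C D)⁻¹ =
      C * (α - D * α * D⁻¹) * C⁻¹ + C * D * (β - C⁻¹ * β * C) * D⁻¹ * C⁻¹ := by
  rw [cm_inv_eq hC hD]
  unfold dcm
  have c1 : C * C⁻¹ = 1 := mul_nonsing_inv _ hC
  have c2 : C⁻¹ * C = 1 := nonsing_inv_mul _ hC
  have d1 : D * D⁻¹ = 1 := mul_nonsing_inv _ hD
  have d2 : D⁻¹ * D = 1 := nonsing_inv_mul _ hD
  have e1 : ∀ X : Mat n, C⁻¹ * (C * X) = X := fun X => by rw [← Matrix.mul_assoc, c2, Matrix.one_mul]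
  have e2 : ∀ X : Mat n, C * (C⁻¹ * X) = X := fun X => by rw [← Matrix.mul_assoc, c1, Matrix.one_mul]
  have e3 : ∀ X : Mat n, D⁻¹ * (D * X) = X := fun X => by rw [← Matrix.mul_assoc, d2, Matrix.one_mul]
  have e4 : ∀ X : Mat n, D * (D⁻¹ * X) = X := fun X => by rw [← Matrix.mul_assoc, d1, Matrix.one_mul]
  simp only [Matrix.mul_assoc, mul_add, add_mul, mul_sub, sub_mul, e1, e2, e3, e4, c1, c2, d1, d2,
    Matrix.mul_one]
  abel

/-- conjugation invariance of `tr (ψ ·)` when `ψ` commutes with `C`. -/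
theorem trace_mul_conj_of_comm {C ψ : Mat n} (hC : IsUnit C.det) (h : ψ * C = C * ψ) (X : Mat n) :
    trace (ψ * (C * X * C⁻¹)) = trace (ψ * X) := by
  have c2 : C⁻¹ * C = 1 := nonsing_inv_mul _ hC
  calc trace (ψ * (C * X * C⁻¹)) = trace ((ψ * C) * X * C⁻¹) := by simp only [Matrix.mul_assoc]
    _ = trace (C * (ψ * X) * C⁻¹) := by rw [h]; simp only [Matrix.mul_assoc]
    _ = trace (C⁻¹ * (C * (ψ * X))) := by rw [trace_mul_comm]
    _ = trace (ψ * X) := by rw [← Matrix.mul_assoc, c2, Matrix.one_mul]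

theorem comm_inv_of_comm {C ψ : Mat n} (hC : IsUnit C.det) (h : ψ * C = C * ψ) :
    ψ * C⁻¹ = C⁻¹ * ψ := by
  have c1 : C * C⁻¹ = 1 := mul_nonsing_inv _ hC
  have c2 : C⁻¹ * C = 1 := nonsing_inv_mul _ hC
  calc ψ * C⁻¹ = C⁻¹ * (C * ψ) * C⁻¹ := by rw [← Matrix.mul_assoc, c2, Matrix.one_mul]
    _ = C⁻¹ * (ψ * C) * C⁻¹ := by rw [h]
    _ = C⁻¹ * ψ := by rw [Matrix.mul_assoc, Matrix.mul_assoc, c1, Matrix.mul_one]

theorem trace_mul_conj_of_comm' {C ψ : Mat n} (hC : IsUnit C.det) (h : ψ * C = C * ψ) (X : Mat n) :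
    trace (ψ * (C⁻¹ * X * C)) = trace (ψ * X) := by
  have hC' : IsUnit (C⁻¹).det := by
    rw [det_nonsing_inv]; exact hC.ringInverse
  have := trace_mul_conj_of_comm hC' (comm_inv_of_comm hC h) X
  rwa [nonsing_inv_nonsing_inv _ hC] at this

/-- one handle: `ψ ⟂ Im` iff `ψ` commutes with `C` and `D`.
(`ψ` commutes with `U = C D C⁻¹` and with `U C⁻¹ U⁻¹`.) -/
theorem dcm_orth {C D : Mat n} (hC : IsUnit C.det) (hD : IsUnit D.det) (ψ : Mat n) :
    (∀ a b, trace (ψ * (dcm C D a b * (cm C D)⁻¹)) = 0) ↔ (ψ * C = C * ψ ∧ ψ * D = D * ψ) := by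
  have c1 : C * C⁻¹ = 1 := mul_nonsing_inv _ hC
  have c2 : C⁻¹ * C = 1 := nonsing_inv_mul _ hC
  have d1 : D * D⁻¹ = 1 := mul_nonsing_inv _ hD
  have d2 : D⁻¹ * D = 1 := nonsing_inv_mul _ hD
  have e1 : ∀ X : Mat n, C⁻¹ * (C * X) = X := fun X => by rw [← Matrix.mul_assoc, c2, Matrix.one_mul]
  have e2 : ∀ X : Mat n, C * (C⁻¹ * X) = X := fun X => by rw [← Matrix.mul_assoc, c1, Matrix.one_mul]
  have e3 : ∀ X : Mat n, D⁻¹ * (D * X) = X := fun X => by rw [← Matrix.mul_assoc, d2, Matrix.one_mul]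
  have e4 : ∀ X : Mat n, D * (D⁻¹ * X) = X := fun X => by rw [← Matrix.mul_assoc, d1, Matrix.one_mul]
  constructor
  · intro h
    -- first relation
    have H1 : C⁻¹ * ψ * C = D⁻¹ * (C⁻¹ * ψ * C) * D := by
      rw [Matrix.ext_iff_trace_mul_right]
      intro α
      have := h (C * α) (D * 0)
      rw [dcm_mul_inv hC hD] at this
      simp only [Matrix.mul_zero, Matrix.zero_mul, sub_zero, add_zero, mul_sub, sub_mul,
        trace_sub, sub_eq_zero] at this
      calc trace (C⁻¹ * ψ * C * α) = trace (C⁻¹ * (ψ * (C * α))) := by simp only [Matrix.mul_assoc]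
        _ = trace (ψ * (C * α) * C⁻¹) := by rw [trace_mul_comm]
        _ = trace (ψ * (C * α * C⁻¹)) := by simp only [Matrix.mul_assoc]
        _ = trace (ψ * (C * (D * α * D⁻¹) * C⁻¹)) := this
        _ = trace ((ψ * (C * (D * α))) * (D⁻¹ * C⁻¹)) := by simp only [Matrix.mul_assoc]
        _ = trace ((D⁻¹ * C⁻¹) * (ψ * (C * (D * α)))) := by rw [trace_mul_comm]
        _ = trace (D⁻¹ * (C⁻¹ * ψ * C) * D * α) := by simp only [Matrix.mul_assoc]
    have H2 : D⁻¹ * (C⁻¹ * ψ * C) * D = C * (D⁻¹ * (C⁻¹ * ψ * C) * D) * C⁻¹ := by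
      rw [Matrix.ext_iff_trace_mul_right]
      intro β
      have := h (C * 0) (D * β)
      rw [dcm_mul_inv hC hD] at this
      simp only [Matrix.mul_zero, Matrix.zero_mul, sub_zero, zero_add, mul_sub, sub_mul,
        trace_sub, sub_eq_zero] at this
      calc trace (D⁻¹ * (C⁻¹ * ψ * C) * D * β)
          = trace ((D⁻¹ * C⁻¹) * (ψ * (C * (D * β)))) := by simp only [Matrix.mul_assoc]
        _ = trace ((ψ * (C * (D * β))) * (D⁻¹ * C⁻¹)) := by rw [trace_mul_comm]
        _ = trace (ψ * (C * D * β * D⁻¹ * C⁻¹)) := by simp only [Matrix.mul_assoc]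
        _ = trace (ψ * (C * D * (C⁻¹ * β * C) * D⁻¹ * C⁻¹)) := this
        _ = trace ((ψ * (C * (D * (C⁻¹ * β)))) * (C * (D⁻¹ * C⁻¹))) := by
            simp only [Matrix.mul_assoc]
        _ = trace ((C * (D⁻¹ * C⁻¹)) * (ψ * (C * (D * (C⁻¹ * β))))) := by rw [trace_mul_comm]
        _ = trace (C * (D⁻¹ * (C⁻¹ * ψ * C) * D) * C⁻¹ * β) := by simp only [Matrix.mul_assoc]
    rw [← H1] at H2
    have H3 : C⁻¹ * ψ * C = ψ := by
      rw [H2]
      simp only [Matrix.mul_assoc, e2, c1, Matrix.mul_one]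
    rw [H3] at H1
    constructor
    · calc ψ * C = C * (C⁻¹ * ψ * C) := by simp only [Matrix.mul_assoc, e2]
        _ = C * ψ := by rw [H3]
    · calc ψ * D = D * (D⁻¹ * ψ * D) := by simp only [Matrix.mul_assoc, e4]
        _ = D * ψ := by rw [← H1]
  · rintro ⟨h1, h2⟩ a b
    have ha : a = C * (C⁻¹ * a) := (e2 a).symm
    have hb : b = D * (D⁻¹ * b) := (e4 b).symm
    rw [ha, hb, dcm_mul_inv hC hD]
    generalize C⁻¹ * a = α
    generalize D⁻¹ * b = β
    have r : C * D * (β - C⁻¹ * β * C) * D⁻¹ * C⁻¹ = C * (D * (β - C⁻¹ * β * C) * D⁻¹) * C⁻¹ := by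
      simp only [Matrix.mul_assoc]
    rw [r, mul_add, trace_add, trace_mul_conj_of_comm hC h1, trace_mul_conj_of_comm hC h1,
      trace_mul_conj_of_comm hD h2, mul_sub, mul_sub, trace_sub, trace_sub,
      trace_mul_conj_of_comm hD h2, trace_mul_conj_of_comm' hC h1]
    simp


theorem inComm_snocH {σ : Tup g n} {C D φ : Mat n} :
    InComm (snocH σ C D) φ ↔ InComm σ φ ∧ φ * C = C * φ ∧ φ * D = D * φ := by
  constructor
  · intro h
    refine ⟨fun i c => ?_, ?_, ?_⟩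
    · have := h i.castSucc c
      rwa [snocH_castSucc] at this
    · have := h (Fin.last g) 0
      rwa [(snocH_last σ C D).1] at this
    · have := h (Fin.last g) 1
      rwa [(snocH_last σ C D).2] at this
  · rintro ⟨h1, h2, h3⟩ i c
    refine Fin.lastCases ?_ (fun j => ?_) i
    · fin_cases c
      · simpa [(snocH_last σ C D).1] using h2
      · simpa [(snocH_last σ C D).2] using h3
    · rw [snocH_castSucc]; exact h1 j c

theorem comm_cm_of_comm {C D φ : Mat n} (hC : IsUnit C.det) (hD : IsUnit D.det)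
    (h1 : φ * C = C * φ) (h2 : φ * D = D * φ) : φ * cm C D = cm C D * φ := by
  have h3 := comm_inv_of_comm hC h1
  have h4 := comm_inv_of_comm hD h2
  unfold cm
  calc φ * (C * D * C⁻¹ * D⁻¹) = (φ * C) * D * C⁻¹ * D⁻¹ := by simp only [Matrix.mul_assoc]
    _ = C * (φ * D) * C⁻¹ * D⁻¹ := by rw [h1]; simp only [Matrix.mul_assoc]
    _ = C * D * (φ * C⁻¹) * D⁻¹ := by rw [h2]; simp only [Matrix.mul_assoc]
    _ = C * D * C⁻¹ * (φ * D⁻¹) := by rw [h3]; simp only [Matrix.mul_assoc]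
    _ = C * D * C⁻¹ * D⁻¹ * φ := by rw [h4]; simp only [Matrix.mul_assoc]

theorem InComm.comm_mu {ρ : Tup g n} (h : AllInv ρ) {φ : Mat n} (hφ : InComm ρ φ) :
    φ * mu ρ = mu ρ * φ := by
  induction g with
  | zero => simp [mu_zero]
  | succ g ih =>
    rw [← snocH_init_last ρ] at h hφ ⊢
    rw [allInv_snocH] at h
    rw [inComm_snocH] at hφ
    rw [mu_snocH, ← Matrix.mul_assoc, ih h.1 hφ.1, Matrix.mul_assoc,
      comm_cm_of_comm h.2.1 h.2.2 hφ.2.1 hφ.2.2, Matrix.mul_assoc]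

theorem dcm_zero (C D : Mat n) : dcm C D 0 0 = 0 := by
  unfold dcm; simp

theorem dmu_zero (ρ : Tup g n) : dmu ρ 0 = 0 := by
  have := dmu_smul ρ 0 0
  simpa using this

theorem snocH_zero : snocH (0 : Tup g n) 0 0 = 0 := (snocL g n).map_zero

theorem dmu_snocH_mul_inv {σ : Tup g n} {C D : Mat n} (hσ : AllInv σ) (hC : IsUnit C.det)
    (hD : IsUnit D.det) (δσ : Tup g n) (δC δD : Mat n) :
    dmu (snocH σ C D) (snocH δσ δC δD) * (mu (snocH σ C D))⁻¹ =
      dmu σ δσ * (mu σ)⁻¹ + mu σ * (dcm C D δC δD * (cm C D)⁻¹) * (mu σ)⁻¹ := by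
  have hc : IsUnit (cm C D).det := by rw [det_cm hC hD]; exact isUnit_one
  have c1 : cm C D * (cm C D)⁻¹ = 1 := mul_nonsing_inv _ hc
  rw [dmu_snocH, mu_snocH, Matrix.mul_inv_rev, add_mul]
  congr 1
  · rw [Matrix.mul_assoc, ← Matrix.mul_assoc (cm C D), c1, Matrix.one_mul]
  · simp only [Matrix.mul_assoc]

/-- **Lemma D1** (no relation needed). Induction on `g`:
`dmu (σ,τ) · (mu σ · c)⁻¹ = dmu σ · (mu σ)⁻¹ + (mu σ) (dcm · c⁻¹) (mu σ)⁻¹`, and an element commuting
with `σ` commutes with `mu σ`. -/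
theorem dmu_orth {ρ : Tup g n} (h : AllInv ρ) (φ : Mat n) :
    (∀ δ, trace (φ * (dmu ρ δ * (mu ρ)⁻¹)) = 0) ↔ InComm ρ φ := by
  induction g with
  | zero =>
    constructor
    · intro _ i; exact i.elim0
    · intro _ δ; simp [dmu]
  | succ g ih =>
    rw [← snocH_init_last ρ] at h ⊢
    generalize Fin.init (α := fun _ => Fin 2 → Mat n) ρ = σ at h ⊢
    generalize ρ (Fin.last g) 0 = C at h ⊢
    generalize ρ (Fin.last g) 1 = D at h ⊢
    rw [allInv_snocH] at h
    obtain ⟨hσ, hC, hD⟩ := h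
    have hK : IsUnit (mu σ).det := by rw [det_mu hσ]; exact isUnit_one
    rw [inComm_snocH]
    constructor
    · intro H
      have H1 : InComm σ φ := by
        rw [← ih hσ]
        intro δσ
        have := H (snocH δσ 0 0)
        rw [dmu_snocH_mul_inv hσ hC hD, dcm_zero] at this
        simpa using this
      have hφK := H1.comm_mu hσ
      refine ⟨H1, ?_⟩
      rw [← dcm_orth hC hD]
      intro a b
      have := H (snocH 0 a b)
      rw [dmu_snocH_mul_inv hσ hC hD, dmu_zero, Matrix.zero_mul, zero_add,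
        trace_mul_conj_of_comm hK hφK] at this
      exact this
    · rintro ⟨H1, H2⟩ δ
      have hφK := H1.comm_mu hσ
      rw [← snocH_init_last δ, dmu_snocH_mul_inv hσ hC hD, mul_add, trace_add,
        trace_mul_conj_of_comm hK hφK, (ih hσ).mpr H1, ((dcm_orth hC hD φ).mpr H2), add_zero]

theorem trace_dmu {ρ : Tup g n} (h : AllInv ρ) (δ : Tup g n) :
    trace (dmu ρ δ * (mu ρ)⁻¹) = 0 := by
  have := (dmu_orth h 1).mpr (fun i c => by simp) δ
  simpa using this

theorem trace_dcm {C D : Mat n} (hC : IsUnit C.det) (hD : IsUnit D.det) (a b : Mat n) :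
    trace (dcm C D a b * (cm C D)⁻¹) = 0 := by
  have := (dcm_orth hC hD 1).mpr ⟨by simp, by simp⟩ a b
  simpa using this

/-- every linear form on matrices is `tr (φ ·)`. -/
theorem exists_trace_repr (f : Mat n →ₗ[ℂ] ℂ) : ∃ φ : Mat n, ∀ M, f M = trace (φ * M) := by
  refine ⟨Matrix.of fun j i => f (Matrix.single i j 1), fun M => ?_⟩
  conv_lhs => rw [Matrix.matrix_eq_sum_single M]
  simp only [map_sum, trace, diag_apply, Matrix.mul_apply, Matrix.of_apply]
  rw [Finset.sum_comm]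
  refine Finset.sum_congr rfl fun j _ => Finset.sum_congr rfl fun i _ => ?_
  have : Matrix.single i j (M i j) = M i j • Matrix.single i j (1 : ℂ) := by
    rw [Matrix.smul_single, smul_eq_mul, mul_one]
  rw [this, map_smul, smul_eq_mul, mul_comm]

/-- **Cor D2**: if `ρ` is Schur, every traceless matrix is `dmu ρ δ · (mu ρ)⁻¹`.
(A proper subspace of the traceless matrices is killed by `tr (φ ·)` for some non-scalar `φ`:
nondegeneracy of the trace form.) -/
theorem dmu_surj {ρ : Tup g n} (h : AllInv ρ) (hS : IsSchur ρ) (y : Mat n) (hy : trace y = 0) :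
    ∃ δ, dmu ρ δ * (mu ρ)⁻¹ = y := by
  let T : Tup g n →ₗ[ℂ] Mat n := (LinearMap.mulRight ℂ (mu ρ)⁻¹).comp (dmuL ρ)
  have hT : ∀ δ, T δ = dmu ρ δ * (mu ρ)⁻¹ := fun δ => rfl
  by_contra hcon
  have hy' : y ∉ LinearMap.range T := by
    rintro ⟨δ, hδ⟩
    exact hcon ⟨δ, by rw [← hT, hδ]⟩
  obtain ⟨f, hfy, hf⟩ := Submodule.exists_le_ker_of_notMem hy'
  obtain ⟨φ, hφ⟩ := exists_trace_repr f
  have hc : InComm ρ φ := by
    rw [← dmu_orth h]
    intro δ
    rw [← hT, ← hφ]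
    exact hf ⟨δ, rfl⟩
  obtain ⟨a, rfl⟩ := hS φ hc
  apply hfy
  rw [hφ]
  simp [hy]

/-- **Cor D3**: `rank (dcm C D) ≥ n² - dim Comm(C)` (use the directions `(0, D β)`). -/
theorem finrank_range_dcmL {C D : Mat n} (hC : IsUnit C.det) (hD : IsUnit D.det) :
    n ^ 2 ≤ finrank ℂ (LinearMap.range (dcmL C D)) + finrank ℂ (LinearMap.ker (adL C)) := by
  have c1 : C * C⁻¹ = 1 := mul_nonsing_inv _ hC
  have c2 : C⁻¹ * C = 1 := nonsing_inv_mul _ hC
  have d1 : D * D⁻¹ = 1 := mul_nonsing_inv _ hD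
  have d2 : D⁻¹ * D = 1 := nonsing_inv_mul _ hD
  have e1 : ∀ X : Mat n, C⁻¹ * (C * X) = X := fun X => by rw [← Matrix.mul_assoc, c2, Matrix.one_mul]
  have e2 : ∀ X : Mat n, C * (C⁻¹ * X) = X := fun X => by rw [← Matrix.mul_assoc, c1, Matrix.one_mul]
  have e3 : ∀ X : Mat n, D⁻¹ * (D * X) = X := fun X => by rw [← Matrix.mul_assoc, d2, Matrix.one_mul]
  let T : Mat n →ₗ[ℂ] Mat n :=
    (dcmL C D).comp ((LinearMap.inr ℂ (Mat n) (Mat n)).comp (LinearMap.mulLeft ℂ D))
  have hT : ∀ β, T β = dcm C D 0 (D * β) := fun β => rfl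
  have h1 : LinearMap.range T ≤ LinearMap.range (dcmL C D) := LinearMap.range_comp_le_range _ _
  have h2 : LinearMap.ker T ≤ LinearMap.ker (adL C) := by
    intro β hβ
    rw [LinearMap.mem_ker, hT] at hβ
    have := dcm_mul_inv hC hD 0 β
    rw [Matrix.mul_zero, hβ] at this
    simp only [Matrix.mul_zero, Matrix.zero_mul, sub_zero, zero_add] at this
    have k : β - C⁻¹ * β * C = 0 := by
      calc β - C⁻¹ * β * C
          = D⁻¹ * (C⁻¹ * (C * D * (β - C⁻¹ * β * C) * D⁻¹ * C⁻¹) * C) * D := by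
            simp only [Matrix.mul_assoc, e1, e3, c2, d2, Matrix.mul_one]
        _ = 0 := by rw [← this]; simp
    rw [LinearMap.mem_ker]
    show β * C - C * β = 0
    have k' : β = C⁻¹ * β * C := sub_eq_zero.mp k
    calc β * C - C * β = β * C - C * (C⁻¹ * β * C) := by rw [← k']
      _ = 0 := by simp only [Matrix.mul_assoc, e2, sub_self]
  have h3 := LinearMap.finrank_range_add_finrank_ker T
  have h4 : finrank ℂ (Mat n) = n ^ 2 := by
    rw [Module.finrank_matrix]; simp [sq]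
  have h5 := Submodule.finrank_mono h1
  have h6 := Submodule.finrank_mono h2
  omega

end Claimed.Agent.R236
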