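import Claimed.Agent.R236.ZCl

/-!
# Row 236: polynomial functions are polynomials; lemmas (Z1)-(Z4) on the semantic Zariski closure
(blueprint section 1).  Hints: everything about `PolyFun` is proved by `Algebra.adjoin_induction`.
-/

namespace Claimed.Agent.R236

open Matrix

variable {V W U : Type*} [AddCommGroup V] [Module ℂ V] [AddCommGroup W] [Module ℂ W]
  [AddCommGroup U] [Module ℂ U]

/-- polynomial functions of one variable are polynomials. -/
theorem PolyFun.exists_polynomial {f : ℂ → ℂ} (hf : f ∈ PolyFun ℂ) :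
    ∃ p : Polynomial ℂ, ∀ θ, f θ = p.eval θ := by
  induction hf using Algebra.adjoin_induction with
  | mem x hx =>
    obtain ⟨ℓ, rfl⟩ := hx
    refine ⟨Polynomial.C (ℓ 1) * Polynomial.X, fun θ => ?_⟩
    have h1 : ℓ θ = ℓ (θ • (1 : ℂ)) := by simp
    simp only [Polynomial.eval_mul, Polynomial.eval_C, Polynomial.eval_X]
    rw [h1, map_smul, smul_eq_mul, mul_comm]
  | algebraMap r => exact ⟨Polynomial.C r, fun θ => by simp⟩
  | add x y _ _ hx hy =>
    obtain ⟨p, hp⟩ := hx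
    obtain ⟨q, hq⟩ := hy
    exact ⟨p + q, fun θ => by simp [hp, hq]⟩
  | mul x y _ _ hx hy =>
    obtain ⟨p, hp⟩ := hx
    obtain ⟨q, hq⟩ := hy
    exact ⟨p * q, fun θ => by simp [hp, hq]⟩

theorem polyFun_of_polynomial (p : Polynomial ℂ) : (fun θ => p.eval θ) ∈ PolyFun ℂ := by
  simp only [Polynomial.eval_eq_sum_range]
  exact PolyFun.sum _ fun i _ => PolyFun.mul (PolyFun.const _)
    (PolyFun.pow (PolyFun.linear (LinearMap.id : ℂ →ₗ[ℂ] ℂ)) i)

/-- polynomial functions on `σ → ℂ` are the evaluations of `MvPolynomial`s. -/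
theorem polyFun_of_mvPolynomial {σ : Type*} (p : MvPolynomial σ ℂ) :
    (fun x : σ → ℂ => MvPolynomial.eval x p) ∈ PolyFun (σ → ℂ) := by
  induction p using MvPolynomial.induction_on with
  | C a =>
    simp only [MvPolynomial.eval_C]
    exact PolyFun.const a
  | add p q hp hq =>
    simp only [map_add]
    exact PolyFun.add hp hq
  | mul_X p i hp =>
    simp only [map_mul, MvPolynomial.eval_X]
    exact PolyFun.mul hp (PolyFun.linear (LinearMap.proj i : (σ → ℂ) →ₗ[ℂ] ℂ))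

theorem ZCl2_linear_pi {σ : Type*} [Fintype σ] [DecidableEq σ] (ℓ : (σ → ℂ) →ₗ[ℂ] ℂ)
    (x : σ → ℂ) : ℓ x = ∑ i, ℓ (Pi.single i 1) * x i := by
  have h1 : x = ∑ i, x i • (Pi.single i (1 : ℂ) : σ → ℂ) := by
    funext j
    simp [Finset.sum_apply, Pi.single_apply]
  conv_lhs => rw [h1]
  simp only [map_sum, map_smul, smul_eq_mul, mul_comm]

theorem PolyFun.exists_mvPolynomial {σ : Type*} [Finite σ] {f : (σ → ℂ) → ℂ}
    (hf : f ∈ PolyFun (σ → ℂ)) : ∃ p : MvPolynomial σ ℂ, ∀ x, f x = MvPolynomial.eval x p := by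
  classical
  cases nonempty_fintype σ
  induction hf using Algebra.adjoin_induction with
  | mem x hx =>
    obtain ⟨ℓ, rfl⟩ := hx
    refine ⟨∑ i, MvPolynomial.C (ℓ (Pi.single i 1)) * MvPolynomial.X i, fun x => ?_⟩
    simp only [map_sum, map_mul, MvPolynomial.eval_C, MvPolynomial.eval_X]
    exact ZCl2_linear_pi ℓ x
  | algebraMap r => exact ⟨MvPolynomial.C r, fun θ => by simp⟩
  | add x y _ _ hx hy =>
    obtain ⟨p, hp⟩ := hx
    obtain ⟨q, hq⟩ := hy
    exact ⟨p + q, fun θ => by simp [hp, hq]⟩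
  | mul x y _ _ hx hy =>
    obtain ⟨p, hp⟩ := hx
    obtain ⟨q, hq⟩ := hy
    exact ⟨p * q, fun θ => by simp [hp, hq]⟩

/-- a polynomial function of `(θ, s)` is a polynomial in `θ` with coefficients polynomial in `s`. -/
theorem PolyFun.exists_polynomial_mv {σ : Type*} [Finite σ] {f : ℂ × (σ → ℂ) → ℂ}
    (hf : f ∈ PolyFun (ℂ × (σ → ℂ))) :
    ∃ P : Polynomial (MvPolynomial σ ℂ), ∀ θ s,
      f (θ, s) = MvPolynomial.eval s (P.eval (MvPolynomial.C θ)) := by
  classical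
  cases nonempty_fintype σ
  induction hf using Algebra.adjoin_induction with
  | mem x hx =>
    obtain ⟨ℓ, rfl⟩ := hx
    refine ⟨Polynomial.C (MvPolynomial.C (ℓ (1, 0))) * Polynomial.X +
      Polynomial.C (∑ i, MvPolynomial.C (ℓ (0, Pi.single i 1)) * MvPolynomial.X i),
      fun θ s => ?_⟩
    rw [Polynomial.eval_add, Polynomial.eval_mul, Polynomial.eval_C, Polynomial.eval_X,
      Polynomial.eval_C]
    simp only [map_add, map_sum, map_mul, MvPolynomial.eval_C, MvPolynomial.eval_X]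
    have h1 : ((θ, s) : ℂ × (σ → ℂ)) = θ • ((1 : ℂ), (0 : σ → ℂ)) + ((0 : ℂ), s) := by
      ext <;> simp
    have h2 := ZCl2_linear_pi (ℓ.comp (LinearMap.inr ℂ ℂ (σ → ℂ))) s
    simp only [LinearMap.comp_apply, LinearMap.inr_apply] at h2
    rw [h1, map_add, map_smul, smul_eq_mul, h2, mul_comm]
  | algebraMap r => exact ⟨Polynomial.C (MvPolynomial.C r), fun θ s => by simp⟩
  | add x y _ _ hx hy =>
    obtain ⟨p, hp⟩ := hx
    obtain ⟨q, hq⟩ := hy
    exact ⟨p + q, fun θ s => by simp [hp, hq]⟩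
  | mul x y _ _ hx hy =>
    obtain ⟨p, hp⟩ := hx
    obtain ⟨q, hq⟩ := hy
    exact ⟨p * q, fun θ s => by simp [hp, hq]⟩

/-! ### ZCl -/

theorem subset_ZCl (A : Set V) : A ⊆ ZCl A := fun _ hx _ _ h => h _ hx

theorem ZCl_mono {A B : Set V} (h : A ⊆ B) : ZCl A ⊆ ZCl B :=
  fun _ hx f hf hB => hx f hf fun a ha => hB a (h ha)

theorem ZCl_idem (A : Set V) : ZCl (ZCl A) = ZCl A :=
  Set.Subset.antisymm (fun _ hx f hf hA => hx f hf fun _ ha => ha f hf hA) (subset_ZCl _)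

/-- (Z1) -/
theorem PolyMap.maps_ZCl {Φ : V → W} (hΦ : PolyMap Φ) {A : Set V} {B : Set W}
    (h : ∀ a ∈ A, Φ a ∈ ZCl B) : ∀ a ∈ ZCl A, Φ a ∈ ZCl B :=
  fun _ ha f hf hB => ha _ (PolyFun.comp hf hΦ) fun a' ha' => h a' ha' f hf hB

/-- (Z3) -/
theorem ZCl_curve {γ : ℂ → V} (hγ : PolyMap γ) {A : Set V}
    (h : {θ | γ θ ∈ ZCl A}.Infinite) (θ : ℂ) : γ θ ∈ ZCl A := by
  intro f hf hA
  obtain ⟨p, hp⟩ := PolyFun.exists_polynomial (PolyFun.comp hf hγ)
  have hp0 : p = 0 := by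
    refine Polynomial.eq_zero_of_infinite_isRoot p (h.mono fun t ht => ?_)
    show p.eval t = 0
    rw [← hp t]
    exact ht f hf hA
  rw [hp θ, hp0, Polynomial.eval_zero]

/-- two-variable version of (Z1): closure of a product. -/
theorem PolyMap.maps_ZCl₂ {Φ : V × W → U} (hΦ : PolyMap Φ) {A : Set V} {B : Set W} {C : Set U}
    (h : ∀ a ∈ A, ∀ b ∈ B, Φ (a, b) ∈ ZCl C) : ∀ a ∈ ZCl A, ∀ b ∈ ZCl B, Φ (a, b) ∈ ZCl C := by
  have h1 : ∀ b ∈ B, ∀ a ∈ ZCl A, Φ (a, b) ∈ ZCl C := fun b hb =>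
    PolyMap.maps_ZCl (Φ := fun a => Φ (a, b)) (hΦ.comp (polyMap_id.prodMk (polyMap_const b)))
      fun a ha => h a ha b hb
  intro a ha
  exact PolyMap.maps_ZCl (Φ := fun b => Φ (a, b)) (hΦ.comp ((polyMap_const a).prodMk polyMap_id))
    fun b hb => h1 b hb a ha

/-- (Z4) integer points are dense. -/
theorem ZCl_int {σ : Type*} [Finite σ] :
    ZCl {x : σ → ℂ | ∀ i, ∃ k : ℤ, x i = k} = Set.univ := by
  refine Set.eq_univ_of_forall fun x f hf hA => ?_
  obtain ⟨p, hp⟩ := PolyFun.exists_mvPolynomial hf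
  have hinf : (Set.range ((↑) : ℤ → ℂ)).Infinite := Set.infinite_range_of_injective Int.cast_injective
  have hp0 : p = 0 := by
    refine MvPolynomial.funext_set (fun _ : σ => Set.range ((↑) : ℤ → ℂ)) (fun _ => hinf)
      fun y hy => ?_
    rw [← hp y, map_zero]
    refine hA y fun i => ?_
    obtain ⟨k, hk⟩ := hy i (Set.mem_univ i)
    exact ⟨k, hk.symm⟩
  rw [hp x, hp0, map_zero]

/-- (Z4) the complement of a hypersurface is dense. -/
theorem ZCl_ne_zero {f : V → ℂ} (hf : f ∈ PolyFun V) {x₀ : V} (h0 : f x₀ ≠ 0) :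
    ZCl {x | f x ≠ 0} = Set.univ := by
  refine Set.eq_univ_of_forall fun x g hg hA => ?_
  have hγ : PolyMap (fun θ : ℂ => x₀ + θ • (x - x₀)) :=
    (polyMap_const x₀).add (PolyMap.smul (PolyFun.linear (LinearMap.id : ℂ →ₗ[ℂ] ℂ))
      (polyMap_const (x - x₀)))
  obtain ⟨p, hp⟩ := PolyFun.exists_polynomial (PolyFun.comp hf hγ)
  obtain ⟨q, hq⟩ := PolyFun.exists_polynomial (PolyFun.comp hg hγ)
  have hpq : q * p = 0 := by
    refine Polynomial.funext fun t => ?_
    rw [Polynomial.eval_mul, Polynomial.eval_zero, ← hp t, ← hq t]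
    by_cases h : f (x₀ + t • (x - x₀)) = 0
    · rw [h, mul_zero]
    · rw [hA _ h, zero_mul]
  have hp0 : p ≠ 0 := by
    rintro rfl
    apply h0
    have := hp 0
    simpa using this
  have hq0 : q = 0 := (mul_eq_zero.mp hpq).resolve_right hp0
  have := hq 1
  simpa [hq0] using this

section Top
variable {E F : Type*} [NormedAddCommGroup E] [NormedSpace ℂ E] [FiniteDimensional ℂ E]
  [NormedAddCommGroup F] [NormedSpace ℂ F] [FiniteDimensional ℂ F]

theorem PolyFun.contDiff {f : E → ℂ} (hf : f ∈ PolyFun E) : ContDiff ℂ ⊤ f := by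
  induction hf using Algebra.adjoin_induction with
  | mem x hx =>
    obtain ⟨ℓ, rfl⟩ := hx
    exact (LinearMap.toContinuousLinearMap ℓ).contDiff
  | algebraMap r => exact contDiff_const
  | add x y _ _ hx hy => exact hx.add hy
  | mul x y _ _ hx hy => exact hx.mul hy

theorem PolyMap.contDiff {Φ : E → F} (hΦ : PolyMap Φ) : ContDiff ℂ ⊤ Φ := by
  let b := Module.finBasis ℂ F
  have h1 : Φ = fun v => ∑ i, (b.coord i) (Φ v) • b i := by
    funext v
    exact (b.sum_repr (Φ v)).symm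
  rw [h1]
  exact ContDiff.sum fun i _ => (PolyFun.contDiff (hΦ (b.coord i))).smul contDiff_const

theorem PolyFun.continuous {f : E → ℂ} (hf : f ∈ PolyFun E) : Continuous f :=
  (PolyFun.contDiff hf).continuous

/-- (Z2) -/
theorem isClosed_ZCl (A : Set E) : IsClosed (ZCl A) := by
  have h1 : ZCl A = ⋂ f ∈ {f | f ∈ PolyFun E ∧ ∀ a ∈ A, f a = 0}, f ⁻¹' {0} := by
    ext x
    simp only [ZCl, Set.mem_ofPred_eq, Set.mem_iInter, Set.mem_preimage, Set.mem_singleton_iff,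
      and_imp]
  rw [h1]
  exact isClosed_biInter fun f hf => isClosed_singleton.preimage (PolyFun.continuous hf.1)

/-- (Z4) nonempty open sets are dense. -/
theorem ZCl_of_isOpen {N : Set E} (hN : IsOpen N) (hne : N.Nonempty) : ZCl N = Set.univ := by
  obtain ⟨x₀, hx₀⟩ := hne
  refine Set.eq_univ_of_forall fun x => ?_
  have hγ : PolyMap (fun θ : ℂ => x₀ + θ • (x - x₀)) :=
    (polyMap_const x₀).add (PolyMap.smul (PolyFun.linear (LinearMap.id : ℂ →ₗ[ℂ] ℂ))
      (polyMap_const (x - x₀)))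
  have hcont : Continuous (fun θ : ℂ => x₀ + θ • (x - x₀)) := by fun_prop
  have hopen : IsOpen ((fun θ : ℂ => x₀ + θ • (x - x₀)) ⁻¹' N) := hN.preimage hcont
  have h0 : (0 : ℂ) ∈ (fun θ : ℂ => x₀ + θ • (x - x₀)) ⁻¹' N := by simpa using hx₀
  have hinf : ((fun θ : ℂ => x₀ + θ • (x - x₀)) ⁻¹' N).Infinite :=
    infinite_of_mem_nhds 0 (hopen.mem_nhds h0)
  have := ZCl_curve hγ (A := N) (hinf.mono fun t ht => subset_ZCl N ht) 1
  simpa using this

end Top

end Claimed.Agent.R236
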