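import Claimed.Agent.R236.LemmaB
import Claimed.Agent.R236.ZCl2

/-!
# Row 236: the flow lemma (blueprint section 4)
-/

namespace Claimed.Agent.R236

open Matrix

variable {n : ℕ}

/-- coefficient vectors of `t^m` modulo the characteristic polynomial:
`r_0 = e_0`, `r_{m+1} = shift r_m - (r_m)_{n-1} • χ`, `χ_k = coeff_k (charpoly M)`. -/
noncomputable def rvec (M : Mat n) : ℕ → Fin n → ℂ
  | 0 => fun k => if (k : ℕ) = 0 then 1 else 0
  | m + 1 => fun k =>
      (if h : (k : ℕ) = 0 then 0 else rvec M m ⟨(k : ℕ) - 1, by omega⟩)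
        - (if h : 0 < n then rvec M m ⟨n - 1, by omega⟩ else 0) * M.charpoly.coeff k

/-- Cayley-Hamilton. -/
theorem pS_rvec (M : Mat n) (m : ℕ) : pS (rvec M m) M = M ^ m := by
  rcases n with _ | n
  · exact Subsingleton.elim _ _
  induction m with
  | zero =>
    simp only [pS, rvec, pow_zero]
    rw [Fin.sum_univ_succ]
    simp
  | succ m ih =>
    have hCH : ∑ k : Fin (n+1), M.charpoly.coeff k • M ^ (k:ℕ) = - M ^ (n+1) := by
      have h1 := Matrix.aeval_self_charpoly M
      rw [Polynomial.aeval_eq_sum_range, Matrix.charpoly_natDegree_eq_dim, Fintype.card_fin,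
        Finset.sum_range_succ] at h1
      have h2 : M.charpoly.coeff (n+1) = 1 := by
        have := (Matrix.charpoly_monic M).coeff_natDegree
        rwa [Matrix.charpoly_natDegree_eq_dim, Fintype.card_fin] at this
      rw [h2, one_smul, ← Fin.sum_univ_eq_sum_range (fun k => M.charpoly.coeff k • M ^ k)] at h1
      exact eq_neg_of_add_eq_zero_left h1
    have e1 : pS (rvec M (m+1)) M
        = ∑ k : Fin (n+1), (if h : (k : ℕ) = 0 then 0 else rvec M m ⟨(k : ℕ) - 1, by omega⟩) • M ^ (k:ℕ)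
          - rvec M m (Fin.last n) • ∑ k : Fin (n+1), M.charpoly.coeff k • M ^ (k:ℕ) := by
      simp only [pS, rvec, Finset.smul_sum, ← Finset.sum_sub_distrib, sub_smul, mul_smul]
      refine Finset.sum_congr rfl fun k _ => ?_
      simp [Fin.last]
    rw [e1, hCH, pow_succ M m, ← ih, pS, Finset.sum_mul, Fin.sum_univ_succ,
      Fin.sum_univ_castSucc (n := n) (f := fun k => rvec M m k • M ^ (k:ℕ) * M)]
    simp [pow_succ]
    rfl

theorem polyMap_rvec {P : Type*} [AddCommGroup P] [Module ℂ P] {Mx : P → Mat n}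
    (hMx : PolyMap Mx) (m : ℕ) : PolyMap (fun θ => rvec (Mx θ) m) := by
  induction m with
  | zero =>
    exact polyMap_const _
  | succ m ih =>
    rw [polyMap_pi] at ih ⊢
    intro k
    have hn : 0 < n := lt_of_le_of_lt (Nat.zero_le _) k.2
    rw [polyMap_iff_polyFun]
    simp only [rvec, dif_pos hn]
    refine PolyFun.sub ?_ (PolyFun.mul (polyMap_iff_polyFun.1 (ih _)) (hMx.charpoly_coeff k))
    by_cases hk : (k : ℕ) = 0
    · simp only [dif_pos hk]
      exact PolyFun.const 0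
    · simp only [dif_neg hk]
      exact polyMap_iff_polyFun.1 (ih _)

theorem polyMap_pS {P : Type*} [AddCommGroup P] [Module ℂ P] {Mx : P → Mat n}
    (hMx : PolyMap Mx) {s : P → Fin n → ℂ} (hs : PolyMap s) :
    PolyMap (fun θ => pS (s θ) (Mx θ)) := by
  unfold pS
  refine PolyMap.sum _ fun k _ => PolyMap.smul ?_ (hMx.matPow k)
  exact polyMap_iff_polyFun.1 (polyMap_pi.1 hs k)

/-- the primes as complex numbers. -/
noncomputable def prC (n : ℕ) : Fin n → ℂ := fun i => ((Nat.nth Nat.Prime (i : ℕ) : ℕ) : ℂ)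

theorem prC_injective (n : ℕ) : Function.Injective (prC n) := by
  intro i j hij
  have h1 : Nat.nth Nat.Prime (i : ℕ) = Nat.nth Nat.Prime (j : ℕ) := by
    unfold prC at hij
    exact_mod_cast hij
  exact Fin.ext (Nat.nth_injective Nat.infinite_setOfPred_prime h1)

theorem vandermonde_mulVec_rvec (m : ℕ) :
    (Matrix.vandermonde (prC n)) *ᵥ (rvec (primeDiag n) m) = fun i => prC n i ^ m := by
  funext i
  have h := congrFun (congrFun (pS_rvec (primeDiag n) m) i) i
  have hd : ∀ k : ℕ, (primeDiag n) ^ k = Matrix.diagonal (fun i => prC n i ^ k) := by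
    intro k
    rw [primeDiag, Matrix.diagonal_pow]
    rfl
  simp only [pS, hd, Matrix.sum_apply, Matrix.smul_apply, Matrix.diagonal_apply_eq, smul_eq_mul] at h
  rw [← h]
  simp only [Matrix.mulVec, dotProduct, Matrix.vandermonde_apply]
  exact Finset.sum_congr rfl fun k _ => mul_comm _ _

/-- At `M = diag(primes)`: a polynomial function of `s` vanishing at all `rvec M m` is zero.
(`s ↦ (∑_k s_k π_i^k)_i` is a linear isomorphism by Vandermonde and maps `rvec M m` to `(π_i^m)_i`;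
compose with its inverse and use `lemmaB`.) -/
theorem eq_zero_of_rvec_primeDiag (Φ : MvPolynomial (Fin n) ℂ)
    (h : ∀ m : ℕ, MvPolynomial.eval (rvec (primeDiag n) m) Φ = 0) : Φ = 0 := by
  set V : Mat n := Matrix.vandermonde (prC n) with hV
  have hdet : IsUnit V.det := by
    rw [isUnit_iff_ne_zero, hV, Matrix.det_vandermonde_ne_zero_iff]
    exact prC_injective n
  -- `Ψ = Φ ∘ V⁻¹`
  set Ψ : MvPolynomial (Fin n) ℂ :=
    MvPolynomial.bind₁ (fun k => ∑ i, MvPolynomial.C (V⁻¹ k i) * MvPolynomial.X i) Φ with hΨ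
  have hev : ∀ z : Fin n → ℂ, MvPolynomial.eval z Ψ = MvPolynomial.eval (V⁻¹ *ᵥ z) Φ := by
    intro z
    rw [hΨ, MvPolynomial.eval, MvPolynomial.eval₂Hom_bind₁]
    congr 1
    unfold MvPolynomial.eval
    congr 1
    funext k
    simp [Matrix.mulVec, dotProduct]
  have hΨ0 : Ψ = 0 := by
    apply lemmaB
    intro m
    have h2 := hev (fun i => prC n i ^ m)
    rw [← vandermonde_mulVec_rvec m, Matrix.mulVec_mulVec, Matrix.nonsing_inv_mul _ hdet,
      Matrix.one_mulVec, h m, vandermonde_mulVec_rvec m] at h2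
    exact h2
  apply MvPolynomial.funext
  intro s
  have := hev (V *ᵥ s)
  rw [Matrix.mulVec_mulVec, Matrix.nonsing_inv_mul _ hdet, Matrix.one_mulVec, hΨ0] at this
  simpa using this.symm

/-- One-variable flow lemma with `Mx 0 = diag(primes)`.
Proof: fix `f ∈ PolyFun W` vanishing on `A`; `Φ(θ,s) = f (Fam (θ, pS s (Mx θ)))` is represented by
`P : Polynomial (MvPolynomial (Fin n) ℂ)` (`PolyFun.exists_polynomial_mv`).  If `P ≠ 0` write
`P = X^k * Q` with `Q.eval 0 ≠ 0` (root multiplicity at `0`).  For `θ ≠ 0`: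
`eval (rvec (Mx θ) m) (Q.eval (C θ)) = 0`; this is a polynomial function of `θ`, so it also vanishes
at `θ = 0`; `eq_zero_of_rvec_primeDiag` gives `Q.eval 0 = 0`, contradiction. -/
theorem flow_lemma_line {W : Type*} [AddCommGroup W] [Module ℂ W]
    (A : Set W) (Mx : ℂ → Mat n) (hMx : PolyMap Mx) (Fam : ℂ × Mat n → W) (hFam : PolyMap Fam)
    (h : ∀ (θ : ℂ) (m : ℕ), Fam (θ, Mx θ ^ m) ∈ ZCl A)
    (h0 : Mx 0 = primeDiag n) :
    ∀ θ s, Fam (θ, pS s (Mx θ)) ∈ ZCl A := by
  intro θ s f hf hA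
  -- the polynomial function `(θ, s) ↦ f (Fam (θ, pS s (Mx θ)))`
  have hF : (fun x : ℂ × (Fin n → ℂ) => f (Fam (x.1, pS x.2 (Mx x.1)))) ∈
      PolyFun (ℂ × (Fin n → ℂ)) := by
    refine PolyFun.comp hf (hFam.comp (PolyMap.prodMk (PolyMap.fst polyMap_id) ?_))
    exact polyMap_pS (hMx.comp (PolyMap.fst polyMap_id)) (PolyMap.snd polyMap_id)
  obtain ⟨P, hP⟩ := PolyFun.exists_polynomial_mv hF
  suffices hP0 : P = 0 by
    have := hP θ s
    simpa [hP0] using this
  by_contra hPne
  obtain ⟨Q, hPQ, hQ⟩ := Polynomial.exists_eq_pow_rootMultiplicity_mul_and_not_dvd P hPne 0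
  set k := Polynomial.rootMultiplicity 0 P with hk
  apply hQ
  rw [Polynomial.dvd_iff_isRoot, Polynomial.IsRoot.def]
  apply eq_zero_of_rvec_primeDiag
  intro m
  -- `G θ = eval (rvec (Mx θ) m) (Q.eval (C θ))`
  have hG : (fun t : ℂ => MvPolynomial.eval (rvec (Mx t) m) (Q.eval (MvPolynomial.C t))) ∈
      PolyFun ℂ := by
    have : (fun t : ℂ => MvPolynomial.eval (rvec (Mx t) m) (Q.eval (MvPolynomial.C t))) =
        fun t : ℂ => ∑ i ∈ Finset.range (Q.natDegree + 1),
          MvPolynomial.eval (rvec (Mx t) m) (Q.coeff i) * t ^ i := by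
      funext t
      rw [Polynomial.eval_eq_sum_range, map_sum]
      simp
    rw [this]
    refine PolyFun.sum _ fun i _ => PolyFun.mul ?_ ?_
    · exact PolyFun.comp (polyFun_of_mvPolynomial (Q.coeff i)) (polyMap_rvec hMx m)
    · exact PolyFun.pow (PolyFun.linear LinearMap.id) i
  obtain ⟨p, hp⟩ := PolyFun.exists_polynomial hG
  have hvan : ∀ t : ℂ, t ≠ 0 → p.eval t = 0 := by
    intro t ht
    rw [← hp t]
    have h1 := hP t (rvec (Mx t) m)
    simp only [pS_rvec] at h1
    rw [h t m f hf hA, hPQ] at h1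
    simp only [map_zero, sub_zero, Polynomial.eval_mul, Polynomial.eval_pow, Polynomial.eval_X,
      map_mul, map_pow, MvPolynomial.eval_C] at h1
    rcases mul_eq_zero.1 h1.symm with h2 | h2
    · exact absurd (eq_zero_of_pow_eq_zero h2) ht
    · exact h2
  have hp0 : p = 0 := by
    apply Polynomial.eq_zero_of_infinite_isRoot
    refine Set.Infinite.mono ?_ (Set.finite_singleton (0:ℂ)).infinite_compl
    intro t ht
    exact hvan t ht
  have := hp 0
  rw [hp0, h0] at this
  simpa using this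

/-- **Flow lemma.**  Reduce to `flow_lemma_line`: restrict to the line `t ↦ θ₀ + t • (θ - θ₀)` and
replace `Mx` by `c⁻¹ • Mx` (`pS s (c⁻¹ • M) = pS s' M` with `s'_k = c^{-k} s_k`, a bijection). -/
theorem flow_lemma {P W : Type*} [AddCommGroup P] [Module ℂ P] [AddCommGroup W] [Module ℂ W]
    (A : Set W) (Mx : P → Mat n) (hMx : PolyMap Mx) (Fam : P × Mat n → W) (hFam : PolyMap Fam)
    (h : ∀ (θ : P) (m : ℕ) (l : ℂ), Fam (θ, l • Mx θ ^ m) ∈ ZCl A)
    (θ₀ : P) (c : ℂ) (hc : c ≠ 0) (h0 : Mx θ₀ = c • primeDiag n) :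
    ∀ θ s, Fam (θ, pS s (Mx θ)) ∈ ZCl A := by
  intro θ s
  have hγ : PolyMap (fun t : ℂ => θ₀ + t • (θ - θ₀)) :=
    (polyMap_const θ₀).add (PolyMap.smul (PolyFun.linear LinearMap.id) (polyMap_const _))
  have key := flow_lemma_line A (fun t : ℂ => c⁻¹ • Mx (θ₀ + t • (θ - θ₀)))
    (PolyMap.smul (PolyFun.const c⁻¹) (hMx.comp hγ))
    (fun x : ℂ × Mat n => Fam (θ₀ + x.1 • (θ - θ₀), x.2))
    (hFam.comp (PolyMap.prodMk (hγ.comp (PolyMap.fst polyMap_id)) (PolyMap.snd polyMap_id)))
    (fun t m => by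
      simp only [smul_pow]
      exact h _ m _)
    (by simp [h0, smul_smul, inv_mul_cancel₀ hc])
    1 (fun k => c ^ (k : ℕ) * s k)
  simp only [one_smul, add_sub_cancel] at key
  convert key using 3
  unfold pS
  refine Finset.sum_congr rfl fun k _ => ?_
  rw [smul_pow, smul_smul, mul_right_comm, ← mul_pow, mul_inv_cancel₀ hc, one_pow, one_mul]

end Claimed.Agent.R236
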