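import Claimed.Agent.R236.Basic
import Claimed.Agent.R236.ZCl2

/-!
# Row 236: the closure `VC` of the cone, elementary facts on `mu`, `snocH`
(blueprint sections 0, 1 (Z5), 2)
-/

namespace Claimed.Agent.R236

open Matrix

variable {g n : ℕ}

/-- `V_g`: Zariski closure of the multi-cone over the `S`-points. -/
def VC (S : Subring ℂ) (g n : ℕ) : Set (Tup g n) := ZCl (Cone S g n)

/-! ### `mu` and `snocH` -/

theorem mu_zero (ρ : Tup 0 n) : mu ρ = 1 := by
  simp [mu]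

theorem snocH_last (ρ : Tup g n) (A B : Mat n) :
    snocH ρ A B (Fin.last g) 0 = A ∧ snocH ρ A B (Fin.last g) 1 = B := by
  simp [snocH]

theorem snocH_castSucc (ρ : Tup g n) (A B : Mat n) (i : Fin g) : snocH ρ A B i.castSucc = ρ i := by
  simp [snocH]

theorem mu_snocH (ρ : Tup g n) (A B : Mat n) : mu (snocH ρ A B) = mu ρ * cm A B := by
  unfold mu
  rw [List.ofFn_succ_last, List.prod_append]
  simp [snocH_castSucc, (snocH_last ρ A B).1, (snocH_last ρ A B).2]

theorem snocH_init_last (ρ : Tup (g + 1) n) :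
    snocH (Fin.init ρ) (ρ (Fin.last g) 0) (ρ (Fin.last g) 1) = ρ := by
  funext i
  refine Fin.lastCases ?_ (fun j => ?_) i
  · funext c
    fin_cases c
    · exact (snocH_last _ _ _).1
    · exact (snocH_last _ _ _).2
  · rw [snocH_castSucc]; rfl

theorem init_snocH (ρ : Tup g n) (A B : Mat n) :
    Fin.init (α := fun _ => Fin 2 → Mat n) (snocH ρ A B) = ρ := by
  funext i
  exact snocH_castSucc ρ A B i

theorem allInv_snocH {ρ : Tup g n} {A B : Mat n} :
    AllInv (snocH ρ A B) ↔ AllInv ρ ∧ IsUnit A.det ∧ IsUnit B.det := by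
  constructor
  · intro h
    refine ⟨fun i c => ?_, ?_, ?_⟩
    · have := h i.castSucc c
      rwa [snocH_castSucc] at this
    · have := h (Fin.last g) 0
      rwa [(snocH_last ρ A B).1] at this
    · have := h (Fin.last g) 1
      rwa [(snocH_last ρ A B).2] at this
  · rintro ⟨h1, h2, h3⟩ i c
    refine Fin.lastCases ?_ (fun j => ?_) i
    · fin_cases c
      · simpa [(snocH_last ρ A B).1] using h2
      · simpa [(snocH_last ρ A B).2] using h3
    · rw [snocH_castSucc]; exact h1 j c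

theorem snocH_add (ρ ρ' : Tup g n) (A B A' B' : Mat n) :
    snocH (ρ + ρ') (A + A') (B + B') = snocH ρ A B + snocH ρ' A' B' := by
  funext i
  refine Fin.lastCases ?_ (fun j => ?_) i
  · funext c
    fin_cases c
    · simp [(snocH_last _ _ _).1]
    · simp [(snocH_last _ _ _).2]
  · simp [snocH_castSucc]

theorem snocH_smul (t : ℂ) (ρ : Tup g n) (A B : Mat n) :
    snocH (t • ρ) (t • A) (t • B) = t • snocH ρ A B := by
  funext i
  refine Fin.lastCases ?_ (fun j => ?_) i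
  · funext c
    fin_cases c
    · simp [(snocH_last _ _ _).1]
    · simp [(snocH_last _ _ _).2]
  · simp [snocH_castSucc]

/-- `snocH` as a linear equivalence. -/
def snocL (g n : ℕ) : (Tup g n × Mat n × Mat n) ≃ₗ[ℂ] Tup (g + 1) n where
  toFun x := snocH x.1 x.2.1 x.2.2
  invFun ρ := (Fin.init ρ, ρ (Fin.last g) 0, ρ (Fin.last g) 1)
  map_add' := by
    intro x y
    exact snocH_add _ _ _ _ _ _
  map_smul' := by
    intro t x
    exact snocH_smul _ _ _ _
  left_inv := by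
    intro x
    obtain ⟨ρ, A, B⟩ := x
    simp only [init_snocH, (snocH_last ρ A B).1, (snocH_last ρ A B).2]
  right_inv := by
    intro ρ
    exact snocH_init_last ρ

theorem det_cm {A B : Mat n} (hA : IsUnit A.det) (hB : IsUnit B.det) : (cm A B).det = 1 := by
  unfold cm
  have hA' : A.det ≠ 0 := hA.ne_zero
  have hB' : B.det ≠ 0 := hB.ne_zero
  rw [det_mul, det_mul, det_mul, det_nonsing_inv, det_nonsing_inv, Ring.inverse_eq_inv']
  field_simp

theorem det_mu {ρ : Tup g n} (h : AllInv ρ) : (mu ρ).det = 1 := by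
  induction g with
  | zero => simp [mu_zero]
  | succ g ih =>
    rw [← snocH_init_last ρ] at h ⊢
    rw [allInv_snocH] at h
    rw [mu_snocH, det_mul, ih h.1, det_cm h.2.1 h.2.2, one_mul]

theorem inv_smul_ne_zero (A : Mat n) {a : ℂ} (ha : a ≠ 0) : (a • A)⁻¹ = a⁻¹ • A⁻¹ := by
  by_cases h : IsUnit A.det
  · refine inv_eq_left_inv ?_
    rw [smul_mul_assoc, mul_smul_comm, smul_smul, inv_mul_cancel₀ ha, one_smul,
      nonsing_inv_mul _ h]
  · have h' : ¬ IsUnit (a • A).det := by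
      rw [det_smul]
      intro hu
      exact h (isUnit_of_mul_isUnit_right hu)
    rw [nonsing_inv_apply_not_isUnit _ h, nonsing_inv_apply_not_isUnit _ h', smul_zero]

theorem cm_smul {A B : Mat n} {a b : ℂ} (ha : a ≠ 0) (hb : b ≠ 0) :
    cm (a • A) (b • B) = cm A B := by
  unfold cm
  rw [inv_smul_ne_zero A ha, inv_smul_ne_zero B hb]
  simp only [smul_mul_assoc, mul_smul_comm, smul_smul]
  have : b⁻¹ * (a⁻¹ * (b * a)) = 1 := by field_simp
  rw [this, one_smul]

theorem mu_scl {l : Fin g → Fin 2 → ℂ} (hl : ∀ i c, l i c ≠ 0) (ρ : Tup g n) :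
    mu (scl l ρ) = mu ρ := by
  unfold mu
  congr 1
  congr 1
  funext i
  exact cm_smul (hl i 0) (hl i 1)

theorem cm_conj {h : Mat n} (hh : IsUnit h.det) (A B : Mat n) :
    cm (h * A * h⁻¹) (h * B * h⁻¹) = h * cm A B * h⁻¹ := by
  unfold cm
  have h1 : h⁻¹ * h = 1 := nonsing_inv_mul _ hh
  have h2 : h⁻¹⁻¹ = h := nonsing_inv_nonsing_inv _ hh
  rw [Matrix.mul_inv_rev, Matrix.mul_inv_rev, Matrix.mul_inv_rev, Matrix.mul_inv_rev, h2]
  calc h * A * h⁻¹ * (h * B * h⁻¹) * (h * (A⁻¹ * h⁻¹)) * (h * (B⁻¹ * h⁻¹))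
      = h * A * (h⁻¹ * h) * B * (h⁻¹ * h) * A⁻¹ * (h⁻¹ * h) * B⁻¹ * h⁻¹ := by
        simp only [Matrix.mul_assoc]
    _ = h * (A * B * A⁻¹ * B⁻¹) * h⁻¹ := by
        rw [h1]; simp only [Matrix.mul_one, Matrix.mul_assoc]

theorem conjT_snocH (h : Mat n) (ρ : Tup g n) (A B : Mat n) :
    conjT h (snocH ρ A B) = snocH (conjT h ρ) (h * A * h⁻¹) (h * B * h⁻¹) := by
  funext i
  refine Fin.lastCases ?_ (fun j => ?_) i
  · funext c
    fin_cases c
    · simp [conjT, (snocH_last _ _ _).1]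
    · simp [conjT, (snocH_last _ _ _).2]
  · funext c
    simp [conjT, snocH_castSucc]

theorem mu_conj {h : Mat n} (hh : IsUnit h.det) (ρ : Tup g n) :
    mu (conjT h ρ) = h * mu ρ * h⁻¹ := by
  have h1 : h⁻¹ * h = 1 := nonsing_inv_mul _ hh
  induction g with
  | zero => simp [mu_zero, mul_nonsing_inv _ hh]
  | succ g ih =>
    rw [← snocH_init_last ρ, conjT_snocH, mu_snocH, mu_snocH, ih, cm_conj hh]
    calc h * mu (Fin.init ρ) * h⁻¹ * (h * cm (ρ (Fin.last g) 0) (ρ (Fin.last g) 1) * h⁻¹)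
        = h * mu (Fin.init ρ) * (h⁻¹ * h) * cm (ρ (Fin.last g) 0) (ρ (Fin.last g) 1) * h⁻¹ := by
          simp only [Matrix.mul_assoc]
      _ = _ := by rw [h1]; simp only [Matrix.mul_one, Matrix.mul_assoc]

theorem RSL_subset_RC : RSL g n ⊆ RC g n := by
  rintro ρ ⟨h1, h2⟩
  exact ⟨fun i c => by rw [h1 i c]; exact isUnit_one, h2⟩

theorem PrpT.exists_scl {ρ ρ' : Tup g n} (h : PrpT ρ ρ') :
    ∃ l : Fin g → Fin 2 → ℂ, (∀ i c, l i c ≠ 0) ∧ ρ' = scl l ρ := by
  choose l hl using h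
  exact ⟨l, fun i c => (hl i c).1, by funext i c; exact (hl i c).2⟩

theorem PrpT.mem_RC {ρ ρ' : Tup g n} (h : PrpT ρ ρ') (hρ : ρ ∈ RC g n) : ρ' ∈ RC g n := by
  obtain ⟨l, hl, rfl⟩ := h.exists_scl
  refine ⟨fun i c => ?_, by rw [mu_scl hl]; exact hρ.2⟩
  show IsUnit (l i c • ρ i c).det
  rw [det_smul]
  exact ((isUnit_iff_ne_zero.mpr (hl i c)).pow _).mul (hρ.1 i c)

/-! ### scaling -/

/-- blockwise scaling as a linear map. -/
def sclL (l : Fin g → Fin 2 → ℂ) : Tup g n →ₗ[ℂ] Tup g n where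
  toFun := scl l
  map_add' := by
    intro x y
    funext i c
    simp [scl]
  map_smul' := by
    intro t x
    funext i c
    exact smul_comm (l i c) t (x i c)

theorem scl_scl (l l' : Fin g → Fin 2 → ℂ) (ρ : Tup g n) :
    scl l (scl l' ρ) = scl (fun i c => l i c * l' i c) ρ := by
  funext i c
  simp [scl, smul_smul]

/-- (Z5) -/
theorem scl_mem_VC (S : Subring ℂ) (l : Fin g → Fin 2 → ℂ) {ρ : Tup g n} (h : ρ ∈ VC S g n) :
    scl l ρ ∈ VC S g n := by
  refine PolyMap.maps_ZCl (Φ := fun ρ => sclL l ρ) (polyMap_linear (sclL l))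
    (A := Cone S g n) (B := Cone S g n) ?_ ρ h
  rintro a ⟨ρ₀, h0, l', rfl⟩
  exact subset_ZCl _ ⟨ρ₀, h0, _, scl_scl l l' ρ₀⟩

theorem PrpT.mem_VC (S : Subring ℂ) {ρ ρ' : Tup g n} (h : PrpT ρ ρ') (hρ : ρ ∈ VC S g n) :
    ρ' ∈ VC S g n := by
  obtain ⟨l, -, rfl⟩ := h.exists_scl
  exact scl_mem_VC S l hρ

end Claimed.Agent.R236
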