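import Claimed.Prelude.Def_0399
import Claimed.Agent.R236.VC

/-!
# Row 236: interface between the frozen statement S0471 and tuples of matrices
-/

namespace Claimed.Agent.R236

open Matrix Claims.C0399

variable {g r : ℕ}

/-- a point of affine space as a tuple of matrices. -/
def toTup (ρ : RepVar g r → ℂ) : Tup g r := fun i c => Matrix.of fun p q => ρ (i, c, p, q)

/-- and back. -/
def ofTup (ρ : Tup g r) : RepVar g r → ℂ := fun v => ρ v.1 v.2.1 v.2.2.1 v.2.2.2

theorem toTup_ofTup (ρ : Tup g r) : toTup (ofTup ρ) = ρ := rfl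

theorem ofTup_toTup (ρ : RepVar g r → ℂ) : ofTup (toTup ρ) = ρ := rfl

/-- evaluation of the generic matrices. -/
theorem map_varMat (ρ : RepVar g r → ℂ) (i : Fin g) (c : Fin 2) :
    (varMat id i c).map (MvPolynomial.aeval ρ) = toTup ρ i c := by
  ext p q
  simp [varMat, toTup]

/-- the surface word with adjugates. -/
def ifc_adjWord (T : Tup g r) : Mat r :=
  ((List.finRange g).map fun i => T i 0 * T i 1 * (T i 0).adjugate * (T i 1).adjugate).prod

theorem ifc_mapMatrix_varMat (ρ : RepVar g r → ℂ) (i : Fin g) (c : Fin 2) :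
    (MvPolynomial.aeval ρ : MvPolynomial (RepVar g r) ℤ →ₐ[ℤ] ℂ).toRingHom.mapMatrix
      (varMat id i c) = toTup ρ i c := by
  ext p q
  simp [varMat, toTup]

theorem ifc_map_surfaceWord (ρ : RepVar g r → ℂ) :
    (MvPolynomial.aeval ρ : MvPolynomial (RepVar g r) ℤ →ₐ[ℤ] ℂ).toRingHom.mapMatrix
      (surfaceWord g r) = ifc_adjWord (toTup ρ) := by
  unfold surfaceWord ifc_adjWord
  rw [map_list_prod, List.map_map]
  congr 1
  apply List.map_congr_left
  intro i _
  simp only [Function.comp, map_mul, RingHom.map_adjugate, ifc_mapMatrix_varMat]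

theorem ifc_isComplexRep_iff (ρ : RepVar g r → ℂ) :
    IsComplexRep ρ ↔ (∀ i c, (toTup ρ i c).det = 1) ∧ ifc_adjWord (toTup ρ) = 1 := by
  set φ := (MvPolynomial.aeval ρ : MvPolynomial (RepVar g r) ℤ →ₐ[ℤ] ℂ).toRingHom with hφ
  have hker : IsComplexRep ρ ↔ repIdeal g r ≤ RingHom.ker φ := by
    unfold IsComplexRep
    constructor
    · intro h f hf
      exact h f hf
    · intro h f hf
      exact h hf
  have hsub : ∀ p q, φ ((surfaceWord g r - 1) p q) =
      φ.mapMatrix (surfaceWord g r) p q - (1 : Matrix (Fin r) (Fin r) ℂ) p q := by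
    intro p q
    simp only [Matrix.sub_apply, map_sub, RingHom.mapMatrix_apply, Matrix.map_apply]
    congr 1
    by_cases hpq : p = q
    · subst hpq; simp
    · simp [Matrix.one_apply_ne hpq]
  rw [hker, repIdeal, Ideal.span_le]
  constructor
  · intro h
    constructor
    · intro i c
      have h1 : (varMat id i c).det - 1 ∈ RingHom.ker φ := h (Or.inl ⟨i, c, rfl⟩)
      rw [RingHom.mem_ker, map_sub, map_one, RingHom.map_det, ifc_mapMatrix_varMat] at h1
      exact sub_eq_zero.mp h1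
    · rw [← ifc_map_surfaceWord]
      ext p q
      have h1 : (surfaceWord g r - 1) p q ∈ RingHom.ker φ := h (Or.inr ⟨p, q, rfl⟩)
      rw [RingHom.mem_ker, hsub] at h1
      exact sub_eq_zero.mp h1
  · rintro ⟨h1, h2⟩ f hf
    rcases hf with ⟨i, c, rfl⟩ | ⟨p, q, rfl⟩
    · show _ ∈ RingHom.ker φ
      rw [RingHom.mem_ker, map_sub, map_one, RingHom.map_det, ifc_mapMatrix_varMat, h1, sub_self]
    · show _ ∈ RingHom.ker φ
      rw [RingHom.mem_ker, hsub, ifc_map_surfaceWord, h2, sub_self]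

theorem ifc_inv_eq_adjugate {A : Mat r} (h : A.det = 1) : A⁻¹ = A.adjugate := by
  rw [Matrix.inv_def, h, Ring.inverse_one, one_smul]

theorem ifc_adjWord_eq_mu {T : Tup g r} (h : ∀ i c, (T i c).det = 1) : ifc_adjWord T = mu T := by
  unfold ifc_adjWord mu cm
  rw [List.ofFn_eq_map]
  congr 1
  apply List.map_congr_left
  intro i _
  rw [ifc_inv_eq_adjugate (h i 0), ifc_inv_eq_adjugate (h i 1)]

/-- `IsComplexRep` means: all determinants are `1` and the surface word (with adjugates, which are the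
inverses) is `1`. -/
theorem isComplexRep_iff (ρ : RepVar g r → ℂ) : IsComplexRep ρ ↔ toTup ρ ∈ RSL g r := by
  rw [ifc_isComplexRep_iff]
  constructor
  · rintro ⟨h1, h2⟩
    exact ⟨h1, by rw [← ifc_adjWord_eq_mu h1]; exact h2⟩
  · rintro ⟨h1, h2⟩
    exact ⟨h1, by rw [ifc_adjWord_eq_mu h1]; exact h2⟩

/-- evaluation of the polynomial ring in the variables of `ρ` and of the conjugating matrix. -/
noncomputable def ifc_evalPair (ρ : RepVar g r → ℂ) (x : Mat r) :
    MvPolynomial (RepVar g r ⊕ Fin r × Fin r) ℤ →ₐ[ℤ] ℂ :=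
  MvPolynomial.aeval (Sum.elim ρ (fun pq => x pq.1 pq.2))

theorem ifc_evalPair_conjMat (ρ : RepVar g r → ℂ) (x : Mat r) :
    (ifc_evalPair ρ x).toRingHom.mapMatrix (conjMat g r) = x := by
  ext p q
  simp [conjMat, ifc_evalPair]

theorem ifc_evalPair_varMat (ρ : RepVar g r → ℂ) (x : Mat r) (i : Fin g) (c : Fin 2) :
    (ifc_evalPair ρ x).toRingHom.mapMatrix
      (varMat (σ := RepVar g r ⊕ Fin r × Fin r) Sum.inl i c) = toTup ρ i c := by
  ext p q
  simp [varMat, ifc_evalPair, toTup]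

/-- evaluate the ideal membership in `IsConjInvariant` at the point `(ρ, h)`. -/
theorem aeval_conj_eq {f : MvPolynomial (RepVar g r) ℤ} (hf : IsConjInvariant f)
    {ρ : RepVar g r → ℂ} (hρ : IsComplexRep ρ) {h : Mat r} (hh : h.det = 1) :
    MvPolynomial.aeval (ofTup (conjT h (toTup ρ))) f = MvPolynomial.aeval ρ f := by
  set ψ := ifc_evalPair ρ h with hψ
  have hle : Ideal.map (MvPolynomial.rename Sum.inl) (repIdeal g r) ⊔
      Ideal.span {(conjMat g r).det - 1} ≤ RingHom.ker ψ.toRingHom := by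
    apply sup_le
    · rw [Ideal.map_le_iff_le_comap]
      intro k hk
      rw [Ideal.mem_comap, RingHom.mem_ker]
      have : ψ.toRingHom (MvPolynomial.rename Sum.inl k) = MvPolynomial.aeval ρ k := by
        simp [hψ, ifc_evalPair, MvPolynomial.aeval_rename, Function.comp_def]
      rw [this]
      exact hρ k hk
    · rw [Ideal.span_le]
      intro k hk
      rw [Set.mem_singleton_iff] at hk
      subst hk
      show _ ∈ RingHom.ker ψ.toRingHom
      rw [RingHom.mem_ker, map_sub, map_one, RingHom.map_det, ifc_evalPair_conjMat, hh, sub_self]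
  have h0 := hle hf
  rw [RingHom.mem_ker, map_sub, sub_eq_zero] at h0
  have h1 : ψ.toRingHom (MvPolynomial.rename Sum.inl f) = MvPolynomial.aeval ρ f := by
    simp [hψ, ifc_evalPair, MvPolynomial.aeval_rename, Function.comp_def]
  rw [h1] at h0
  rw [← h0]
  have key : ∀ k : RepVar g r → MvPolynomial (RepVar g r ⊕ Fin r × Fin r) ℤ,
      ψ.toRingHom (MvPolynomial.bind₁ k f) = MvPolynomial.aeval (fun v => ψ (k v)) f := by
    intro k
    show (ifc_evalPair ρ h) (MvPolynomial.bind₁ k f) = _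
    unfold ifc_evalPair
    rw [MvPolynomial.aeval_bind₁]
    rfl
  rw [key]
  congr 2
  funext v
  obtain ⟨i, c, p, q⟩ := v
  have h2 : ψ.toRingHom.mapMatrix (conjMat g r * varMat (σ := RepVar g r ⊕ Fin r × Fin r) Sum.inl i c *
      (conjMat g r).adjugate) = h * toTup ρ i c * h.adjugate := by
    rw [map_mul, map_mul, RingHom.map_adjugate, ifc_evalPair_conjMat, ifc_evalPair_varMat]
  have h3 := congrFun (congrFun h2 p) q
  simpa [ofTup, conjT, ifc_inv_eq_adjugate hh] using h3.symm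

/-- `ofTup` as a linear map. -/
def ifc_ofTupL (g r : ℕ) : Tup g r →ₗ[ℂ] (RepVar g r → ℂ) where
  toFun := ofTup
  map_add' _ _ := rfl
  map_smul' _ _ := rfl

theorem ifc_eval_map_intCast {σ : Type} (ρ : σ → ℂ) (f : MvPolynomial σ ℤ) :
    MvPolynomial.eval ρ (MvPolynomial.map (Int.castRingHom ℂ) f) = MvPolynomial.aeval ρ f := by
  rw [MvPolynomial.eval_map, MvPolynomial.aeval_def]
  rfl

/-- a `ℂ`-combination of `ℤ`-polynomials is a polynomial function of the tuple. -/
theorem polyFun_comb {m : ℕ} (f : Fin m → MvPolynomial (RepVar g r) ℤ) (c : Fin m → ℂ) :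
    (fun ρ : Tup g r => ∑ i, c i * MvPolynomial.aeval (ofTup ρ) (f i)) ∈ PolyFun (Tup g r) := by
  apply PolyFun.sum
  intro i _
  apply PolyFun.mul (PolyFun.const _)
  have h := PolyFun.comp (polyFun_of_mvPolynomial (MvPolynomial.map (Int.castRingHom ℂ) (f i)))
    (polyMap_linear (ifc_ofTupL g r))
  have h2 : (fun ρ : Tup g r => MvPolynomial.aeval (ofTup ρ) (f i)) =
      fun v => MvPolynomial.eval ((ifc_ofTupL g r) v) (MvPolynomial.map (Int.castRingHom ℂ) (f i)) := by
    funext ρ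
    rw [ifc_eval_map_intCast]
    rfl
  rw [h2]
  exact h

/-- values of `ℤ`-polynomials at points with coordinates in a subring stay in the subring. -/
theorem aeval_mem_subring (S : Subring ℂ) {ρ : RepVar g r → ℂ} (hρ : ∀ v, ρ v ∈ S)
    (h : MvPolynomial (RepVar g r) ℤ) : MvPolynomial.aeval ρ h ∈ S := by
  induction h using MvPolynomial.induction_on with
  | C a => simp
  | add p q hp hq => rw [map_add]; exact S.add_mem hp hq
  | mul_X p v hp => rw [map_mul, MvPolynomial.aeval_X]; exact S.mul_mem hp (hρ v)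

/-- the number field `ℚ(ζ_r, √2)`. -/
noncomputable def fieldL (r : ℕ) : IntermediateField ℚ ℂ :=
  IntermediateField.adjoin ℚ {Complex.exp (2 * Real.pi * Complex.I / r), ((Real.sqrt 2 : ℝ) : ℂ)}

theorem ifc_sqrtTwo_sq : (((Real.sqrt 2 : ℝ) : ℂ)) * ((Real.sqrt 2 : ℝ) : ℂ) = 2 := by
  rw [← Complex.ofReal_mul, Real.mul_self_sqrt (by norm_num)]
  norm_num

theorem ifc_isIntegral_zeta (r : ℕ) (hr : r ≠ 0) :
    IsIntegral ℤ (Complex.exp (2 * Real.pi * Complex.I / r)) :=
  IsIntegral.of_pow (Nat.pos_of_ne_zero hr)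
    (by rw [(Complex.isPrimitiveRoot_exp r hr).pow_eq_one]; exact isIntegral_one)

theorem ifc_isIntegral_sqrtTwo : IsIntegral ℤ (((Real.sqrt 2 : ℝ) : ℂ)) :=
  IsIntegral.of_pow (n := 2) (by norm_num) (by
    rw [pow_two, ifc_sqrtTwo_sq]
    have h := (isIntegral_one (R := ℤ) (B := ℂ)).add isIntegral_one
    have h2 : (1 : ℂ) + 1 = 2 := by norm_num
    rwa [h2] at h)

theorem finiteDimensional_fieldL (r : ℕ) (hr : 1 ≤ r) : FiniteDimensional ℚ (fieldL r) := by
  apply IntermediateField.finiteDimensional_adjoin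
  intro x hx
  rcases hx with rfl | hx
  · exact (ifc_isIntegral_zeta r (by omega)).tower_top
  · rw [Set.mem_singleton_iff] at hx
    subst hx
    exact ifc_isIntegral_sqrtTwo.tower_top

/-- the integers of `L`, as a subring of `ℂ`. -/
noncomputable def ringS (r : ℕ) : Subring ℂ :=
  (fieldL r).toSubfield.toSubring ⊓ (integralClosure ℤ ℂ).toSubring

theorem mem_ringS {r : ℕ} {x : ℂ} : x ∈ ringS r ↔ x ∈ fieldL r ∧ IsIntegral ℤ x := Iff.rfl

theorem exists_zeta_mem_ringS (r : ℕ) (hr : 1 ≤ r) : ∃ ζ ∈ ringS r, IsPrimitiveRoot ζ r :=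
  ⟨Complex.exp (2 * Real.pi * Complex.I / r),
    mem_ringS.2 ⟨IntermediateField.subset_adjoin ℚ _ (by simp), ifc_isIntegral_zeta r (by omega)⟩,
    Complex.isPrimitiveRoot_exp r (by omega)⟩

theorem ifc_sqrtTwo_mem_ringS (r : ℕ) : (((Real.sqrt 2 : ℝ) : ℂ)) ∈ ringS r :=
  mem_ringS.2 ⟨IntermediateField.subset_adjoin ℚ _ (by simp), ifc_isIntegral_sqrtTwo⟩

/-- the unit `u = 1 + √2`, `u⁻¹ = √2 - 1`. -/
theorem exists_unit_mem_ringS (r : ℕ) : ∃ u ∈ ringS r, u⁻¹ ∈ ringS r ∧ 1 < ‖u‖ := by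
  refine ⟨1 + ((Real.sqrt 2 : ℝ) : ℂ), (ringS r).add_mem (ringS r).one_mem (ifc_sqrtTwo_mem_ringS r),
    ?_, ?_⟩
  · have hmul : (1 + ((Real.sqrt 2 : ℝ) : ℂ)) * (((Real.sqrt 2 : ℝ) : ℂ) - 1) = 1 := by
      have := ifc_sqrtTwo_sq
      linear_combination this
    rw [inv_eq_of_mul_eq_one_right hmul]
    exact (ringS r).sub_mem (ifc_sqrtTwo_mem_ringS r) (ringS r).one_mem
  · have h : (1 + ((Real.sqrt 2 : ℝ) : ℂ)) = ((1 + Real.sqrt 2 : ℝ) : ℂ) := by
      push_cast; ring
    rw [h, Complex.norm_real, Real.norm_eq_abs, abs_of_pos (by positivity)]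
    have : 0 < Real.sqrt 2 := Real.sqrt_pos.2 (by norm_num)
    linarith

end Claimed.Agent.R236
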