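import Claimed.Agent.R236.VC

/-!
# Row 236: Zariski density of the cone over `SL_n(ℤ)`, adding a trivial handle
(blueprint section 2)
-/

namespace Claimed.Agent.R236

open Matrix

variable {g n : ℕ}

/-! ### `SL_n(ℤ)` (blueprint section 2) -/

/-- Whitehead's identity: `diag(a, a⁻¹)` in the positions `i, j` is a product of six transvections. -/
theorem slz_diag_decomp {ι F : Type*} [Fintype ι] [DecidableEq ι] [Field F] {i j : ι} (hij : i ≠ j)
    (a : F) (ha : a ≠ 0) :
    (diagonal (fun k => if k = i then a else if k = j then a⁻¹ else 1) : Matrix ι ι F)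
      = (1 + single i j a) * (1 + single j i (-a⁻¹)) * (1 + single i j a) * (1 + single i j (-1))
        * (1 + single j i 1) * (1 + single i j (-1)) := by
  simp only [mul_add, add_mul, mul_one, one_mul, single_mul_single_same,
    single_mul_single_of_ne _ _ _ _ hij, single_mul_single_of_ne _ _ _ _ hij.symm, add_zero]
  ext p q
  simp only [diagonal_apply, single_apply, one_apply, Matrix.add_apply]
  have hji := hij.symm
  by_cases hpi : i = p
  · subst hpi
    by_cases hqi : i = q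
    · subst hqi
      simp [hji, ha]
    · by_cases hqj : j = q
      · subst hqj
        simp [hij, hji, ha]
      · simp [hji, hqi, hqj]
  · by_cases hpj : j = p
    · subst hpj
      by_cases hqi : i = q
      · subst hqi
        simp [hij, hji, ha]
      · by_cases hqj : j = q
        · subst hqj
          simp [hij, hji, ha]
        · simp [hij, hqi, hqj]
    · have h1 : ¬ p = i := fun h => hpi h.symm
      have h2 : ¬ p = j := fun h => hpj h.symm
      simp [hpi, hpj, h1, h2]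

/-- the cone over `SL_n(ℤ)`. -/
def coneSLZ (n : ℕ) : Set (Mat n) :=
  {A : Mat n | ∃ (l : ℂ) (P : Matrix (Fin n) (Fin n) ℤ), P.det = 1 ∧
      A = l • P.map (Int.cast : ℤ → ℂ)}

theorem slz_one_mem (n : ℕ) : (1 : Mat n) ∈ coneSLZ n :=
  ⟨1, 1, det_one, by
    rw [one_smul, Matrix.map_one _ Int.cast_zero Int.cast_one]⟩

/-- the cone is stable under scalars. -/
theorem slz_smul_mem_ZCl (c : ℂ) {N : Mat n} (hN : N ∈ ZCl (coneSLZ n)) :
    c • N ∈ ZCl (coneSLZ n) := by
  have hΦ : PolyMap (fun N : Mat n => c • N) :=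
    polyMap_linear (c • (LinearMap.id : Mat n →ₗ[ℂ] Mat n))
  refine hΦ.maps_ZCl (A := coneSLZ n) (B := coneSLZ n) ?_ N hN
  rintro _ ⟨l, P, hP, rfl⟩
  exact subset_ZCl _ ⟨c * l, P, hP, by rw [smul_smul]⟩

/-- right multiplication by an integral transvection preserves the closure. -/
theorem slz_mul_int {i j : Fin n} (hij : i ≠ j) (c : ℤ) {N : Mat n} (hN : N ∈ ZCl (coneSLZ n)) :
    N * (1 + single i j (c : ℂ)) ∈ ZCl (coneSLZ n) := by
  have hΦ : PolyMap (fun N : Mat n => N * (1 + single i j (c : ℂ))) :=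
    polyMap_linear (LinearMap.mulRight ℂ (1 + single i j (c : ℂ)))
  refine hΦ.maps_ZCl (A := coneSLZ n) (B := coneSLZ n) ?_ N hN
  rintro _ ⟨l, P, hP, rfl⟩
  refine subset_ZCl _ ⟨l, P * (1 + single i j c), ?_, ?_⟩
  · rw [det_mul, hP, one_mul]
    exact det_transvection_of_ne i j hij c
  · have e : ((1 + single i j c : Matrix (Fin n) (Fin n) ℤ)).map (Int.cast : ℤ → ℂ)
        = 1 + single i j (c : ℂ) := by
      rw [Matrix.map_add _ Int.cast_add, Matrix.map_one _ Int.cast_zero Int.cast_one]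
      congr 1
      exact Matrix.map_single i j c (Int.castRingHom ℂ)
    have e2 : (P * (1 + single i j c)).map (Int.cast : ℤ → ℂ)
        = P.map (Int.cast : ℤ → ℂ) * (1 + single i j c : Matrix (Fin n) (Fin n) ℤ).map
          (Int.cast : ℤ → ℂ) := Matrix.map_mul (f := Int.castRingHom ℂ)
    rw [e2, e, smul_mul_assoc]

/-- right multiplication by a complex transvection preserves the closure. -/
theorem slz_mul_transvec {i j : Fin n} (hij : i ≠ j) (c : ℂ) {N : Mat n}
    (hN : N ∈ ZCl (coneSLZ n)) : N * (1 + single i j c) ∈ ZCl (coneSLZ n) := by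
  have hγ : PolyMap (fun θ : ℂ => N * (1 + single i j θ)) := by
    have h0' := polyMap_linear (Matrix.singleLinearMap ℂ i j : ℂ →ₗ[ℂ] Mat n)
    have h0 : PolyMap (fun θ : ℂ => (single i j θ : Mat n)) := h0'
    have h1 : PolyMap (fun θ : ℂ => (1 + single i j θ : Mat n)) :=
      (polyMap_const (1 : Mat n)).add h0
    exact (polyMap_linear (LinearMap.mulLeft ℂ N)).comp h1
  refine ZCl_curve hγ ?_ c
  have hinj : Function.Injective (Int.cast : ℤ → ℂ) := Int.cast_injective
  refine (Set.infinite_range_of_injective hinj).mono ?_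
  rintro _ ⟨k, rfl⟩
  exact slz_mul_int hij k hN

/-- right multiplication by `SL_n(ℂ)` preserves the closure. -/
theorem slz_mul_SL [Nontrivial (Fin n)] (M : SpecialLinearGroup (Fin n) ℂ) :
    ∀ N ∈ ZCl (coneSLZ n), N * (M : Matrix (Fin n) (Fin n) ℂ) ∈ ZCl (coneSLZ n) := by
  refine SpecialLinearGroup.diagonal_transvection_induction'
    (fun M => ∀ N ∈ ZCl (coneSLZ n), N * (M : Matrix (Fin n) (Fin n) ℂ) ∈ ZCl (coneSLZ n))
    M ?_ ?_ ?_
  · intro i j hij c hc N hN
    rw [SpecialLinearGroup.diag2n_coe, slz_diag_decomp hij c hc]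
    simp only [← mul_assoc]
    exact slz_mul_transvec hij _ (slz_mul_transvec hij.symm _ (slz_mul_transvec hij _
      (slz_mul_transvec hij _ (slz_mul_transvec hij.symm _ (slz_mul_transvec hij _ hN)))))
  · intro i j hij a N hN
    rw [SpecialLinearGroup.transvection_coe]
    exact slz_mul_transvec hij a hN
  · intro A B hA hB N hN
    have h := hB _ (hA N hN)
    rw [mul_assoc] at h
    exact h

/-- invertible matrices lie in the closure. -/
theorem slz_of_det_ne_zero [Nontrivial (Fin n)] {A : Mat n} (hA : A.det ≠ 0) :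
    A ∈ ZCl (coneSLZ n) := by
  have hn : 0 < n := by
    rcases Nat.eq_zero_or_pos n with h | h
    · subst h
      exact absurd (inferInstance : Nontrivial (Fin 0)) (not_nontrivial _)
    · exact h
  obtain ⟨l, hl⟩ := IsAlgClosed.exists_pow_nat_eq A.det hn
  have hl0 : l ≠ 0 := by
    rintro rfl
    rw [zero_pow hn.ne'] at hl
    exact hA hl.symm
  have hdet : (l⁻¹ • A).det = 1 := by
    rw [det_smul, Fintype.card_fin, inv_pow, hl, inv_mul_cancel₀ hA]
  have h1 := slz_mul_SL ⟨l⁻¹ • A, hdet⟩ 1 (subset_ZCl _ (slz_one_mem n))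
  rw [one_mul] at h1
  have h2 := slz_smul_mem_ZCl l h1
  have e : l • ((⟨l⁻¹ • A, hdet⟩ : SpecialLinearGroup (Fin n) ℂ) : Matrix (Fin n) (Fin n) ℂ)
      = A := by
    show l • (l⁻¹ • A) = A
    rw [smul_smul, mul_inv_cancel₀ hl0, one_smul]
  rwa [e] at h2

/-- (A2) the cone over `SL_n(ℤ)` is Zariski dense in `M_n(ℂ)`.
Let `Z` be the closure.  Show `P(M) : ∀ N ∈ Z, N * M ∈ Z` for all `M ∈ SL_n(ℂ)` by
`Matrix.SpecialLinearGroup.diagonal_transvection_induction'` (`n ≥ 2`; `n ≤ 1` directly):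
for a transvection `1 + c E_ij` with `c ∈ ℤ` right multiplication preserves the cone, so `Z`
(`PolyMap.maps_ZCl`); for `c ∈ ℂ` use `ZCl_curve` in `c`; `diag2n` is a product of six transvections
(compare `Matrix.diag2_decompose`).  Hence `ℂ • SL_n(ℂ) ⊆ Z`; every invertible matrix is a scalar times
a matrix of determinant one (n-th roots exist in `ℂ`); finally `ZCl_ne_zero` for `det`. -/
theorem ZCl_cone_SLZ (n : ℕ) :
    ZCl {A : Mat n | ∃ (l : ℂ) (P : Matrix (Fin n) (Fin n) ℤ), P.det = 1 ∧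
      A = l • P.map (Int.cast : ℤ → ℂ)} = Set.univ := by
  show ZCl (coneSLZ n) = Set.univ
  rcases subsingleton_or_nontrivial (Fin n) with hs | hnt
  · -- every matrix is a scalar matrix
    refine Set.eq_univ_of_forall fun A => subset_ZCl _ ?_
    rcases isEmpty_or_nonempty (Fin n) with he | ⟨⟨i⟩⟩
    · exact ⟨1, 1, det_one, Subsingleton.elim _ _⟩
    · refine ⟨A i i, 1, det_one, ?_⟩
      ext p q
      rw [Subsingleton.elim p i, Subsingleton.elim q i]
      simp
  · have hdet : (fun A : Mat n => A.det) ∈ PolyFun (Mat n) := PolyMap.det polyMap_id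
    have h1 := ZCl_ne_zero hdet (x₀ := (1 : Mat n)) (by simp)
    have h2 : ZCl {A : Mat n | A.det ≠ 0} ⊆ ZCl (ZCl (coneSLZ n)) :=
      ZCl_mono fun A hA => slz_of_det_ne_zero hA
    rw [h1, ZCl_idem] at h2
    exact Set.eq_univ_of_univ_subset h2

theorem zero_mem_VC (S : Subring ℂ) (ρ : Tup 0 n) : ρ ∈ VC S 0 n := by
  refine subset_ZCl _ ⟨ρ, ⟨⟨fun i => i.elim0, mu_zero ρ⟩, fun i => i.elim0⟩, fun i => i.elim0, ?_⟩
  exact Subsingleton.elim _ _

/-- appending a handle blockwise. -/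
theorem slz_snocH_cases {Q : Fin (g + 1) → Fin 2 → Prop} (h0 : ∀ (i : Fin g) c, Q i.castSucc c)
    (h1 : Q (Fin.last g) 0) (h2 : Q (Fin.last g) 1) : ∀ i c, Q i c := by
  intro i c
  induction i using Fin.lastCases with
  | last => fin_cases c
            · exact h1
            · exact h2
  | cast i => exact h0 i c

/-- a commuting pair of `S`-points of determinant one can be appended to an `S`-point. -/
theorem slz_snocH_mem_RS (S : Subring ℂ) {ρ : Tup g n} (hρ : ρ ∈ RS S g n) {A B : Mat n}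
    (hA : A.det = 1) (hB : B.det = 1) (hc : cm A B = 1) (hAS : ∀ p q, A p q ∈ S)
    (hBS : ∀ p q, B p q ∈ S) : snocH ρ A B ∈ RS S (g + 1) n := by
  obtain ⟨⟨hdet, hmu⟩, hS⟩ := hρ
  refine ⟨⟨?_, ?_⟩, ?_⟩
  · refine slz_snocH_cases (fun i c => ?_) ?_ ?_
    · rw [snocH_castSucc]; exact hdet i c
    · rw [(snocH_last ρ A B).1]; exact hA
    · rw [(snocH_last ρ A B).2]; exact hB
  · rw [mu_snocH, hmu, hc, one_mul]
  · refine slz_snocH_cases (fun i c => ?_) ?_ ?_
    · rw [snocH_castSucc]; exact hS i c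
    · rw [(snocH_last ρ A B).1]; exact hAS
    · rw [(snocH_last ρ A B).2]; exact hBS

theorem slz_snocH_scl (l₀ : Fin g → Fin 2 → ℂ) (ρ : Tup g n) (a b : ℂ) (A B : Mat n) :
    snocH (scl l₀ ρ) (a • A) (b • B)
      = scl (Fin.snoc (α := fun _ => Fin 2 → ℂ) l₀ ![a, b]) (snocH ρ A B) := by
  funext i c
  revert i c
  refine slz_snocH_cases (fun i c => ?_) ?_ ?_
  · rw [snocH_castSucc]
    simp only [scl]
    rw [snocH_castSucc, Fin.snoc_castSucc]
  · rw [(snocH_last _ _ _).1]
    simp only [scl]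
    rw [(snocH_last _ _ _).1, Fin.snoc_last]
    rfl
  · rw [(snocH_last _ _ _).2]
    simp only [scl]
    rw [(snocH_last _ _ _).2, Fin.snoc_last]
    rfl

theorem slz_snocH_mem_Cone (S : Subring ℂ) {ρ : Tup g n} (hρ : ρ ∈ Cone S g n) (l : ℂ) {B : Mat n}
    (hB : B ∈ coneSLZ n) :
    snocH ρ (l • 1) B ∈ Cone S (g + 1) n ∧ snocH ρ B (l • 1) ∈ Cone S (g + 1) n := by
  obtain ⟨ρ₀, hρ₀, l₀, rfl⟩ := hρ
  obtain ⟨m, P, hP, rfl⟩ := hB
  have hdet : (P.map (Int.cast : ℤ → ℂ)).det = 1 := by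
    have := (Int.castRingHom ℂ).map_det P
    rw [hP, map_one] at this
    exact this.symm
  have hu : IsUnit (P.map (Int.cast : ℤ → ℂ)).det := by rw [hdet]; exact isUnit_one
  have hPS : ∀ p q, (P.map (Int.cast : ℤ → ℂ)) p q ∈ S := fun p q => by
    rw [Matrix.map_apply]; exact intCast_mem S _
  have h1S : ∀ p q, (1 : Mat n) p q ∈ S := fun p q => by
    rw [Matrix.one_apply]
    split_ifs
    · exact S.one_mem
    · exact S.zero_mem
  have hc1 : cm (1 : Mat n) (P.map (Int.cast : ℤ → ℂ)) = 1 := by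
    unfold cm
    rw [one_mul, inv_one, mul_one, Matrix.mul_nonsing_inv _ hu]
  have hc2 : cm (P.map (Int.cast : ℤ → ℂ)) (1 : Mat n) = 1 := by
    unfold cm
    rw [mul_one, inv_one, mul_one, Matrix.mul_nonsing_inv _ hu]
  constructor
  · exact ⟨_, slz_snocH_mem_RS S hρ₀ det_one hdet hc1 h1S hPS, _, slz_snocH_scl l₀ ρ₀ l m _ _⟩
  · exact ⟨_, slz_snocH_mem_RS S hρ₀ hdet det_one hc2 hPS h1S, _, slz_snocH_scl l₀ ρ₀ m l _ _⟩

/-- (A4).  For `ρ ∈ Cone` and `B` in the cone over `SL_n(ℤ)` the tuple is in `Cone S (g+1) n`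
(`cm (l • 1) B = 1` if `l ≠ 0`; for `l = 0` scale by `0`).  Then `PolyMap.maps_ZCl₂` and `ZCl_cone_SLZ`. -/
theorem snocH_one_mem_VC (S : Subring ℂ) {ρ : Tup g n} (h : ρ ∈ VC S g n) (l : ℂ) (B : Mat n) :
    snocH ρ (l • 1) B ∈ VC S (g + 1) n := by
  have hΦ : PolyMap (fun x : Tup g n × Mat n => snocH x.1 (l • 1) x.2) := by
    have h1 : PolyMap (fun x : Tup g n × Mat n => (x.1, ((l • 1 : Mat n), x.2))) :=
      (PolyMap.fst polyMap_id).prodMk ((polyMap_const _).prodMk (PolyMap.snd polyMap_id))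
    exact (polyMap_linear (snocL g n).toLinearMap).comp h1
  have hB : B ∈ ZCl (coneSLZ n) := by
    have := ZCl_cone_SLZ n
    change ZCl (coneSLZ n) = Set.univ at this
    rw [this]; exact Set.mem_univ _
  exact hΦ.maps_ZCl₂ (A := Cone S g n) (B := coneSLZ n) (C := Cone S (g + 1) n)
    (fun a ha b hb => subset_ZCl _ (slz_snocH_mem_Cone S ha l hb).1) ρ h B hB

/-- (A4) -/
theorem snocH_mem_VC_one (S : Subring ℂ) {ρ : Tup g n} (h : ρ ∈ VC S g n) (A : Mat n) (l : ℂ) :
    snocH ρ A (l • 1) ∈ VC S (g + 1) n := by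
  have hΦ : PolyMap (fun x : Tup g n × Mat n => snocH x.1 x.2 (l • 1)) := by
    have h1 : PolyMap (fun x : Tup g n × Mat n => (x.1, (x.2, (l • 1 : Mat n)))) :=
      (PolyMap.fst polyMap_id).prodMk ((PolyMap.snd polyMap_id).prodMk (polyMap_const _))
    exact (polyMap_linear (snocL g n).toLinearMap).comp h1
  have hA : A ∈ ZCl (coneSLZ n) := by
    have := ZCl_cone_SLZ n
    change ZCl (coneSLZ n) = Set.univ at this
    rw [this]; exact Set.mem_univ _
  exact hΦ.maps_ZCl₂ (A := Cone S g n) (B := coneSLZ n) (C := Cone S (g + 1) n)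
    (fun a ha b hb => subset_ZCl _ (slz_snocH_mem_Cone S ha l hb).2) ρ h A hA

end Claimed.Agent.R236
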