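import Claimed.Agent.R236.Basic

/-!
# Row 236: Lemma B' (blueprint section 4)
-/

namespace Claimed.Agent.R236

variable {n : ℕ}

/-- auxiliary: the power-sum hypothesis extends to all polynomials. -/
theorem sum_mul_eval_eq_zero_of_forall_pow_sum {ι : Type*} (s : Finset ι) (a c : ι → ℂ)
    (h : ∀ m : ℕ, ∑ e ∈ s, a e * c e ^ m = 0) (p : Polynomial ℂ) :
    ∑ e ∈ s, a e * p.eval (c e) = 0 := by
  induction p using Polynomial.induction_on' with
  | add p q hp hq =>
    simp only [Polynomial.eval_add, mul_add, Finset.sum_add_distrib, hp, hq, add_zero]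
  | monomial m t =>
    have : ∀ e ∈ s, a e * (Polynomial.monomial m t).eval (c e) = t * (a e * c e ^ m) := by
      intro e _
      rw [Polynomial.eval_monomial]
      ring
    rw [Finset.sum_congr rfl this, ← Finset.mul_sum, h m, mul_zero]

/-- If `∑_{e ∈ s} a_e c_e^m = 0` for all `m` and the `c_e` are pairwise distinct then all `a_e`
vanish (Lagrange interpolation or Vandermonde). -/
theorem coeff_zero_of_forall_pow_sum {ι : Type*} (s : Finset ι) (a c : ι → ℂ)
    (hc : Set.InjOn c s) (h : ∀ m : ℕ, ∑ e ∈ s, a e * c e ^ m = 0) : ∀ e ∈ s, a e = 0 := by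
  classical
  intro e he
  have key := sum_mul_eval_eq_zero_of_forall_pow_sum s a c h (Lagrange.basis s c e)
  rw [Finset.sum_eq_single_of_mem e he] at key
  · rw [Lagrange.eval_basis_self hc he, mul_one] at key
    exact key
  · intro j hj hje
    rw [Lagrange.eval_basis_of_ne hje.symm hj, mul_zero]

/-- monomials in distinct primes are distinct (unique factorisation). -/
theorem prime_monomial_injective :
    Function.Injective fun e : Fin n →₀ ℕ =>
      (∏ i : Fin n, ((Nat.nth Nat.Prime (i : ℕ) : ℕ) : ℂ) ^ e i) := by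
  classical
  intro e e' hee
  have hee' : (∏ i : Fin n, (Nat.nth Nat.Prime (i : ℕ)) ^ e i)
      = ∏ i : Fin n, (Nat.nth Nat.Prime (i : ℕ)) ^ e' i := by
    have : (((∏ i : Fin n, (Nat.nth Nat.Prime (i : ℕ)) ^ e i : ℕ)) : ℂ)
        = ((∏ i : Fin n, (Nat.nth Nat.Prime (i : ℕ)) ^ e' i : ℕ) : ℂ) := by
      push_cast
      exact hee
    exact_mod_cast this
  have hfac : ∀ (d : Fin n →₀ ℕ) (j : Fin n),
      (∏ i : Fin n, (Nat.nth Nat.Prime (i : ℕ)) ^ d i).factorization
        (Nat.nth Nat.Prime (j : ℕ)) = d j := by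
    intro d j
    rw [Nat.factorization_prod]
    · rw [Finsupp.finsetSum_apply, Finset.sum_eq_single_of_mem j (Finset.mem_univ j)]
      · rw [Nat.Prime.factorization_pow (Nat.prime_nth_prime _), Finsupp.single_eq_same]
      · intro i _ hij
        rw [Nat.Prime.factorization_pow (Nat.prime_nth_prime _)]
        apply Finsupp.single_eq_of_ne
        intro hcon
        apply hij
        have := Nat.nth_injective Nat.infinite_setOfPred_prime hcon
        exact Fin.ext (by omega)
    · intro i _
      exact pow_ne_zero _ (Nat.prime_nth_prime _).ne_zero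
  ext j
  rw [← hfac e j, ← hfac e' j, hee']

/-- **Lemma B'**: a polynomial vanishing at `(π_1^m, …, π_n^m)` for all `m` is zero
(`π_i` = the `i`-th prime).  Expand `eval` as a sum over the support:
`∑_e coeff_e (∏ π_i^{e_i})^m = 0`, then use the two lemmas above. -/
theorem lemmaB (Φ : MvPolynomial (Fin n) ℂ)
    (h : ∀ m : ℕ,
      MvPolynomial.eval (fun i : Fin n => ((Nat.nth Nat.Prime (i : ℕ) : ℕ) : ℂ) ^ m) Φ = 0) :
    Φ = 0 := by
  classical
  have h0 := coeff_zero_of_forall_pow_sum Φ.support (fun d => Φ.coeff d)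
    (fun e : Fin n →₀ ℕ => (∏ i : Fin n, ((Nat.nth Nat.Prime (i : ℕ) : ℕ) : ℂ) ^ e i))
    (prime_monomial_injective.injOn) (by
      intro m
      have hm := h m
      rw [MvPolynomial.eval_eq'] at hm
      rw [← hm]
      apply Finset.sum_congr rfl
      intro d _
      congr 1
      rw [← Finset.prod_pow]
      apply Finset.prod_congr rfl
      intro i _
      rw [← pow_mul, ← pow_mul, mul_comm])
  by_contra hne
  obtain ⟨d, hd⟩ := MvPolynomial.support_nonempty.mpr hne
  exact (MvPolynomial.mem_support_iff.mp hd) (h0 d hd)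

end Claimed.Agent.R236
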