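import Claimed.Agent.R236.VC

/-!
# Row 236: Lemma H, from the cone back to `SL_n` (blueprint section 13)
-/

namespace Claimed.Agent.R236

open Matrix

variable {g n : ℕ}

theorem lemmaH_exists_poly {V : Type*} [AddCommGroup V] [Module ℂ V] {f : ℂ × V → ℂ}
    (hf : f ∈ PolyFun (ℂ × V)) :
    ∃ p : Polynomial (PolyFun V), ∀ t x,
      f (t, x) = ((p.eval (algebraMap ℂ (PolyFun V) t) : PolyFun V) : V → ℂ) x := by
  induction hf using Algebra.adjoin_induction with
  | mem f hx =>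
    obtain ⟨ℓ, rfl⟩ := hx
    refine ⟨Polynomial.C ⟨fun x => ℓ (0, x), PolyFun.linear (ℓ.comp (LinearMap.inr ℂ ℂ V))⟩
      + Polynomial.X * Polynomial.C (algebraMap ℂ (PolyFun V) (ℓ (1, 0))), fun t x => ?_⟩
    have h1 : ((t, x) : ℂ × V) = (0, x) + t • ((1 : ℂ), (0 : V)) := by
      ext <;> simp
    simp only [Polynomial.eval_add, Polynomial.eval_C, Polynomial.eval_mul, Polynomial.eval_X]
    show ℓ (t, x) = ℓ (0, x) + t * ℓ (1, 0)
    rw [h1, map_add, map_smul, smul_eq_mul]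
  | algebraMap r =>
    exact ⟨Polynomial.C (algebraMap ℂ (PolyFun V) r), fun t x => by
      simp only [Polynomial.eval_C]; rfl⟩
  | add a b _ _ ha hb =>
    obtain ⟨p, hp⟩ := ha
    obtain ⟨q, hq⟩ := hb
    refine ⟨p + q, fun t x => ?_⟩
    simp only [Polynomial.eval_add]
    show a (t, x) + b (t, x) = _
    rw [hp, hq]; rfl
  | mul a b _ _ ha hb =>
    obtain ⟨p, hp⟩ := ha
    obtain ⟨q, hq⟩ := hb
    refine ⟨p * q, fun t x => ?_⟩
    simp only [Polynomial.eval_mul]
    show a (t, x) * b (t, x) = _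
    rw [hp, hq]; rfl

/-- a polynomial function of `(t, x)` is a polynomial in `t` with polynomial coefficients
(adjoin induction). -/
theorem PolyFun.exists_coeffs {V : Type*} [AddCommGroup V] [Module ℂ V] {f : ℂ × V → ℂ}
    (hf : f ∈ PolyFun (ℂ × V)) :
    ∃ (N : ℕ) (F : ℕ → V → ℂ), (∀ a, F a ∈ PolyFun V) ∧
      ∀ t x, f (t, x) = ∑ a ∈ Finset.range N, t ^ a * F a x := by
  obtain ⟨p, hp⟩ := lemmaH_exists_poly hf
  refine ⟨p.natDegree + 1, fun a => (p.coeff a : V → ℂ), fun a => (p.coeff a).2, fun t x => ?_⟩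
  rw [hp, Polynomial.eval_eq_sum_range]
  have h2 : ∀ (s : Finset ℕ) (G : ℕ → PolyFun V),
      ((∑ a ∈ s, G a : PolyFun V) : V → ℂ) x = ∑ a ∈ s, (G a : V → ℂ) x := by
    intro s G
    rw [AddSubmonoidClass.coe_finsetSum, Finset.sum_apply]
  rw [h2]
  refine Finset.sum_congr rfl fun a _ => ?_
  show (p.coeff a : V → ℂ) x * (((algebraMap ℂ (PolyFun V) t) ^ a : PolyFun V) : V → ℂ) x = _
  rw [mul_comm]
  congr 1


/-- scale only the block `v`. -/
def scl1 (v : Fin g × Fin 2) (t : ℂ) (ρ : Tup g n) : Tup g n :=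
  fun i c => if (i, c) = v then t • ρ i c else ρ i c

/-- the cone where only the blocks in `T` are scaled. -/
def ConeOn (S : Subring ℂ) (g n : ℕ) (T : Finset (Fin g × Fin 2)) : Set (Tup g n) :=
  {ρ | ∃ ρ₀ ∈ RS S g n, ∃ l : Fin g → Fin 2 → ℂ, (∀ i c, (i, c) ∉ T → l i c = 1) ∧ ρ = scl l ρ₀}

theorem coneOn_univ (S : Subring ℂ) : ConeOn S g n Finset.univ = Cone S g n := by
  ext ρ
  constructor
  · rintro ⟨ρ₀, h0, l, -, rfl⟩
    exact ⟨ρ₀, h0, l, rfl⟩
  · rintro ⟨ρ₀, h0, l, rfl⟩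
    exact ⟨ρ₀, h0, l, fun i c h => absurd (Finset.mem_univ _) h, rfl⟩

theorem coneOn_empty (S : Subring ℂ) : ConeOn S g n ∅ = RS S g n := by
  ext ρ
  constructor
  · rintro ⟨ρ₀, h0, l, hl, rfl⟩
    have : scl l ρ₀ = ρ₀ := by
      funext i c
      simp [scl, hl i c (Finset.notMem_empty _)]
    rwa [this]
  · intro h
    exact ⟨ρ, h, fun _ _ => 1, fun _ _ _ => rfl, by funext i c; simp [scl]⟩

/-- discrete Fourier inversion: if `∑_j ζ^{ij} H_j = 0` for all `i < n` then all `H_j = 0`. -/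
theorem eq_zero_of_forall_sum_pow_primitiveRoot {ζ : ℂ} (hζ : IsPrimitiveRoot ζ n) (H : Fin n → ℂ)
    (h : ∀ i : Fin n, ∑ j : Fin n, ζ ^ ((i : ℕ) * (j : ℕ)) * H j = 0) : H = 0 := by
  refine Matrix.eq_zero_of_forall_index_sum_pow_mul_eq_zero (f := fun i : Fin n => ζ ^ (i : ℕ)) ?_ ?_
  · intro i j hij
    exact Fin.ext (hζ.pow_inj i.2 j.2 hij)
  · intro i
    simpa only [← pow_mul] using h i

theorem lemmaH_coeff_eq {N : ℕ} {c d : ℕ → ℂ}
    (h : ∀ t : ℂ, ∑ a ∈ Finset.range N, t ^ a * c a = ∑ a ∈ Finset.range N, t ^ a * d a) :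
    ∀ a < N, c a = d a := by
  have hp : (∑ a ∈ Finset.range N, Polynomial.monomial a (c a))
      = ∑ a ∈ Finset.range N, Polynomial.monomial a (d a) := by
    refine Polynomial.funext fun t => ?_
    simp only [Polynomial.eval_finsetSum, Polynomial.eval_monomial]
    simpa only [mul_comm] using h t
  intro a ha
  have := congrArg (fun p => Polynomial.coeff p a) hp
  simpa only [Polynomial.finsetSum_coeff, Polynomial.coeff_monomial, Finset.sum_ite_eq',
    Finset.mem_range, ha, if_true] using this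

theorem scl1_scl1 (v : Fin g × Fin 2) (t τ : ℂ) (ρ : Tup g n) :
    scl1 v t (scl1 v τ ρ) = scl1 v (t * τ) ρ := by
  funext i c
  by_cases h : (i, c) = v
  · simp only [scl1, h, if_true, smul_smul]
  · simp only [scl1, h, if_false]

theorem scl1_one (v : Fin g × Fin 2) (ρ : Tup g n) : scl1 v 1 ρ = ρ := by
  funext i c
  by_cases h : (i, c) = v
  · simp only [scl1, h, if_true, one_smul]
  · simp only [scl1, h, if_false]

theorem scl1_self (v : Fin g × Fin 2) (t : ℂ) (ρ : Tup g n) :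
    scl1 v t ρ v.1 v.2 = t • ρ v.1 v.2 := by
  simp [scl1]

theorem polyMap_scl1 (v : Fin g × Fin 2) :
    PolyMap (fun p : ℂ × Tup g n => scl1 v p.1 p.2) := by
  rw [polyMap_pi (X := fun _ : Fin g => Fin 2 → Mat n)]
  intro i
  rw [polyMap_pi (X := fun _ : Fin 2 => Mat n)]
  intro c
  have hproj : PolyMap (fun p : ℂ × Tup g n => p.2 i c) :=
    polyMap_linear (((LinearMap.proj c : (Fin 2 → Mat n) →ₗ[ℂ] Mat n).comp
      (LinearMap.proj i : Tup g n →ₗ[ℂ] (Fin 2 → Mat n))).comp (LinearMap.snd ℂ ℂ (Tup g n)))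
  by_cases h : (i, c) = v
  · simp only [scl1, h, if_true]
    exact PolyMap.smul (PolyFun.linear (LinearMap.fst ℂ ℂ (Tup g n))) hproj
  · simp only [scl1, h, if_false]
    exact hproj

theorem scl1_scl_comm (v : Fin g × Fin 2) (t : ℂ) (l : Fin g → Fin 2 → ℂ) (ρ : Tup g n) :
    scl1 v t (scl l ρ) = scl l (scl1 v t ρ) := by
  funext i c
  by_cases h : (i, c) = v
  · simp only [scl1, scl, h, if_true, smul_comm t]
  · simp only [scl1, scl, h, if_false]

theorem scl1_mem_RS (S : Subring ℂ) (v : Fin g × Fin 2) {ξ : ℂ} (hξ : ξ ^ n = 1) (hξS : ξ ∈ S)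
    (hn : 1 ≤ n) {ρ : Tup g n} (hρ : ρ ∈ RS S g n) : scl1 v ξ ρ ∈ RS S g n := by
  have hξ0 : ξ ≠ 0 := by
    rintro rfl
    rw [zero_pow (by omega)] at hξ
    exact zero_ne_one hξ
  have hs : scl1 v ξ ρ = scl (fun i c => if (i, c) = v then ξ else 1) ρ := by
    funext i c
    by_cases h : (i, c) = v
    · simp only [scl1, scl, h, if_true]
    · simp only [scl1, scl, h, if_false, one_smul]
  obtain ⟨⟨hd, hm⟩, hS⟩ := hρ
  refine ⟨⟨fun i c => ?_, ?_⟩, fun i c p q => ?_⟩
  · by_cases h : (i, c) = v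
    · simp only [scl1, h, if_true]
      rw [det_smul, Fintype.card_fin, hξ, one_mul]
      exact hd i c
    · simp only [scl1, h, if_false]
      exact hd i c
  · rw [hs, mu_scl _ ρ, hm]
    intro i c
    by_cases h : (i, c) = v
    · simp only [h, if_true]; exact hξ0
    · simp only [h, if_false]; exact one_ne_zero
  · by_cases h : (i, c) = v
    · simp only [scl1, h, if_true, Matrix.smul_apply, smul_eq_mul]
      exact S.mul_mem hξS (hS i c p q)
    · simp only [scl1, h, if_false]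
      exact hS i c p q


theorem scl1_mem_coneOn (S : Subring ℂ) (v : Fin g × Fin 2) {ξ : ℂ} (hξ : ξ ^ n = 1) (hξS : ξ ∈ S)
    (hn : 1 ≤ n) (T : Finset (Fin g × Fin 2)) {x : Tup g n} (hx : x ∈ ConeOn S g n T) :
    scl1 v ξ x ∈ ConeOn S g n T := by
  obtain ⟨ρ₀, h0, l, hl, rfl⟩ := hx
  exact ⟨scl1 v ξ ρ₀, scl1_mem_RS S v hξ hξS hn h0, l, hl, scl1_scl_comm v ξ l ρ₀⟩

theorem coneOn_insert_decomp (S : Subring ℂ) (v : Fin g × Fin 2) (T : Finset (Fin g × Fin 2))
    {y : Tup g n} (hy : y ∈ ConeOn S g n (insert v T)) :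
    ∃ x ∈ ConeOn S g n T, ∃ t : ℂ, y = scl1 v t x ∧ (x v.1 v.2).det = 1 := by
  obtain ⟨ρ₀, h0, l, hl, rfl⟩ := hy
  refine ⟨scl (fun i c => if (i, c) = v then 1 else l i c) ρ₀,
    ⟨ρ₀, h0, _, fun i c hic => ?_, rfl⟩, l v.1 v.2, ?_, ?_⟩
  · by_cases h : (i, c) = v
    · simp only [h, if_true]
    · simp only [h, if_false]
      exact hl i c (by simp only [Finset.mem_insert, h, hic, or_self, not_false_eq_true])
  · funext i c
    by_cases h : (i, c) = v
    · simp only [scl1, scl, h, if_true, one_smul]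
      rw [← h]
    · simp only [scl1, scl, h, if_false]
  · simp only [scl, Prod.mk.eta, if_true, one_smul]
    exact h0.1.1 v.1 v.2

theorem lemmaH_exp {N a : ℕ} (ha : a < N) : a + n * (N - a / n) = n * N + a % n := by
  have h1 : a / n ≤ N := le_trans (Nat.div_le_self a n) ha.le
  have h2 : n * (a / n) + a % n = a := Nat.div_add_mod a n
  have h3 : n * (N - a / n) = n * N - n * (a / n) := Nat.mul_sub n N (a / n)
  have h4 : n * (a / n) ≤ n * N := Nat.mul_le_mul_left n h1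
  omega

/-- **one step of Lemma H** (blueprint section 13).  `F` vanishing on `ConeOn T`;
`F (scl1 v t x) = ∑_a t^a F_a x`; `F_a (scl1 v τ x) = τ^a F_a x`;
`G_j := ∑_{a ≡ j (n)} F_a · (det x_v)^{(N_j - a)/n}` is homogeneous of degree `N_j` in the block `v`, equals
`H_j = ∑_{a ≡ j} F_a` where `det x_v = 1`, and `H_j = 0` on `ConeOn T` because `scl1 v (ζ^i)` preserves
`ConeOn T`.  So `G_j` vanishes on `ConeOn (insert v T)`. -/
theorem lemmaH_step (hn : 1 ≤ n) (S : Subring ℂ) {ζ : ℂ} (hζ : IsPrimitiveRoot ζ n) (hζS : ζ ∈ S)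
    (T : Finset (Fin g × Fin 2)) (v : Fin g × Fin 2) (hv : v ∉ T) {ρ : Tup g n}
    (hρ : ρ ∈ ZCl (ConeOn S g n (insert v T))) (hdet : (ρ v.1 v.2).det = 1) :
    ρ ∈ ZCl (ConeOn S g n T) := by
  intro F hF hF0
  obtain ⟨N, Fa, hFa, hexp⟩ := PolyFun.exists_coeffs (PolyFun.comp hF (polyMap_scl1 v))
  -- homogeneity of the coefficients
  have hhom : ∀ a < N, ∀ (τ : ℂ) (x : Tup g n), Fa a (scl1 v τ x) = τ ^ a * Fa a x := by
    intro a ha τ x
    refine lemmaH_coeff_eq (N := N) (c := fun a => Fa a (scl1 v τ x))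
      (d := fun a => τ ^ a * Fa a x) (fun t => ?_) a ha
    rw [← hexp t (scl1 v τ x)]
    show F (scl1 v t (scl1 v τ x)) = _
    rw [scl1_scl1]
    have := hexp (t * τ) x
    simp only at this
    rw [this]
    refine Finset.sum_congr rfl fun a _ => ?_
    rw [mul_pow, mul_assoc]
  let md : ℕ → Fin n := fun a => ⟨a % n, Nat.mod_lt a hn⟩
  let H : Fin n → Tup g n → ℂ := fun j x => ∑ a ∈ Finset.range N with md a = j, Fa a x
  let G : Fin n → Tup g n → ℂ := fun j x =>
    ∑ a ∈ Finset.range N with md a = j, Fa a x * (x v.1 v.2).det ^ (N - a / n)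
  have hsumH : ∀ x, F x = ∑ j, H j x := by
    intro x
    rw [Finset.sum_fiberwise]
    have := hexp 1 x
    simp only [scl1_one, one_pow, one_mul] at this
    exact this
  -- `H j` vanishes on `ConeOn T`
  have hH0 : ∀ x ∈ ConeOn S g n T, ∀ j, H j x = 0 := by
    intro x hx
    have : (fun j => H j x) = 0 := by
      refine eq_zero_of_forall_sum_pow_primitiveRoot hζ _ fun i => ?_
      have h1 : F (scl1 v (ζ ^ (i : ℕ)) x) = 0 :=
        hF0 _ (scl1_mem_coneOn S v (by rw [← pow_mul, mul_comm, pow_mul, hζ.pow_eq_one, one_pow])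
          (S.pow_mem hζS _) hn T hx)
      have h2 := hexp (ζ ^ (i : ℕ)) x
      simp only at h2
      rw [h1] at h2
      rw [h2, ← Finset.sum_fiberwise (Finset.range N) md]
      refine Finset.sum_congr rfl fun j _ => ?_
      rw [Finset.mul_sum]
      refine Finset.sum_congr rfl fun a ha => ?_
      have haj : a % n = (j : ℕ) := by
        have := (Finset.mem_filter.mp ha).2
        exact congrArg Fin.val this
      congr 1
      have hz : (ζ ^ (i : ℕ)) ^ n = 1 := by
        rw [← pow_mul, mul_comm, pow_mul, hζ.pow_eq_one, one_pow]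
      rw [pow_mul, ← haj]
      conv_rhs => rw [← Nat.div_add_mod a n, pow_add, pow_mul, hz, one_pow, one_mul]
    intro j
    exact congrFun this j
  -- `G j` is a polynomial function vanishing on the bigger cone
  have hGpoly : ∀ j, G j ∈ PolyFun (Tup g n) := by
    intro j
    refine PolyFun.sum _ fun a _ => PolyFun.mul (hFa a) (PolyFun.pow ?_ _)
    exact PolyMap.det (polyMap_linear ((LinearMap.proj v.2 : (Fin 2 → Mat n) →ₗ[ℂ] Mat n).comp
      (LinearMap.proj v.1 : Tup g n →ₗ[ℂ] (Fin 2 → Mat n))))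
  have hG0 : ∀ j, ∀ y ∈ ConeOn S g n (insert v T), G j y = 0 := by
    intro j y hy
    obtain ⟨x, hx, t, rfl, hdx⟩ := coneOn_insert_decomp S v T hy
    have : G j (scl1 v t x) = t ^ (n * N + (j : ℕ)) * H j x := by
      show ∑ a ∈ Finset.range N with md a = j, _ = _ * ∑ a ∈ Finset.range N with md a = j, _
      rw [Finset.mul_sum]
      refine Finset.sum_congr rfl fun a ha => ?_
      have haN : a < N := Finset.mem_range.mp (Finset.mem_filter.mp ha).1
      have haj : a % n = (j : ℕ) := congrArg Fin.val (Finset.mem_filter.mp ha).2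
      rw [hhom a haN, scl1_self, det_smul, Fintype.card_fin, hdx, mul_one, ← pow_mul, ← haj,
        ← lemmaH_exp haN, pow_add]
      ring
    rw [this, hH0 x hx j, mul_zero]
  rw [hsumH]
  refine Finset.sum_eq_zero fun j _ => ?_
  have h1 : G j ρ = 0 := hρ (G j) (hGpoly j) (hG0 j)
  have h2 : G j ρ = H j ρ := by
    show ∑ a ∈ Finset.range N with md a = j, _ = ∑ a ∈ Finset.range N with md a = j, _
    refine Finset.sum_congr rfl fun a _ => ?_
    rw [hdet, one_pow, mul_one]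
  rw [← h2, h1]

/-- **Lemma H.** (Finset induction from `univ` down to `∅`.) -/
theorem lemmaH (hn : 1 ≤ n) (S : Subring ℂ) {ζ : ℂ} (hζ : IsPrimitiveRoot ζ n) (hζS : ζ ∈ S)
    {F : Tup g n → ℂ} (hF : F ∈ PolyFun (Tup g n)) (h0 : ∀ ρ ∈ RS S g n, F ρ = 0) :
    ∀ ρ ∈ VC S g n, (∀ i c, (ρ i c).det = 1) → F ρ = 0 := by
  intro ρ hρ hdet
  have key : ∀ T : Finset (Fin g × Fin 2), ρ ∈ ZCl (ConeOn S g n T) → ρ ∈ ZCl (ConeOn S g n ∅) := by
    intro T
    induction T using Finset.induction_on with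
    | empty => exact id
    | insert v T hv ih =>
      intro h
      exact ih (lemmaH_step hn S hζ hζS T v hv h (hdet v.1 v.2))
  have h1 : ρ ∈ ZCl (ConeOn S g n ∅) := key Finset.univ (by rw [coneOn_univ]; exact hρ)
  rw [coneOn_empty] at h1
  exact h1 F hF h0

end Claimed.Agent.R236
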