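import Claimed.Agent.R236.OpenMap2

/-!
# Row 236: base points of the local fullness statements (blueprint section 10)
-/

namespace Claimed.Agent.R236

open Matrix Topology Filter

variable {g n : ℕ}

attribute [local instance] Matrix.linftyOpNormedRing Matrix.linftyOpNormedAlgebra

/-- base point of `Hyp(g+2)`: `(1,1; …; (X⁻¹, Dg⁻¹); (Dg⁻¹, X⁻¹))`. -/
noncomputable def base1 (g n : ℕ) : Tup (g + 2) n :=
  snocH (snocH (fun _ _ => 1) (cycX n)⁻¹ (primeDiag n)⁻¹) (primeDiag n)⁻¹ (cycX n)⁻¹

/-- base point of `Loc(2)`: `(Dg⁻¹, 1; 1, X)`. -/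
noncomputable def base2 (n : ℕ) : Tup 2 n :=
  snocH (snocH (fun _ _ => 1) (primeDiag n)⁻¹ 1) 1 (cycX n)

/-- base point of `Loc(g+3)`: `(base1; 1, X)`. -/
noncomputable def base3 (g n : ℕ) : Tup (g + 3) n := snocH (base1 g n) 1 (cycX n)

theorem isUnit_det_primeDiag (n : ℕ) : IsUnit (primeDiag n).det := by
  rw [primeDiag, Matrix.det_diagonal, isUnit_iff_ne_zero]
  refine Finset.prod_ne_zero_iff.mpr (fun i _ => ?_)
  exact_mod_cast (Nat.prime_nth_prime (i : ℕ)).ne_zero

theorem isUnit_det_cycX (n : ℕ) : IsUnit (cycX n).det := by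
  rw [cycX, Matrix.det_transpose, Matrix.det_permutation, isUnit_iff_ne_zero]
  rcases Int.units_eq_one_or (Equiv.Perm.sign (finRotate n)) with h | h <;> rw [h] <;> simp

/-- entries of `cycX`. -/
theorem loc_cycX_apply (n : ℕ) (i j : Fin n) : cycX n i j = if finRotate n j = i then 1 else 0 := by
  simp [cycX, Equiv.Perm.permMatrix, PEquiv.toMatrix_apply, Equiv.toPEquiv_apply]

theorem loc_mul_cycX (w : Mat n) (i j : Fin n) : (w * cycX n) i j = w i (finRotate n j) := by
  rw [Matrix.mul_apply, Finset.sum_eq_single (finRotate n j)]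
  · rw [loc_cycX_apply, if_pos rfl, mul_one]
  · intro k _ hk
    rw [loc_cycX_apply, if_neg (fun h => hk h.symm), mul_zero]
  · intro h; exact absurd (Finset.mem_univ _) h

theorem loc_cycX_mul (w : Mat n) (i j : Fin n) :
    (cycX n * w) (finRotate n i) j = w i j := by
  rw [Matrix.mul_apply, Finset.sum_eq_single i]
  · rw [loc_cycX_apply, if_pos rfl, one_mul]
  · intro k _ hk
    rw [loc_cycX_apply, if_neg (fun h => hk ((finRotate n).injective h)), zero_mul]
  · intro h; exact absurd (Finset.mem_univ _) h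

/-- a matrix commuting with `diag(primes)` is diagonal; a diagonal matrix commuting with the cyclic
permutation matrix is scalar. -/
theorem scalar_of_commute_primeDiag_cycX {w : Mat n} (h1 : w * primeDiag n = primeDiag n * w)
    (h2 : w * cycX n = cycX n * w) : ∃ a : ℂ, w = a • (1 : Mat n) := by
  -- off-diagonal entries vanish
  have hoff : ∀ i j : Fin n, i ≠ j → w i j = 0 := by
    intro i j hij
    have h := congrFun (congrFun h1 i) j
    rw [primeDiag, Matrix.mul_diagonal, Matrix.diagonal_mul] at h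
    have hne : ((Nat.nth Nat.Prime (j : ℕ) : ℕ) : ℂ) ≠ ((Nat.nth Nat.Prime (i : ℕ) : ℕ) : ℂ) := by
      intro h'
      have h'' : Nat.nth Nat.Prime (j : ℕ) = Nat.nth Nat.Prime (i : ℕ) := by exact_mod_cast h'
      have := Nat.nth_injective Nat.infinite_setOfPred_prime h''
      exact hij (Fin.ext this.symm)
    have h3 : w i j * (((Nat.nth Nat.Prime (j : ℕ) : ℕ) : ℂ) - ((Nat.nth Nat.Prime (i : ℕ) : ℕ) : ℂ)) = 0 := by
      rw [mul_sub, h]; ring
    rcases mul_eq_zero.mp h3 with h4 | h4
    · exact h4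
    · exact absurd (sub_eq_zero.mp h4) hne
  -- diagonal entries are invariant under the rotation
  have hrot : ∀ j : Fin n, w (finRotate n j) (finRotate n j) = w j j := by
    intro j
    have h := congrFun (congrFun h2 (finRotate n j)) j
    rw [loc_mul_cycX, loc_cycX_mul] at h
    exact h
  cases n with
  | zero => exact ⟨0, Subsingleton.elim _ _⟩
  | succ m =>
    have hall : ∀ j : Fin (m + 1), w j j = w 0 0 := by
      intro j
      induction j using Fin.induction with
      | zero => rfl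
      | succ j ih =>
        have := hrot j.castSucc
        rw [finRotate_apply, Fin.coeSucc_eq_succ] at this
        rw [this, ih]
    refine ⟨w 0 0, ?_⟩
    ext i j
    by_cases hij : i = j
    · subst hij
      simp [hall i]
    · simp [hoff i j hij, Matrix.one_apply_ne hij]

/-- blockwise case analysis for an appended handle. -/
theorem loc_snocH_cases {Q : Fin (g + 1) → Fin 2 → Prop} (h0 : ∀ (i : Fin g) c, Q i.castSucc c)
    (h1 : Q (Fin.last g) 0) (h2 : Q (Fin.last g) 1) : ∀ i c, Q i c := by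
  intro i c
  induction i using Fin.lastCases with
  | last => fin_cases c
            · exact h1
            · exact h2
  | cast i => exact h0 i c

theorem loc_allInv_snocH {ρ : Tup g n} (hρ : AllInv ρ) {A B : Mat n} (hA : IsUnit A.det)
    (hB : IsUnit B.det) : AllInv (snocH ρ A B) := by
  refine loc_snocH_cases (fun i c => ?_) ?_ ?_
  · rw [snocH_castSucc]; exact hρ i c
  · rw [(snocH_last ρ A B).1]; exact hA
  · rw [(snocH_last ρ A B).2]; exact hB

theorem loc_allInv_one : AllInv (fun _ _ => 1 : Tup g n) := by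
  intro i c; simp

theorem loc_cm_one_one : cm (1 : Mat n) 1 = 1 := by simp [cm]

theorem loc_mu_one : mu (fun _ _ => 1 : Tup g n) = 1 := by
  unfold mu
  simp only [loc_cm_one_one]
  rw [List.prod_eq_one]
  intro x hx
  rw [List.mem_ofFn] at hx
  obtain ⟨_, rfl⟩ := hx
  rfl

theorem loc_cm_right_one {A : Mat n} (hA : IsUnit A.det) : cm A 1 = 1 := by
  simp [cm, Matrix.mul_nonsing_inv A hA]

theorem loc_cm_left_one {A : Mat n} (hA : IsUnit A.det) : cm 1 A = 1 := by
  simp [cm, Matrix.mul_nonsing_inv A hA]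

theorem loc_cm_mul_cm {A B : Mat n} (hA : IsUnit A.det) (hB : IsUnit B.det) :
    cm A B * cm B A = 1 := by
  unfold cm
  calc A * B * A⁻¹ * B⁻¹ * (B * A * B⁻¹ * A⁻¹)
      = A * B * A⁻¹ * (B⁻¹ * B) * A * B⁻¹ * A⁻¹ := by simp only [Matrix.mul_assoc]
    _ = A * B * (A⁻¹ * A) * B⁻¹ * A⁻¹ := by
        rw [Matrix.nonsing_inv_mul B hB, Matrix.mul_one]; simp only [Matrix.mul_assoc]
    _ = A * (B * B⁻¹) * A⁻¹ := by
        rw [Matrix.nonsing_inv_mul A hA, Matrix.mul_one]; simp only [Matrix.mul_assoc]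
    _ = 1 := by rw [Matrix.mul_nonsing_inv B hB, Matrix.mul_one, Matrix.mul_nonsing_inv A hA]

theorem loc_isUnit_det_inv {A : Mat n} (hA : IsUnit A.det) : IsUnit (A⁻¹).det :=
  Matrix.isUnit_nonsing_inv_det A hA

/-- commuting with the inverse implies commuting with the matrix. -/
theorem loc_commute_of_inv {A w : Mat n} (hA : IsUnit A.det) (h : w * A⁻¹ = A⁻¹ * w) :
    w * A = A * w := by
  calc w * A = (A * A⁻¹) * w * A := by rw [Matrix.mul_nonsing_inv A hA, Matrix.one_mul]
    _ = A * (A⁻¹ * w) * A := by simp only [Matrix.mul_assoc]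
    _ = A * (w * A⁻¹) * A := by rw [h]
    _ = A * w * (A⁻¹ * A) := by simp only [Matrix.mul_assoc]
    _ = A * w := by rw [Matrix.nonsing_inv_mul A hA, Matrix.mul_one]

theorem base1_mem_RC (g n : ℕ) : base1 g n ∈ RC (g + 2) n := by
  have hD := loc_isUnit_det_inv (isUnit_det_primeDiag n)
  have hX := loc_isUnit_det_inv (isUnit_det_cycX n)
  refine ⟨loc_allInv_snocH (loc_allInv_snocH loc_allInv_one hX hD) hD hX, ?_⟩
  rw [base1, mu_snocH, mu_snocH, loc_mu_one, one_mul, loc_cm_mul_cm hX hD]

theorem base1_isSchur (g n : ℕ) : IsSchur (base1 g n) := by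
  intro w hw
  have h1 := hw (Fin.last (g + 1)) 0
  have h2 := hw (Fin.last (g + 1)) 1
  rw [base1, (snocH_last _ _ _).1] at h1
  rw [base1, (snocH_last _ _ _).2] at h2
  exact scalar_of_commute_primeDiag_cycX (loc_commute_of_inv (isUnit_det_primeDiag n) h1)
    (loc_commute_of_inv (isUnit_det_cycX n) h2)

theorem base2_mem_RC (n : ℕ) : base2 n ∈ RC 2 n := by
  have hD := loc_isUnit_det_inv (isUnit_det_primeDiag n)
  have hX := isUnit_det_cycX n
  have h1 : IsUnit (1 : Mat n).det := by simp
  refine ⟨loc_allInv_snocH (loc_allInv_snocH loc_allInv_one hD h1) h1 hX, ?_⟩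
  rw [base2, mu_snocH, mu_snocH, loc_mu_one, one_mul, loc_cm_right_one hD, loc_cm_left_one hX,
    one_mul]

theorem base2_isSchur (n : ℕ) : IsSchur (base2 n) := by
  intro w hw
  have h1 := hw (Fin.castSucc (Fin.last 0)) 0
  have h2 := hw (Fin.last 1) 1
  rw [base2, snocH_castSucc, (snocH_last _ _ _).1] at h1
  rw [base2, (snocH_last _ _ _).2] at h2
  exact scalar_of_commute_primeDiag_cycX (loc_commute_of_inv (isUnit_det_primeDiag n) h1) h2

theorem base3_mem_RC (g n : ℕ) : base3 g n ∈ RC (g + 3) n := by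
  have hX := isUnit_det_cycX n
  have h1 : IsUnit (1 : Mat n).det := by simp
  obtain ⟨hA, hm⟩ := base1_mem_RC g n
  refine ⟨loc_allInv_snocH hA h1 hX, ?_⟩
  rw [base3, mu_snocH, hm, one_mul, loc_cm_left_one hX]

theorem base3_isSchur (g n : ℕ) : IsSchur (base3 g n) := by
  intro w hw
  refine base1_isSchur g n w (fun i c => ?_)
  have h := hw i.castSucc c
  rw [base3, snocH_castSucc] at h
  exact h

end Claimed.Agent.R236
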