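import Claimed.Agent.R236.Basic

/-!
# Row 236: window products of primes are distinct (blueprint section 10, spanning lemma)
-/

namespace Claimed.Agent.R236

open Matrix

variable {n : ℕ}

/-- window products: `∏_{a<k} d (i - a)` (indices mod `n`). -/
def winP (d : Fin n → ℂ) (k : ℕ) (i : Fin n) : ℂ :=
  ∏ a ∈ Finset.range k, d (((finRotate n).symm ^ a) i)

/-- powers of the rotation are translations -/
theorem span1_finRotate_pow (m b : ℕ) (i : Fin (m + 1)) :
    ((((finRotate (m + 1)) ^ b) i : Fin (m + 1)) : ℕ) = ((i : ℕ) + b) % (m + 1) := by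
  induction b with
  | zero => simp [Nat.mod_eq_of_lt i.2]
  | succ b ih =>
    rw [pow_succ', Equiv.Perm.mul_apply, finRotate_apply, Fin.val_add, ih, Fin.val_one',
      Nat.mod_add_mod, Nat.add_mod_mod, add_assoc]

/-- the rotation has no period smaller than `n` -/
theorem span1_no_period {b : ℕ} (hb : 0 < b) (hbn : b < n) (i : Fin n) :
    ((finRotate n).symm ^ b) i ≠ i := by
  intro h
  obtain ⟨m, rfl⟩ : ∃ m, n = m + 1 := ⟨n - 1, by omega⟩
  have h1 : ((finRotate (m + 1)) ^ b) (((finRotate (m + 1)).symm ^ b) i) = i := by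
    have e : (finRotate (m + 1)).symm = (finRotate (m + 1))⁻¹ := rfl
    rw [e, inv_pow]
    simp
  rw [h] at h1
  have h2 := span1_finRotate_pow m b i
  rw [h1] at h2
  have hi := i.2
  rcases Nat.lt_or_ge ((i : ℕ) + b) (m + 1) with h3 | h3
  · rw [Nat.mod_eq_of_lt h3] at h2
    omega
  · have h4 : ((i : ℕ) + b) % (m + 1) = (i : ℕ) + b - (m + 1) := by
      rw [Nat.mod_eq_sub_mod h3, Nat.mod_eq_of_lt (by omega)]
    omega

/-- natural number version of the window product -/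
noncomputable def span1N (k : ℕ) (i : Fin n) : ℕ :=
  ∏ a ∈ Finset.range k, Nat.nth Nat.Prime ((((finRotate n).symm ^ a) i : Fin n) : ℕ)

theorem span1_winP_eq (k : ℕ) (i : Fin n) :
    winP (fun i : Fin n => ((Nat.nth Nat.Prime (i : ℕ) : ℕ) : ℂ)⁻¹) k i = ((span1N k i : ℕ) : ℂ)⁻¹ := by
  unfold winP span1N
  rw [Finset.prod_inv_distrib, Nat.cast_prod]

theorem span1_dvd {k : ℕ} {i j : Fin n} (h : Nat.nth Nat.Prime (j : ℕ) ∣ span1N k i) :
    ∃ a, a < k ∧ j = ((finRotate n).symm ^ a) i := by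
  unfold span1N at h
  obtain ⟨a, ha, hd⟩ := (Nat.prime_nth_prime (j : ℕ)).prime.dvd_finsetProd_iff _ |>.1 h
  refine ⟨a, Finset.mem_range.1 ha, ?_⟩
  have h1 := (Nat.prime_dvd_prime_iff_eq (Nat.prime_nth_prime _) (Nat.prime_nth_prime _)).1 hd
  exact Fin.ext (Nat.nth_injective Nat.infinite_setOfPred_prime h1)

theorem span1_dvd_of_lt {k a : ℕ} (ha : a < k) (i : Fin n) :
    Nat.nth Nat.Prime ((((finRotate n).symm ^ a) i : Fin n) : ℕ) ∣ span1N k i :=
  Finset.dvd_prod_of_mem (fun a => Nat.nth Nat.Prime ((((finRotate n).symm ^ a) i : Fin n) : ℕ))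
    (Finset.mem_range.2 ha)

/-- the window products of the primes are pairwise distinct.
Let `N i = ∏_{a<k} π_{i-a}` (a natural number).  If `N i = N i'`: `π_i ∣ N i'`, so `i = i' - a` with `a < k`.
If `a = 0` we are done; otherwise `i + 1 = i' - (a - 1)`, so `π_{i+1} ∣ N i' = N i`, so `i + 1 = i - a''` with
`a'' < k < n`, i.e. `n ∣ a'' + 1`, impossible. -/
theorem winP_prime_injective {k : ℕ} (hk : 1 ≤ k) (hkn : k < n) :
    Function.Injective (winP (fun i : Fin n => ((Nat.nth Nat.Prime (i : ℕ) : ℕ) : ℂ)⁻¹) k) := by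
  intro i i' h
  rw [span1_winP_eq, span1_winP_eq, _root_.inv_inj, Nat.cast_inj] at h
  set σ := (finRotate n).symm with hσ
  -- `π_i ∣ N i'`
  have h0 : Nat.nth Nat.Prime (i : ℕ) ∣ span1N k i' := by
    rw [← h]
    have := span1_dvd_of_lt (a := 0) (by omega : 0 < k) i
    simpa using this
  obtain ⟨a, ha, hia⟩ := span1_dvd h0
  rcases Nat.eq_zero_or_pos a with rfl | hapos
  · simpa using hia
  exfalso
  -- `σ⁻¹ i = σ^(a-1) i'`
  have h1 : σ⁻¹ i = (σ ^ (a - 1)) i' := by
    rw [hia]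
    obtain ⟨b, rfl⟩ : ∃ b, a = b + 1 := ⟨a - 1, by omega⟩
    rw [← hσ, pow_succ', Equiv.Perm.mul_apply, Nat.add_sub_cancel]
    exact Equiv.symm_apply_apply σ _
  have h2 : Nat.nth Nat.Prime ((σ⁻¹ i : Fin n) : ℕ) ∣ span1N k i := by
    rw [h, h1]
    exact span1_dvd_of_lt (by omega) i'
  obtain ⟨c, hc, hic⟩ := span1_dvd h2
  have h3 : (σ ^ (c + 1)) i = i := by
    rw [pow_succ', Equiv.Perm.mul_apply, ← hic]
    simp
  exact span1_no_period (by omega) (by omega) i h3

end Claimed.Agent.R236
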