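import Claimed.Agent.R236.Cyc2
import Claimed.Agent.R236.Span1
import Claimed.Agent.R236.LocStmt

/-!
# Row 236: the spanning lemma (blueprint section 10)

`Dg = primeDiag n`, `X = cycX n`.  The matrices `(Dg⁻ʲ X)ᵏ`, `j, k < n`, together with the diagonal matrices
span `M_n(ℂ)`:  `(Y X)ᵏ = W_k(Y) Xᵏ` for `Y` diagonal, with `W_k(Y) = ∏_{a<k} Xᵃ Y X⁻ᵃ` diagonal
("window products"), `W_k(Yʲ) = W_k(Y)ʲ`; for `1 ≤ k < n` the entries of `W_k(Dg⁻¹)` are pairwise distinct, so
the powers `W_kʲ`, `j < n`, span the diagonal matrices (Vandermonde, `exists_pS_diagonal`); and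
`M_n = ⊕_k (diagonal) Xᵏ`.
-/

namespace Claimed.Agent.R236

open Matrix

variable {n : ℕ}

theorem primeDiag_inv (n : ℕ) :
    (primeDiag n)⁻¹ = Matrix.diagonal fun i : Fin n => ((Nat.nth Nat.Prime (i : ℕ) : ℕ) : ℂ)⁻¹ := by
  apply Matrix.inv_eq_right_inv
  rw [primeDiag, Matrix.diagonal_mul_diagonal, ← Matrix.diagonal_one]
  congr 1
  funext i
  apply mul_inv_cancel₀
  exact_mod_cast (Nat.prime_nth_prime (i : ℕ)).ne_zero

theorem cycX_mul_diagonal (d : Fin n → ℂ) :
    cycX n * Matrix.diagonal d = Matrix.diagonal (fun i => d ((finRotate n).symm i)) * cycX n := by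
  ext i j
  rw [Matrix.mul_diagonal, Matrix.diagonal_mul, loc_cycX_apply]
  split_ifs with h
  · subst h; rw [Equiv.symm_apply_apply, one_mul, mul_one]
  · rw [zero_mul, mul_zero]

theorem cycX_pow_mul_diagonal (d : Fin n → ℂ) (k : ℕ) :
    cycX n ^ k * Matrix.diagonal d =
      Matrix.diagonal (fun i => d (((finRotate n).symm ^ k) i)) * cycX n ^ k := by
  induction k generalizing d with
  | zero => simp
  | succ k ih =>
    rw [pow_succ, Matrix.mul_assoc, cycX_mul_diagonal, ← Matrix.mul_assoc, ih, Matrix.mul_assoc]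
    congr 2
    funext i
    rw [pow_succ', Equiv.Perm.mul_apply]

theorem diagonal_mul_cycX_pow (d : Fin n → ℂ) (k : ℕ) :
    (Matrix.diagonal d * cycX n) ^ k = Matrix.diagonal (winP d k) * cycX n ^ k := by
  induction k with
  | zero =>
    have h0 : winP d 0 = fun _ => 1 := by funext i; simp [winP]
    rw [h0, Matrix.diagonal_one, pow_zero, pow_zero, Matrix.mul_one]
  | succ k ih =>
    rw [pow_succ, ih, Matrix.mul_assoc, ← Matrix.mul_assoc (cycX n ^ k), cycX_pow_mul_diagonal,
      Matrix.mul_assoc, ← pow_succ, ← Matrix.mul_assoc, Matrix.diagonal_mul_diagonal]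
    congr 2
    funext i
    rw [winP, winP, Finset.prod_range_succ]

theorem winP_pow (d : Fin n → ℂ) (j k : ℕ) (i : Fin n) :
    winP (fun i => d i ^ j) k i = winP d k i ^ j := by
  rw [winP, winP, Finset.prod_pow]

/-- entries of the powers of `X`. -/
theorem cycX_pow_apply (k : ℕ) (i j : Fin n) :
    (cycX n ^ k) i j = if ((finRotate n) ^ k) j = i then 1 else 0 := by
  induction k generalizing j with
  | zero =>
    simp only [pow_zero, Equiv.Perm.coe_one, id_eq, Matrix.one_apply]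
    by_cases h : i = j
    · simp [h]
    · rw [if_neg h, if_neg (fun h' => h h'.symm)]
  | succ k ih =>
    rw [pow_succ, loc_mul_cycX, ih, pow_succ, Equiv.Perm.mul_apply]

open Fin.NatCast in
/-- powers of the rotation are translations. -/
theorem span_finRotate_pow_apply (m k : ℕ) (j : Fin (m + 1)) :
    ((finRotate (m + 1)) ^ k) j = j + (k : Fin (m + 1)) := by
  induction k with
  | zero => simp
  | succ k ih =>
    rw [pow_succ', Equiv.Perm.mul_apply, ih, finRotate_apply]
    push_cast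
    abel

open Fin.NatCast in
/-- powers of the rotation are translations. -/
theorem span_finRotate_pow_val (m : ℕ) (k j : Fin (m + 1)) :
    ((finRotate (m + 1)) ^ (k : ℕ)) j = j + k := by
  rw [span_finRotate_pow_apply, Fin.cast_val_eq_self]

/-- `M_n = ∑_k (diagonal) Xᵏ`:  `m k i = M i (i - k)`. -/
theorem exists_diag_decomp (M : Mat n) :
    ∃ m : Fin n → Fin n → ℂ, M = ∑ k : Fin n, Matrix.diagonal (m k) * cycX n ^ (k : ℕ) := by
  cases n with
  | zero => exact ⟨fun _ _ => 0, Subsingleton.elim _ _⟩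
  | succ m =>
    refine ⟨fun k i => M i (i - k), ?_⟩
    ext i j
    rw [Matrix.sum_apply, Finset.sum_eq_single (i - j)]
    · rw [Matrix.diagonal_mul, cycX_pow_apply, span_finRotate_pow_val,
        if_pos (by abel), mul_one]
      congr 1
      abel
    · intro k _ hk
      rw [Matrix.diagonal_mul, cycX_pow_apply, span_finRotate_pow_val,
        if_neg, mul_zero]
      intro h
      apply hk
      rw [← h]; abel
    · intro h; exact absurd (Finset.mem_univ _) h

/-- the inverse primes are pairwise distinct. -/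
theorem span_invPrime_injective (n : ℕ) :
    Function.Injective (fun i : Fin n => ((Nat.nth Nat.Prime (i : ℕ) : ℕ) : ℂ)⁻¹) := by
  intro i j h
  have h1 : ((Nat.nth Nat.Prime (i : ℕ) : ℕ) : ℂ) = ((Nat.nth Nat.Prime (j : ℕ) : ℕ) : ℂ) :=
    inv_injective h
  have h2 : Nat.nth Nat.Prime (i : ℕ) = Nat.nth Nat.Prime (j : ℕ) := by exact_mod_cast h1
  exact Fin.ext (Nat.nth_injective Nat.infinite_setOfPred_prime h2)

/-- **spanning lemma**, form used for `Loc(2)`. -/
theorem span_loc2 (M : Mat n) : ∃ (d : Fin n → ℂ) (s : Fin n → Fin n → ℂ),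
    M = Matrix.diagonal d + ∑ j : Fin n, pS (s j) ((primeDiag n)⁻¹ ^ (j : ℕ) * cycX n) := by
  obtain ⟨m, hm⟩ := exists_diag_decomp M
  set y : Fin n → ℂ := fun i : Fin n => ((Nat.nth Nat.Prime (i : ℕ) : ℕ) : ℂ)⁻¹ with hy
  -- the coefficient vectors
  have ht : ∀ k : Fin n, ∃ t : Fin n → ℂ, (k : ℕ) ≠ 0 →
      pS t (Matrix.diagonal (winP y k)) = Matrix.diagonal (m k) := by
    intro k
    by_cases hk : (k : ℕ) = 0
    · exact ⟨0, fun h => absurd hk h⟩
    · obtain ⟨t, ht⟩ := exists_pS_diagonal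
        (winP_prime_injective (Nat.one_le_iff_ne_zero.mpr hk) k.2) (m k)
      exact ⟨t, fun _ => ht⟩
  choose t ht using ht
  refine ⟨fun i => ∑ k : Fin n, if (k : ℕ) = 0 then m k i else 0,
    fun j k => if (k : ℕ) = 0 then 0 else t k j, ?_⟩
  have hd : Matrix.diagonal (fun i => ∑ k : Fin n, if (k : ℕ) = 0 then m k i else 0)
      = ∑ k : Fin n, if (k : ℕ) = 0 then Matrix.diagonal (m k) else 0 := by
    ext i j
    rw [Matrix.sum_apply]
    by_cases hij : i = j
    · subst hij
      rw [Matrix.diagonal_apply_eq]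
      refine Finset.sum_congr rfl (fun k _ => ?_)
      split_ifs
      · rw [Matrix.diagonal_apply_eq]
      · rfl
    · rw [Matrix.diagonal_apply_ne _ hij]
      symm
      refine Finset.sum_eq_zero (fun k _ => ?_)
      split_ifs
      · rw [Matrix.diagonal_apply_ne _ hij]
      · rfl
  have hpow : ∀ j k : ℕ, ((primeDiag n)⁻¹ ^ j * cycX n) ^ k
      = Matrix.diagonal (winP y k) ^ j * cycX n ^ k := by
    intro j k
    rw [primeDiag_inv, Matrix.diagonal_pow, Matrix.diagonal_pow]
    have : (y ^ j) = fun i => y i ^ j := rfl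
    rw [this, diagonal_mul_cycX_pow]
    congr 2
    funext i
    rw [winP_pow]; rfl
  have hsum : ∑ j : Fin n, pS (fun k => if (k : ℕ) = 0 then 0 else t k j)
        ((primeDiag n)⁻¹ ^ (j : ℕ) * cycX n)
      = ∑ k : Fin n, if (k : ℕ) = 0 then 0 else Matrix.diagonal (m k) * cycX n ^ (k : ℕ) := by
    simp only [pS, hpow]
    rw [Finset.sum_comm]
    refine Finset.sum_congr rfl (fun k _ => ?_)
    split_ifs with hk
    · simp
    · rw [← ht k hk, pS, Finset.sum_mul]
      refine Finset.sum_congr rfl (fun j _ => ?_)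
      rw [Matrix.smul_mul]
  rw [hd, hsum, ← Finset.sum_add_distrib]
  conv_lhs => rw [hm]
  refine Finset.sum_congr rfl (fun k _ => ?_)
  split_ifs with hk
  · rw [hk, pow_zero, Matrix.mul_one, add_zero]
  · rw [zero_add]

/-- conjugation commutes with `pS`. -/
theorem span_pS_conj {X : Mat n} (hX : IsUnit X.det) (s : Fin n → ℂ) (A : Mat n) :
    X⁻¹ * pS s A * X = pS s (X⁻¹ * A * X) := by
  have hpow : ∀ k : ℕ, (X⁻¹ * A * X) ^ k = X⁻¹ * A ^ k * X := by
    intro k
    induction k with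
    | zero => simp [Matrix.nonsing_inv_mul X hX]
    | succ k ih =>
      rw [pow_succ, ih, pow_succ]
      calc X⁻¹ * A ^ k * X * (X⁻¹ * A * X) = X⁻¹ * A ^ k * (X * X⁻¹) * A * X := by
            simp only [Matrix.mul_assoc]
        _ = X⁻¹ * (A ^ k * A) * X := by
            rw [Matrix.mul_nonsing_inv X hX, Matrix.mul_one]; simp only [Matrix.mul_assoc]
  simp only [pS, hpow]
  rw [Finset.mul_sum, Finset.sum_mul]
  refine Finset.sum_congr rfl (fun k _ => ?_)
  rw [Matrix.mul_smul, Matrix.smul_mul]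

/-- **spanning lemma**, form used for `Loc(g+3)`: conjugate `span_loc2` by `X`; the diagonal matrix is a
polynomial in `Dg⁻¹`. -/
theorem span_locG (M : Mat n) : ∃ (s' : Fin n → ℂ) (s : Fin n → Fin n → ℂ),
    M = pS s' ((cycX n)⁻¹ * (primeDiag n)⁻¹ * cycX n) +
      ∑ j : Fin n, pS (s j) ((cycX n)⁻¹ * (primeDiag n)⁻¹ ^ (j : ℕ) * cycX n * cycX n) := by
  have hX := isUnit_det_cycX n
  obtain ⟨d, s, h⟩ := span_loc2 (cycX n * M * (cycX n)⁻¹)
  obtain ⟨s', hs'⟩ := exists_pS_diagonal (span_invPrime_injective n) d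
  refine ⟨s', s, ?_⟩
  have hM : M = (cycX n)⁻¹ * (cycX n * M * (cycX n)⁻¹) * cycX n := by
    calc M = ((cycX n)⁻¹ * cycX n) * M * ((cycX n)⁻¹ * cycX n) := by
          rw [Matrix.nonsing_inv_mul _ hX, Matrix.one_mul, Matrix.mul_one]
      _ = _ := by simp only [Matrix.mul_assoc]
  conv_lhs => rw [hM, h, ← hs', ← primeDiag_inv]
  rw [Matrix.mul_add, Matrix.add_mul, span_pS_conj hX, Finset.mul_sum, Finset.sum_mul]
  congr 1
  refine Finset.sum_congr rfl (fun j _ => ?_)
  rw [span_pS_conj hX]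
  simp only [Matrix.mul_assoc]

end Claimed.Agent.R236
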