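import Claimed.Agent.R236.Loc2B
import Claimed.Agent.R236.Core
import Claimed.Agent.R236.Span

/-!
# Row 236: local fullness `Loc(2)` at `base2 = (Dg⁻¹, 1; 1, X)` (blueprint section 10)
-/

namespace Claimed.Agent.R236

open Matrix Topology Filter

variable {n : ℕ}

attribute [local instance] Matrix.linftyOpNormedRing Matrix.linftyOpNormedAlgebra

/-- **Loc(2).**  `local_param` on `E = P4 0 n` with `m = mu ∘ tup4` (`hasStrictFDerivAt_mu_tup4`),
`Ψ q = fam minv kap2 n (beta2 q.1) (embP e0 q.2)`, `Ψ'` from `fam_core`.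
`hc`: `eventually_goodRun`, `fam_mu_eq_one_iff`, `mu_beta2`.
`hker`: given `δ` in the kernel take `d, s` from `span_loc2 δ.A₂`; `δ - Ψ' (0, s)` is in the kernel
(`comp_eq_zero_of_eventually_const`) and has diagonal `A₂`-component, so it is `Ψ' (δb, 0)` by `ker_dmu_base2`.
Finally with `U = {q | GoodRun …}`: `Ψ q ∈ VC` by `fam_minv_mem_VC` (`polyMap_beta2`, `beta2_mem_VC`,
`beta2_gen`); transfer by `eventually_tup4`. -/
theorem loc2 (hn : 1 ≤ n) (S : Subring ℂ) :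
    ∀ᶠ ρ' in 𝓝 (base2 n), ρ' ∈ RC 2 n → ρ' ∈ VC S 2 n := by
  have hx : AllInv4 (beta2 (b20 n)) := allInv4_beta2_b20 hn
  have hβ := hasStrictFDerivAt_beta2 hn
  obtain ⟨Ψ', hΨ, hΨb, hΨs⟩ := fam_core hn kap2 n hx (beta2 : B2 n → P4 0 n)
    (LinearMap.toContinuousLinearMap (dbeta2L n)) (b20 n) hβ rfl
  have hm := hasStrictFDerivAt_mu_tup4 hx
  have h0 : fam minv kap2 n (beta2 (b20 n)) (embP e0 (fun _ : Fin n => e0)) = beta2 (b20 n) :=
    fam_base hn kap2 n hx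
  have hgood := eventually_goodRun hn kap2 n hx (beta2 : B2 n → P4 0 n) (b20 n)
    hβ.hasFDerivAt.continuousAt rfl
  have hmx : mu (tup4 (beta2 (b20 n))) = 1 := mu_beta2 hx
  have hc : ∀ᶠ q : B2 n × (Fin n → Fin n → ℂ) in 𝓝 (b20 n, fun _ => e0),
      mu (tup4 (fam minv kap2 n (beta2 q.1) (embP e0 q.2))) = mu (tup4 (beta2 (b20 n))) := by
    filter_upwards [hgood] with q hq
    rw [hmx]
    exact (fam_mu_eq_one_iff hq).2 (mu_beta2 hq.1)
  have hL : ∀ δ : P4 0 n, (LinearMap.toContinuousLinearMap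
      ((dmuL (tup4 (beta2 (b20 n)))).comp (tup4L 0 n).toLinearMap)) δ
        = dmu (base2 n) (tup4 δ) := by
    intro δ
    rw [tup4_beta2_b20 hn]
    rfl
  have hker : ∀ δ : P4 0 n, (LinearMap.toContinuousLinearMap
      ((dmuL (tup4 (beta2 (b20 n)))).comp (tup4L 0 n).toLinearMap)) δ = 0 → ∃ π, Ψ' π = δ := by
    intro δ hδ
    obtain ⟨d, s, hds⟩ := span_loc2 δ.2.2.2.1
    have hz : (LinearMap.toContinuousLinearMap
        ((dmuL (tup4 (beta2 (b20 n)))).comp (tup4L 0 n).toLinearMap)) (Ψ' (0, s)) = 0 := by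
      refine comp_eq_zero_of_eventually_const (m := fun y : P4 0 n => mu (tup4 y))
        (Ψ := fun q : B2 n × (Fin n → Fin n → ℂ) => fam minv kap2 n (beta2 q.1) (embP e0 q.2))
        (p₀ := (b20 n, fun _ => e0)) ?_ hΨ hc (0, s)
      show HasStrictFDerivAt _ _ (fam minv kap2 n (beta2 (b20 n)) (embP e0 (fun _ : Fin n => e0)))
      rw [h0]
      exact hm
    have hA2 : (Ψ' (0, s)).2.2.2.1
        = ∑ j : Fin n, pS (s j) ((primeDiag n)⁻¹ ^ (j : ℕ) * cycX n) := by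
      rw [hΨs]
      refine Finset.sum_congr rfl (fun k _ => ?_)
      rw [lkE_beta2_b20 hn]
      show ((1 : ℂ) • (1 : Mat n)) * pS (s k) ((primeDiag n)⁻¹ ^ (k : ℕ) * cycX n) = _
      rw [one_smul, Matrix.one_mul]
    have hk : dmu (base2 n) (tup4 (δ - Ψ' (0, s))) = 0 := by
      rw [← hL, map_sub, hδ, hz, sub_zero]
    have hd : (δ - Ψ' (0, s)).2.2.2.1 = Matrix.diagonal d := by
      show δ.2.2.2.1 - (Ψ' (0, s)).2.2.2.1 = _
      rw [hA2, hds, add_sub_cancel_right]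
    obtain ⟨δb, hδb⟩ := ker_dmu_base2 hk hd
    refine ⟨(δb, s), ?_⟩
    have hsplit : ((δb, s) : B2 n × (Fin n → Fin n → ℂ)) = (δb, 0) + (0, s) := by
      simp
    rw [hsplit, map_add, hΨb]
    show dbeta2L n δb + _ = _
    rw [hδb, sub_add_cancel]
  have key := local_param (m := fun y : P4 0 n => mu (tup4 y)) hm hΨ h0 hc hker _ hgood
  rw [← tup4_beta2_b20 hn, eventually_tup4]
  filter_upwards [key] with y hy hRC
  obtain ⟨q, hq, rfl⟩ := hy (by rw [hmx]; exact hRC.2)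
  exact fam_minv_mem_VC hn S polyMap_beta2 (beta2_mem_VC S) kap2 (beta2_gen hn) hq

end Claimed.Agent.R236
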