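import Claimed.Agent.R236.Propag
import Claimed.Agent.R236.LocStmt

/-!
# Row 236: `Loc(2)`: the base family `(A₁, p_s(A₁); λ, B₂)`, algebraic facts (blueprint section 10)
-/

namespace Claimed.Agent.R236

open Matrix Topology Filter

variable {n : ℕ}

attribute [local instance] Matrix.linftyOpNormedRing Matrix.linftyOpNormedAlgebra

/-- parameters `(A₁, s, λ, B₂)` of the base family. -/
abbrev B2 (n : ℕ) := Mat n × (Fin n → ℂ) × ℂ × Mat n

/-- the base family `(A₁, p_s(A₁); λ, B₂)`. -/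
def beta2 (b : B2 n) : P4 0 n := (fun _ _ => 1, b.1, pS b.2.1 b.1, b.2.2.1 • 1, b.2.2.2)

/-- the base parameter. -/
noncomputable def b20 (n : ℕ) : B2 n := ((primeDiag n)⁻¹, e0, 1, cycX n)

/-- the stages: `Fl_0, Fl_1, …`. -/
def kap2 : ℕ → Bool × ℕ := fun k => (false, k)

theorem tup4_beta2_b20 (hn : 1 ≤ n) : tup4 (beta2 (b20 n)) = base2 n := by
  unfold tup4 beta2 b20 base2
  dsimp only
  rw [pS_e0 hn, one_smul]

theorem allInv4_beta2_b20 (hn : 1 ≤ n) : AllInv4 (beta2 (b20 n)) := by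
  rw [← allInv_tup4, tup4_beta2_b20 hn]
  exact (base2_mem_RC n).1

theorem polyMap_beta2 : PolyMap (beta2 : B2 n → P4 0 n) := by
  have hid : PolyMap (fun b : B2 n => b) := polyMap_id
  exact (polyMap_const _).prodMk (hid.fst.prodMk ((polyMap_pS hid.fst hid.snd.fst).prodMk
    ((PolyMap.smul (polyMap_iff_polyFun.1 hid.snd.snd.fst) (polyMap_const 1)).prodMk
      hid.snd.snd.snd)))

/-- commuting invertible matrices have trivial commutator. -/
theorem loc2A_cm_of_commute {A B : Mat n} (hA : IsUnit A.det) (hB : IsUnit B.det)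
    (h : A * B = B * A) : cm A B = 1 := by
  unfold cm
  rw [h, Matrix.mul_assoc B A, Matrix.mul_nonsing_inv A hA, Matrix.mul_one,
    Matrix.mul_nonsing_inv B hB]

/-- the handle `(c P, l (c P)ᵐ)` over an integral point `P`. -/
theorem loc2A_handle_pow_mem_Cone (S : Subring ℂ) (m : ℕ) (l : ℂ) {A : Mat n}
    (hA : A ∈ coneSLZ n) :
    snocH (fun _ _ => 1 : Tup 0 n) A (l • A ^ m) ∈ Cone S 1 n := by
  obtain ⟨c, P, hP, rfl⟩ := hA
  have hdet : (P.map (Int.cast : ℤ → ℂ)).det = 1 := by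
    have := (Int.castRingHom ℂ).map_det P
    rw [hP, map_one] at this
    exact this.symm
  have hu : IsUnit (P.map (Int.cast : ℤ → ℂ)).det := by rw [hdet]; exact isUnit_one
  have hPS : ∀ p q, (P.map (Int.cast : ℤ → ℂ)) p q ∈ S := fun p q => by
    rw [Matrix.map_apply]; exact intCast_mem S _
  have hpow : (P.map (Int.cast : ℤ → ℂ)) ^ m = (P ^ m).map (Int.cast : ℤ → ℂ) := by
    have := (Int.castRingHom ℂ).mapMatrix.map_pow P m
    exact this.symm
  have hPmS : ∀ p q, ((P.map (Int.cast : ℤ → ℂ)) ^ m) p q ∈ S := fun p q => by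
    rw [hpow, Matrix.map_apply]; exact intCast_mem S _
  have hdetm : ((P.map (Int.cast : ℤ → ℂ)) ^ m).det = 1 := by
    rw [det_pow, hdet, one_pow]
  have hum : IsUnit ((P.map (Int.cast : ℤ → ℂ)) ^ m).det := by rw [hdetm]; exact isUnit_one
  have hc : cm (P.map (Int.cast : ℤ → ℂ)) ((P.map (Int.cast : ℤ → ℂ)) ^ m) = 1 :=
    loc2A_cm_of_commute hu hum (Commute.self_pow _ m).eq
  have h0 : (fun _ _ => 1 : Tup 0 n) ∈ RS S 0 n :=
    ⟨⟨fun i => i.elim0, mu_zero _⟩, fun i => i.elim0⟩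
  refine ⟨_, slz_snocH_mem_RS S h0 hdet hdetm hc hPS hPmS,
    Fin.snoc (α := fun _ => Fin 2 → ℂ) (fun i => i.elim0) ![c, l * c ^ m], ?_⟩
  rw [← slz_snocH_scl (fun i => i.elim0) (fun _ _ => 1 : Tup 0 n) c (l * c ^ m)]
  congr 1
  · exact Subsingleton.elim _ _
  · rw [smul_pow, smul_smul]

/-- one handle `(A, l Aᵐ)`: for `A = c P`, `P ∈ SL_n(ℤ)` it is in the cone (`(P, Pᵐ)` is an integral point);
`A ↦ (A, l Aᵐ)` is polynomial and `ZCl_cone_SLZ`. -/
theorem handle_pow_mem_VC (S : Subring ℂ) (A : Mat n) (m : ℕ) (l : ℂ) :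
    snocH (fun _ _ => 1 : Tup 0 n) A (l • A ^ m) ∈ VC S 1 n := by
  have hΦ : PolyMap (fun A : Mat n => snocH (fun _ _ => 1 : Tup 0 n) A (l • A ^ m)) := by
    have h1 : PolyMap (fun A : Mat n => ((fun _ _ => 1 : Tup 0 n), (A, l • A ^ m))) :=
      (polyMap_const _).prodMk (polyMap_id.prodMk
        (PolyMap.smul (PolyFun.const l) (polyMap_id.matPow m)))
    exact (polyMap_linear (snocL 0 n).toLinearMap).comp h1
  have hA : A ∈ ZCl (coneSLZ n) := by
    have := ZCl_cone_SLZ n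
    change ZCl (coneSLZ n) = Set.univ at this
    rw [this]; exact Set.mem_univ _
  exact hΦ.maps_ZCl (A := coneSLZ n) (B := Cone S 1 n)
    (fun a ha => subset_ZCl _ (loc2A_handle_pow_mem_Cone S m l ha)) A hA

/-- `flow_lemma` with `P = Mat n`, `Mx A = A`, `Fam (A, z) = (A, z)`, `θ₀ = primeDiag n`. -/
theorem handle_pS_mem_VC (S : Subring ℂ) (A : Mat n) (s : Fin n → ℂ) :
    snocH (fun _ _ => 1 : Tup 0 n) A (pS s A) ∈ VC S 1 n := by
  have hFam : PolyMap (fun x : Mat n × Mat n => snocH (fun _ _ => 1 : Tup 0 n) x.1 x.2) := by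
    have h1 : PolyMap (fun x : Mat n × Mat n => ((fun _ _ => 1 : Tup 0 n), (x.1, x.2))) :=
      (polyMap_const _).prodMk ((PolyMap.fst polyMap_id).prodMk (PolyMap.snd polyMap_id))
    exact (polyMap_linear (snocL 0 n).toLinearMap).comp h1
  exact flow_lemma (Cone S 1 n) (fun A : Mat n => A) polyMap_id
    (fun x : Mat n × Mat n => snocH (fun _ _ => 1 : Tup 0 n) x.1 x.2) hFam
    (fun θ m l => handle_pow_mem_VC S θ m l) (primeDiag n) 1 one_ne_zero (one_smul _ _).symm A s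

/-- (`handle_pS_mem_VC`, `snocH_one_mem_VC`). -/
theorem beta2_mem_VC (S : Subring ℂ) (b : B2 n) : tup4 (beta2 b) ∈ VC S 2 n :=
  snocH_one_mem_VC S (handle_pS_mem_VC S b.1 b.2.1) b.2.2.1 b.2.2.2

/-- `b = (1, e0, 1, primeDiag n)`: `E = 1`, `Mx = primeDiag n`. -/
theorem beta2_gen (hn : 1 ≤ n) (K : ℕ) :
    ∃ b : B2 n, AllInv4 (beta2 b) ∧ Prp (primeDiag n) (mxK minv (kap2 K) (beta2 b)) := by
  refine ⟨(1, e0, 1, primeDiag n), ?_, 1, one_ne_zero, ?_⟩
  · unfold beta2 AllInv4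
    dsimp only
    rw [pS_e0 hn, one_smul]
    exact ⟨loc_allInv_one, by simp, by simp, by simp, isUnit_det_primeDiag n⟩
  · unfold mxK kap2 preK flMx lkE beta2 minv
    dsimp only
    rw [pS_e0 hn]
    simp

/-- both commutators are trivial. -/
theorem mu_beta2 {b : B2 n} (h : AllInv4 (beta2 b)) : mu (tup4 (beta2 b)) = 1 := by
  obtain ⟨-, h1, h2, h3, h4⟩ := h
  rw [mu_tup4, mu_zero, one_mul, loc2A_cm_of_commute h1 h2 (pS_mul_comm _ _).symm,
    loc2A_cm_of_commute h3 h4 (by simp [beta2]), one_mul]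

/-- the linking element at the base point is `Dg`. -/
theorem lkE_beta2_b20 (hn : 1 ≤ n) (k : ℕ) :
    lkE minv (preK (kap2 k) (beta2 (b20 n))) = primeDiag n := by
  have h : preK (kap2 k) (beta2 (b20 n)) = beta2 (b20 n) := rfl
  rw [h]
  unfold lkE beta2 b20 minv
  dsimp only
  rw [pS_e0 hn, Matrix.nonsing_inv_nonsing_inv _ (isUnit_det_primeDiag n)]
  simp

end Claimed.Agent.R236
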