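import Claimed.Agent.R236.Propag
import Claimed.Agent.R236.Deriv

/-!
# Row 236: analytic properties of the honest flows (F6) and the derivative of a staged composition of
flows at the trivial parameters (blueprint sections 3 and 10)
-/

namespace Claimed.Agent.R236

open Matrix Topology Filter

variable {g n : ℕ}

attribute [local instance] Matrix.linftyOpNormedRing Matrix.linftyOpNormedAlgebra

/-- (`Matrix.nonsing_inv_eq_ringInverse`, `contDiffAt_ringInverse`). -/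
theorem contDiffAt_minv {A : Mat n} (hA : IsUnit A.det) : ContDiffAt ℂ 1 (minv : Mat n → Mat n) A := by
  obtain ⟨u, rfl⟩ := (Matrix.isUnit_iff_isUnit_det A).mpr hA
  have e : (minv : Mat n → Mat n) = Ring.inverse := by
    funext x; exact nonsing_inv_eq_ringInverse x
  rw [e]
  exact contDiffAt_ringInverse ℂ u

theorem Moves3_eventually_det {X : Type*} [TopologicalSpace X] {f : X → Mat n} {x : X}
    (hf : ContinuousAt f x) (h : IsUnit (f x).det) : ∀ᶠ y in 𝓝 x, IsUnit (f y).det := by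
  have hc : ContinuousAt (fun y => (f y).det) x :=
    (Continuous.matrix_det continuous_id).continuousAt.comp hf
  filter_upwards [hc.eventually_ne (isUnit_iff_ne_zero.mp h)] with y hy
  exact isUnit_iff_ne_zero.mpr hy

theorem eventually_allInv4 {x : P4 g n} (hx : AllInv4 x) : ∀ᶠ y in 𝓝 x, AllInv4 y := by
  obtain ⟨h0, h1, h2, h3, h4⟩ := hx
  have e0' : ∀ᶠ y : P4 g n in 𝓝 x, AllInv y.1 := by
    unfold AllInv
    rw [eventually_all]
    intro i
    rw [eventually_all]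
    intro c
    have hc : Continuous fun y : P4 g n => y.1 i c :=
      (continuous_apply c).comp ((continuous_apply i).comp continuous_fst)
    exact Moves3_eventually_det hc.continuousAt (h0 i c)
  have c1 : Continuous fun y : P4 g n => y.2.1 := continuous_snd.fst
  have c2 : Continuous fun y : P4 g n => y.2.2.1 := continuous_snd.snd.fst
  have c3 : Continuous fun y : P4 g n => y.2.2.2.1 := continuous_snd.snd.snd.fst
  have c4 : Continuous fun y : P4 g n => y.2.2.2.2 := continuous_snd.snd.snd.snd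
  filter_upwards [e0', Moves3_eventually_det c1.continuousAt h1,
    Moves3_eventually_det c2.continuousAt h2, Moves3_eventually_det c3.continuousAt h3,
    Moves3_eventually_det c4.continuousAt h4] with y a b c d e
  exact ⟨a, b, c, d, e⟩

theorem Moves3_allInv4_preK (k : Bool × ℕ) {x : P4 g n} (hx : AllInv4 x) : AllInv4 (preK k x) := by
  unfold preK
  split_ifs
  · exact (psi_spec hx).1
  · exact hx

theorem Moves3_rel4 {x : P4 g n} (hx : AllInv4 x) : Rel4 PrpU x x :=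
  rel4_prpU hx (fun _ _ => Prp.refl _)

theorem isUnit_det_lkE {x : P4 g n} (hx : AllInv4 x) (k : Bool × ℕ) :
    IsUnit (lkE minv (preK k x)).det :=
  (linkRel_prpU.lkE (Moves3_rel4 (Moves3_allInv4_preK k hx))).1

/-! ### a small `C¹` calculus -/

section Calc

variable {E : Type*} [NormedAddCommGroup E] [NormedSpace ℂ E]

theorem Moves3_cd_minv {f : E → Mat n} {p : E} (hf : ContDiffAt ℂ 1 f p) (h : IsUnit (f p).det) :
    ContDiffAt ℂ 1 (fun v => minv (f v)) p :=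
  (contDiffAt_minv h).comp p hf

theorem Moves3_cd_lkE {Φ : E → P4 g n} {p : E} (hΦ : ContDiffAt ℂ 1 Φ p) (h : AllInv4 (Φ p)) :
    ContDiffAt ℂ 1 (fun v => lkE minv (Φ v)) p := by
  unfold lkE
  have hA1 : ContDiffAt ℂ 1 (fun v => (Φ v).2.1) p := hΦ.snd.fst
  have hB1 : ContDiffAt ℂ 1 (fun v => (Φ v).2.2.1) p := hΦ.snd.snd.fst
  have hA2 : ContDiffAt ℂ 1 (fun v => (Φ v).2.2.2.1) p := hΦ.snd.snd.snd.fst
  exact ((hB1.mul (Moves3_cd_minv hA1 h.2.1)).mul (Moves3_cd_minv hB1 h.2.2.1)).mul hA2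

theorem Moves3_cd_flMx (j : ℕ) {Φ : E → P4 g n} {p : E} (hΦ : ContDiffAt ℂ 1 Φ p)
    (h : AllInv4 (Φ p)) : ContDiffAt ℂ 1 (fun v => flMx minv j (Φ v)) p := by
  unfold flMx
  have hB2 : ContDiffAt ℂ 1 (fun v => (Φ v).2.2.2.2) p := hΦ.snd.snd.snd.snd
  exact hB2.mul ((Moves3_cd_minv (Moves3_cd_lkE hΦ h) (linkRel_prpU.lkE (Moves3_rel4 h)).1).pow j)

theorem Moves3_cd_flG (j : ℕ) {Φ : E → P4 g n} {ζ : E → Mat n} {p : E}
    (hΦ : ContDiffAt ℂ 1 Φ p) (hζ : ContDiffAt ℂ 1 ζ p) (h : AllInv4 (Φ p))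
    (hz : IsUnit (ζ p).det) : ContDiffAt ℂ 1 (fun v => flG minv j (Φ v) (ζ v)) p := by
  unfold flG
  have hE := Moves3_cd_lkE hΦ h
  have hu : IsUnit (lkE minv (Φ p) * ζ p).det := by
    rw [det_mul]
    exact (linkRel_prpU.lkE (Moves3_rel4 h)).1.mul hz
  exact ((Moves3_cd_minv (hE.mul hζ) hu).pow j).mul (hE.pow j)

theorem Moves3_cd_flow (j : ℕ) {Φ : E → P4 g n} {ζ : E → Mat n} {p : E}
    (hΦ : ContDiffAt ℂ 1 Φ p) (hζ : ContDiffAt ℂ 1 ζ p) (h : AllInv4 (Φ p))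
    (hz : IsUnit (ζ p).det) : ContDiffAt ℂ 1 (fun v => flow minv j (Φ v) (ζ v)) p := by
  have hE := Moves3_cd_lkE hΦ h
  have hEi := Moves3_cd_minv hE (linkRel_prpU.lkE (Moves3_rel4 h)).1
  have hG := Moves3_cd_flG j hΦ hζ h hz
  have hGu : IsUnit (flG minv j (Φ p) (ζ p)).det :=
    (linkRel_prpU.flG j (Moves3_rel4 h) (⟨hz, Prp.refl _⟩ : PrpU (ζ p) (ζ p))).1
  have hGi := Moves3_cd_minv hG hGu
  have hσ : ContDiffAt ℂ 1 (fun v => (Φ v).1) p := hΦ.fst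
  have hA1 : ContDiffAt ℂ 1 (fun v => (Φ v).2.1) p := hΦ.snd.fst
  have hB1 : ContDiffAt ℂ 1 (fun v => (Φ v).2.2.1) p := hΦ.snd.snd.fst
  have hA2 : ContDiffAt ℂ 1 (fun v => (Φ v).2.2.2.1) p := hΦ.snd.snd.snd.fst
  have hB2 : ContDiffAt ℂ 1 (fun v => (Φ v).2.2.2.2) p := hΦ.snd.snd.snd.snd
  unfold flow
  refine ContDiffAt.prodMk ?_ (ContDiffAt.prodMk ?_ (ContDiffAt.prodMk ?_
    (ContDiffAt.prodMk ?_ ?_)))
  · rw [contDiffAt_pi]
    intro i
    rw [contDiffAt_pi]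
    intro c
    exact (hGi.mul (contDiffAt_pi.1 (contDiffAt_pi.1 hσ i) c)).mul hG
  · exact (hGi.mul hA1).mul hG
  · exact hB1.mul hG
  · exact ((hA2.mul (hEi.pow j)).mul hζ).mul (hE.pow j)
  · exact hGi.mul hB2

theorem Moves3_cd_psi {Φ : E → P4 g n} {p : E} (hΦ : ContDiffAt ℂ 1 Φ p) :
    ContDiffAt ℂ 1 (fun v => psi (Φ v)) p := by
  unfold psi
  exact hΦ.fst.prodMk ((hΦ.snd.fst.mul hΦ.snd.snd.fst).prodMk (hΦ.snd.snd.fst.prodMk
    (hΦ.snd.snd.snd.fst.prodMk hΦ.snd.snd.snd.snd)))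

theorem Moves3_cd_psiInv {Φ : E → P4 g n} {p : E} (hΦ : ContDiffAt ℂ 1 Φ p)
    (h : IsUnit (Φ p).2.2.1.det) : ContDiffAt ℂ 1 (fun v => psiInv minv (Φ v)) p := by
  unfold psiInv
  exact hΦ.fst.prodMk ((hΦ.snd.fst.mul (Moves3_cd_minv hΦ.snd.snd.fst h)).prodMk
    (hΦ.snd.snd.fst.prodMk (hΦ.snd.snd.snd.fst.prodMk hΦ.snd.snd.snd.snd)))

theorem Moves3_cd_preK (k : Bool × ℕ) {Φ : E → P4 g n} {p : E} (hΦ : ContDiffAt ℂ 1 Φ p) :
    ContDiffAt ℂ 1 (fun v => preK k (Φ v)) p := by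
  unfold preK
  split_ifs
  · exact Moves3_cd_psi hΦ
  · exact hΦ

theorem Moves3_cd_mxK (k : Bool × ℕ) {Φ : E → P4 g n} {p : E} (hΦ : ContDiffAt ℂ 1 Φ p)
    (h : AllInv4 (Φ p)) : ContDiffAt ℂ 1 (fun v => mxK minv k (Φ v)) p := by
  unfold mxK
  exact Moves3_cd_flMx k.2 (Moves3_cd_preK k hΦ) (Moves3_allInv4_preK k h)

theorem Moves3_cd_flowK (k : Bool × ℕ) {Φ : E → P4 g n} {ζ : E → Mat n} {p : E}
    (hΦ : ContDiffAt ℂ 1 Φ p) (hζ : ContDiffAt ℂ 1 ζ p) (h : AllInv4 (Φ p))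
    (hz : IsUnit (ζ p).det) : ContDiffAt ℂ 1 (fun v => flowK minv k (Φ v) (ζ v)) p := by
  unfold flowK
  split_ifs
  · have hp := (psi_spec h).1
    refine Moves3_cd_psiInv (Moves3_cd_flow k.2 (Moves3_cd_psi hΦ) hζ hp hz) ?_
    exact (linkRel_prpU.flow k.2 (Moves3_rel4 hp) (⟨hz, Prp.refl _⟩ : PrpU (ζ p) (ζ p))).2.2.1.1
  · exact Moves3_cd_flow k.2 hΦ hζ h hz

theorem Moves3_cd_pS {σ : E → (Fin n → ℂ)} {f : E → Mat n} {p : E} (hσ : ContDiffAt ℂ 1 σ p)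
    (hf : ContDiffAt ℂ 1 f p) : ContDiffAt ℂ 1 (fun v => pS (σ v) (f v)) p := by
  unfold pS
  refine ContDiffAt.sum fun k _ => ?_
  exact (contDiffAt_pi.1 hσ k).smul (hf.pow _)

end Calc

theorem contDiffAt_mxK (k : Bool × ℕ) {x : P4 g n} (hx : AllInv4 x) :
    ContDiffAt ℂ 1 (fun y : P4 g n => mxK minv k y) x :=
  Moves3_cd_mxK k contDiffAt_id hx

theorem Moves3_cd_z (k : Bool × ℕ) {x : P4 g n} (hx : AllInv4 x) (s : Fin n → ℂ) :
    ContDiffAt ℂ 1 (fun p : P4 g n × (Fin n → ℂ) => pS p.2 (mxK minv k p.1)) (x, s) :=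
  Moves3_cd_pS contDiffAt_snd (Moves3_cd_mxK k contDiffAt_fst hx)

/-- (F6): all the inverses taken in `stepK minv k y s` are inverses of matrices that are invertible at
`(y, s) = (x, e0)` (where `z = 1`, `flG = 1`). -/
theorem contDiffAt_stepK (hn : 1 ≤ n) (k : Bool × ℕ) {x : P4 g n} (hx : AllInv4 x) :
    ContDiffAt ℂ 1 (fun p : P4 g n × (Fin n → ℂ) => stepK minv k p.1 p.2) (x, e0) := by
  unfold stepK
  refine Moves3_cd_flowK k contDiffAt_fst (Moves3_cd_z k hx e0) hx ?_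
  show IsUnit (pS e0 (mxK minv k x)).det
  rw [pS_e0 hn, det_one]
  exact isUnit_one

theorem eventually_isUnit_pS_mxK (hn : 1 ≤ n) (k : Bool × ℕ) {x : P4 g n} (hx : AllInv4 x) :
    ∀ᶠ p : P4 g n × (Fin n → ℂ) in 𝓝 (x, e0), IsUnit (pS p.2 (mxK minv k p.1)).det := by
  refine Moves3_eventually_det (Moves3_cd_z k hx e0).continuousAt ?_
  show IsUnit (pS e0 (mxK minv k x)).det
  rw [pS_e0 hn, det_one]
  exact isUnit_one

/-- `h p_s(M) h⁻¹ = p_s(h M h⁻¹)`. -/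
theorem pS_conj {h : Mat n} (hh : IsUnit h.det) (s : Fin n → ℂ) (M : Mat n) :
    h * pS s M * h⁻¹ = pS s (h * M * h⁻¹) := by
  obtain ⟨u, rfl⟩ := exists_unit_of_det hh
  unfold pS
  rw [Finset.mul_sum, Finset.sum_mul]
  refine Finset.sum_congr rfl fun k _ => ?_
  rw [← Matrix.coe_units_inv, Units.conj_pow, mul_smul_comm, smul_mul_assoc]

/-- `pS` is linear in `s`. -/
def pSL (M : Mat n) : (Fin n → ℂ) →ₗ[ℂ] Mat n where
  toFun s := pS s M
  map_add' s t := by simp [pS, add_smul, Finset.sum_add_distrib]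
  map_smul' c s := by simp [pS, mul_smul, Finset.smul_sum]

theorem Moves3_preK_B2 (k : Bool × ℕ) (x : P4 g n) : (preK k x).2.2.2.2 = x.2.2.2.2 := by
  unfold preK
  split_ifs <;> rfl

/-- (F3) simplified: `A₂ E⁻ʲ p_s(B₂ E⁻ʲ) Eʲ = A₂ p_s(E⁻ʲ B₂)`. -/
theorem stepK_A2' (k : Bool × ℕ) {x : P4 g n} (hx : AllInv4 x) (s : Fin n → ℂ) :
    (stepK minv k x s).2.2.2.1 =
      x.2.2.2.1 * pS s ((lkE minv (preK k x))⁻¹ ^ k.2 * x.2.2.2.2) := by
  rw [stepK_A2]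
  obtain ⟨u, hu⟩ := exists_unit_of_det (isUnit_det_lkE hx k)
  have hi' : (lkE minv (preK k x))⁻¹ ^ k.2 = ((u⁻¹ ^ k.2 : (Mat n)ˣ) : Mat n) := by
    rw [← hu, ← Matrix.coe_units_inv, ← Units.val_pow_eq_pow_val]
  have hi : minv (lkE minv (preK k x)) ^ k.2 = ((u⁻¹ ^ k.2 : (Mat n)ˣ) : Mat n) := hi'
  have hm : mxK minv k x = x.2.2.2.2 * ((u⁻¹ ^ k.2 : (Mat n)ˣ) : Mat n) := by
    unfold mxK flMx
    rw [Moves3_preK_B2, hi]
  have hp : lkE minv (preK k x) ^ k.2 = (((u⁻¹ ^ k.2 : (Mat n)ˣ) : Mat n))⁻¹ := by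
    rw [← hu, ← Matrix.coe_units_inv, inv_pow, inv_inv, Units.val_pow_eq_pow_val]
  rw [hm, hi, hp, hi', mul_assoc, mul_assoc, ← mul_assoc _ (pS s _),
    pS_conj (isUnit_det_unit _)]
  congr 2
  rw [← Matrix.coe_units_inv, mul_assoc, mul_assoc, ← Units.val_mul, mul_inv_cancel, Units.val_one,
    mul_one]

/-- transfer of neighbourhoods between `P4` and `Tup` (`tup4L` is a linear equivalence between finite
dimensional spaces, hence a homeomorphism). -/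
theorem eventually_tup4 {x : P4 g n} {Q : Tup (g + 2) n → Prop} :
    (∀ᶠ ρ in 𝓝 (tup4 x), Q ρ) ↔ ∀ᶠ y in 𝓝 x, Q (tup4 y) := by
  have h := (tup4L g n).toContinuousLinearEquiv.toHomeomorph.map_nhds_eq x
  have e : ((tup4L g n).toContinuousLinearEquiv.toHomeomorph : P4 g n → Tup (g + 2) n) = tup4 := rfl
  rw [e] at h
  rw [← h, eventually_map]

theorem hasStrictFDerivAt_mu_tup4 {x : P4 g n} (hx : AllInv4 x) :
    HasStrictFDerivAt (fun y : P4 g n => mu (tup4 y))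
      (LinearMap.toContinuousLinearMap ((dmuL (tup4 x)).comp (tup4L g n).toLinearMap)) x := by
  have h1 := hasStrictFDerivAt_mu (allInv_tup4.mpr hx)
  have h2 : HasStrictFDerivAt (tup4 : P4 g n → Tup (g + 2) n)
      (LinearMap.toContinuousLinearMap (tup4L g n).toLinearMap) x :=
    (LinearMap.toContinuousLinearMap (tup4L g n).toLinearMap).hasStrictFDerivAt
  refine (h1.comp x h2).congr_fderiv ?_
  refine ContinuousLinearMap.ext fun v => ?_
  rfl

/-- the derivative of a locally constant composition vanishes. -/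
theorem comp_eq_zero_of_eventually_const {E F P : Type*} [NormedAddCommGroup E] [NormedSpace ℂ E]
    [NormedAddCommGroup F] [NormedSpace ℂ F] [NormedAddCommGroup P] [NormedSpace ℂ P]
    {m : E → F} {L : E →L[ℂ] F} {Ψ : P → E} {Ψ' : P →L[ℂ] E} {p₀ : P} {c : F}
    (hm : HasStrictFDerivAt m L (Ψ p₀)) (hΨ : HasStrictFDerivAt Ψ Ψ' p₀)
    (hc : ∀ᶠ p in 𝓝 p₀, m (Ψ p) = c) (π : P) : L (Ψ' π) = 0 := by
  have h1 : HasFDerivAt (fun p => m (Ψ p)) (L.comp Ψ') p₀ := (hm.comp p₀ hΨ).hasFDerivAt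
  have h2 : HasFDerivAt (fun p => m (Ψ p)) (0 : P →L[ℂ] F) p₀ :=
    (hasFDerivAt_const c p₀).congr_of_eventuallyEq hc
  have h3 := h1.unique h2
  have h4 := DFunLike.congr_fun h3 π
  exact h4

end Claimed.Agent.R236
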