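import Claimed.Agent.R236.Loc2A
import Claimed.Agent.R236.Moves3
import Claimed.Agent.R236.Cyc2

/-!
# Row 236: `Loc(2)`: derivative of the base family, kernel of `dmu` at `base2` (blueprint section 10)
-/

namespace Claimed.Agent.R236

open Matrix Topology Filter

variable {n : ℕ}

attribute [local instance] Matrix.linftyOpNormedRing Matrix.linftyOpNormedAlgebra

/-- the derivative of `beta2` at `b20`, as a linear map. -/
noncomputable def dbeta2L (n : ℕ) : B2 n →ₗ[ℂ] P4 0 n where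
  toFun δ := (0, δ.1, pS δ.2.1 (primeDiag n)⁻¹, δ.2.2.1 • 1, δ.2.2.2)
  map_add' x y := by
    simp only [Prod.mk_add_mk, Prod.fst_add, Prod.snd_add, add_zero, add_smul, Prod.mk.injEq, true_and]
    exact ⟨(pSL _).map_add _ _, trivial⟩
  map_smul' c x := by
    simp only [Prod.smul_mk, Prod.smul_fst, Prod.smul_snd, smul_zero, RingHom.id_apply, Prod.mk.injEq,
      true_and, smul_eq_mul, mul_smul]
    exact ⟨(pSL _).map_smul _ _, trivial⟩

/-- one term of `p_s(A)`. -/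
theorem loc2B_term (k : Fin n) :
    HasStrictFDerivAt (fun b : B2 n => b.2.1 k • b.1 ^ (k : ℕ))
      (((ContinuousLinearMap.proj (R := ℂ) (φ := fun _ : Fin n => ℂ) k).comp
        ((ContinuousLinearMap.fst ℂ (Fin n → ℂ) (ℂ × Mat n)).comp
          (ContinuousLinearMap.snd ℂ (Mat n) ((Fin n → ℂ) × ℂ × Mat n)))).smulRight
            ((primeDiag n)⁻¹ ^ (k : ℕ))) (b20 n) := by
  have h1 : HasStrictFDerivAt (fun b : B2 n => b.2.1 k)
      ((ContinuousLinearMap.proj (R := ℂ) (φ := fun _ : Fin n => ℂ) k).comp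
        ((ContinuousLinearMap.fst ℂ (Fin n → ℂ) (ℂ × Mat n)).comp
          (ContinuousLinearMap.snd ℂ (Mat n) ((Fin n → ℂ) × ℂ × Mat n)))) (b20 n) :=
    ((ContinuousLinearMap.proj (R := ℂ) (φ := fun _ : Fin n => ℂ) k).comp
        ((ContinuousLinearMap.fst ℂ (Fin n → ℂ) (ℂ × Mat n)).comp
          (ContinuousLinearMap.snd ℂ (Mat n) ((Fin n → ℂ) × ℂ × Mat n)))).hasStrictFDerivAt
  by_cases hk : (k : ℕ) = 0
  · have h2 : HasStrictFDerivAt (fun _ : B2 n => (1 : Mat n)) (0 : B2 n →L[ℂ] Mat n) (b20 n) :=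
      hasStrictFDerivAt_const _ _
    have h3 := h1.smul h2
    have e : (fun b : B2 n => b.2.1 k • b.1 ^ (k : ℕ)) = fun b : B2 n => b.2.1 k • (1 : Mat n) := by
      funext b; rw [hk, pow_zero]
    rw [e, hk, pow_zero]
    refine h3.congr_fderiv ?_
    apply ContinuousLinearMap.ext
    intro δ
    change (b20 n).2.1 k • (0 : Mat n) + δ.2.1 k • (1 : Mat n) = δ.2.1 k • (1 : Mat n)
    rw [smul_zero, zero_add]
  · have hc : ContDiff ℂ 1 (fun b : B2 n => b.1 ^ (k : ℕ)) := contDiff_fst.pow _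
    have h2 : HasStrictFDerivAt (fun b : B2 n => b.1 ^ (k : ℕ))
        (fderiv ℂ (fun b : B2 n => b.1 ^ (k : ℕ)) (b20 n)) (b20 n) :=
      hc.contDiffAt.hasStrictFDerivAt one_ne_zero
    have h3 := h1.smul h2
    have he : (b20 n).2.1 k = 0 := by
      simp [b20, e0, hk]
    refine h3.congr_fderiv ?_
    apply ContinuousLinearMap.ext
    intro δ
    change (b20 n).2.1 k • (fderiv ℂ (fun b : B2 n => b.1 ^ (k : ℕ)) (b20 n) δ)
      + δ.2.1 k • (b20 n).1 ^ (k : ℕ) = δ.2.1 k • (primeDiag n)⁻¹ ^ (k : ℕ)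
    rw [he, zero_smul, zero_add]
    rfl

/-- `(A, s) ↦ ∑ s_k Aᵏ` at `(A₀, e0)`: the derivative is `(δA, δs) ↦ p_{δs}(A₀)` (the term `k = 0` does not
depend on `A`, the coefficients of the other terms vanish at `e0`). -/
theorem hasStrictFDerivAt_beta2 (hn : 1 ≤ n) :
    HasStrictFDerivAt (beta2 : B2 n → P4 0 n) (LinearMap.toContinuousLinearMap (dbeta2L n))
      (b20 n) := by
  have h0 : HasStrictFDerivAt (fun _ : B2 n => (fun _ _ => 1 : Tup 0 n)) (0 : B2 n →L[ℂ] Tup 0 n)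
      (b20 n) := hasStrictFDerivAt_const _ _
  have h1 : HasStrictFDerivAt (fun b : B2 n => b.1)
      (ContinuousLinearMap.fst ℂ (Mat n) ((Fin n → ℂ) × ℂ × Mat n)) (b20 n) :=
    (ContinuousLinearMap.fst ℂ (Mat n) ((Fin n → ℂ) × ℂ × Mat n)).hasStrictFDerivAt
  have h2 : HasStrictFDerivAt (fun b : B2 n => pS b.2.1 b.1)
      (∑ k : Fin n, ((ContinuousLinearMap.proj (R := ℂ) (φ := fun _ : Fin n => ℂ) k).comp
        ((ContinuousLinearMap.fst ℂ (Fin n → ℂ) (ℂ × Mat n)).comp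
          (ContinuousLinearMap.snd ℂ (Mat n) ((Fin n → ℂ) × ℂ × Mat n)))).smulRight
            ((primeDiag n)⁻¹ ^ (k : ℕ))) (b20 n) := by
    unfold pS
    exact HasStrictFDerivAt.fun_sum (fun k _ => loc2B_term k)
  have h3 : HasStrictFDerivAt (fun b : B2 n => b.2.2.1 • (1 : Mat n))
      (((ContinuousLinearMap.fst ℂ ℂ (Mat n)).comp
        ((ContinuousLinearMap.snd ℂ (Fin n → ℂ) (ℂ × Mat n)).comp
          (ContinuousLinearMap.snd ℂ (Mat n) ((Fin n → ℂ) × ℂ × Mat n)))).smulRight (1 : Mat n))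
      (b20 n) :=
    (((ContinuousLinearMap.fst ℂ ℂ (Mat n)).comp
        ((ContinuousLinearMap.snd ℂ (Fin n → ℂ) (ℂ × Mat n)).comp
          (ContinuousLinearMap.snd ℂ (Mat n) ((Fin n → ℂ) × ℂ × Mat n)))).smulRight
            (1 : Mat n)).hasStrictFDerivAt
  have h4 : HasStrictFDerivAt (fun b : B2 n => b.2.2.2)
      ((ContinuousLinearMap.snd ℂ ℂ (Mat n)).comp
        ((ContinuousLinearMap.snd ℂ (Fin n → ℂ) (ℂ × Mat n)).comp
          (ContinuousLinearMap.snd ℂ (Mat n) ((Fin n → ℂ) × ℂ × Mat n)))) (b20 n) :=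
    ((ContinuousLinearMap.snd ℂ ℂ (Mat n)).comp
        ((ContinuousLinearMap.snd ℂ (Fin n → ℂ) (ℂ × Mat n)).comp
          (ContinuousLinearMap.snd ℂ (Mat n) ((Fin n → ℂ) × ℂ × Mat n)))).hasStrictFDerivAt
  have h := h0.prodMk (h1.prodMk (h2.prodMk (h3.prodMk h4)))
  have e : LinearMap.toContinuousLinearMap (dbeta2L n) = (ContinuousLinearMap.prod 0
      ((ContinuousLinearMap.fst ℂ (Mat n) ((Fin n → ℂ) × ℂ × Mat n)).prod
        ((∑ k : Fin n, ((ContinuousLinearMap.proj (R := ℂ) (φ := fun _ : Fin n => ℂ) k).comp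
        ((ContinuousLinearMap.fst ℂ (Fin n → ℂ) (ℂ × Mat n)).comp
          (ContinuousLinearMap.snd ℂ (Mat n) ((Fin n → ℂ) × ℂ × Mat n)))).smulRight
            ((primeDiag n)⁻¹ ^ (k : ℕ))).prod
          ((((ContinuousLinearMap.fst ℂ ℂ (Mat n)).comp
        ((ContinuousLinearMap.snd ℂ (Fin n → ℂ) (ℂ × Mat n)).comp
          (ContinuousLinearMap.snd ℂ (Mat n) ((Fin n → ℂ) × ℂ × Mat n)))).smulRight
            (1 : Mat n)).prod
            ((ContinuousLinearMap.snd ℂ ℂ (Mat n)).comp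
        ((ContinuousLinearMap.snd ℂ (Fin n → ℂ) (ℂ × Mat n)).comp
          (ContinuousLinearMap.snd ℂ (Mat n) ((Fin n → ℂ) × ℂ × Mat n)))))))) := by
    apply ContinuousLinearMap.ext
    intro δ
    simp [dbeta2L, pS]
  rw [e]
  exact h

theorem loc2B_primeDiag_inv (n : ℕ) :
    (primeDiag n)⁻¹ = Matrix.diagonal fun i : Fin n => ((Nat.nth Nat.Prime (i : ℕ) : ℕ) : ℂ)⁻¹ := by
  apply Matrix.inv_eq_right_inv
  rw [primeDiag, Matrix.diagonal_mul_diagonal, ← Matrix.diagonal_one]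
  congr 1
  funext i
  apply mul_inv_cancel₀
  exact_mod_cast (Nat.prime_nth_prime (i : ℕ)).ne_zero

theorem loc2B_cycX_mul_diagonal (d : Fin n → ℂ) :
    cycX n * Matrix.diagonal d = Matrix.diagonal (fun i => d ((finRotate n).symm i)) * cycX n := by
  ext i j
  rw [Matrix.mul_diagonal, Matrix.diagonal_mul, loc_cycX_apply]
  split_ifs with h
  · rw [← h, Equiv.symm_apply_apply]; ring
  · ring

/-- the derivative of `mu` at `base2`. -/
theorem dmu_base2 (δ : P4 0 n) :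
    dmu (base2 n) (tup4 δ) =
      (primeDiag n)⁻¹ * δ.2.2.1 * primeDiag n - δ.2.2.1 +
        (δ.2.2.2.1 - cycX n * δ.2.2.2.1 * (cycX n)⁻¹) := by
  have hD := isUnit_det_primeDiag n
  have hX := isUnit_det_cycX n
  have hDi : IsUnit ((primeDiag n)⁻¹).det := loc_isUnit_det_inv hD
  rw [base2, tup4, dmu_snocH, dmu_snocH, mu_snocH, mu_zero, loc_cm_right_one hDi,
    loc_cm_left_one hX]
  have h0 : dmu (fun _ _ => 1 : Tup 0 n) δ.1 = 0 := rfl
  rw [h0]
  unfold dcm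
  have e1 : ((primeDiag n)⁻¹)⁻¹ = primeDiag n := Matrix.nonsing_inv_nonsing_inv _ hD
  have e2 : (primeDiag n)⁻¹ * primeDiag n = 1 := Matrix.nonsing_inv_mul _ hD
  have e3 : cycX n * (cycX n)⁻¹ = 1 := Matrix.mul_nonsing_inv _ hX
  rw [e1]
  simp only [inv_one, mul_one, one_mul, zero_add, e2, e3]
  rw [Matrix.mul_assoc δ.2.2.2.1 (cycX n), e3, mul_one]
  abel

/-- **kernel lemma.**  If `δA₂` is diagonal then `δA₂ - X δA₂ X⁻¹` is diagonal while
`Dg⁻¹ δB₁ Dg - δB₁` has zero diagonal and entries `(π_j / π_i - 1) δB₁ i j`: so `δB₁` is diagonal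
(`exists_pS_diagonal`) and `δA₂` is scalar. -/
theorem ker_dmu_base2 {δ : P4 0 n} (h : dmu (base2 n) (tup4 δ) = 0) {d : Fin n → ℂ}
    (hd : δ.2.2.2.1 = Matrix.diagonal d) : ∃ δb, dbeta2L n δb = δ := by
  have hX := isUnit_det_cycX n
  rw [dmu_base2, hd, loc2B_cycX_mul_diagonal, Matrix.mul_assoc (Matrix.diagonal _) (cycX n),
    Matrix.mul_nonsing_inv _ hX, mul_one, loc2B_primeDiag_inv, primeDiag] at h
  have hent : ∀ i j : Fin n, ((Nat.nth Nat.Prime (i : ℕ) : ℕ) : ℂ)⁻¹ * δ.2.2.1 i j *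
      ((Nat.nth Nat.Prime (j : ℕ) : ℕ) : ℂ) - δ.2.2.1 i j +
      ((Matrix.diagonal d : Mat n) i j
        - (Matrix.diagonal (fun i => d ((finRotate n).symm i)) : Mat n) i j) = 0 := by
    intro i j
    have := congrFun (congrFun h i) j
    simpa only [Matrix.add_apply, Matrix.sub_apply, Matrix.mul_diagonal, Matrix.diagonal_mul,
      Matrix.zero_apply] using this
  have hp : ∀ i : Fin n, ((Nat.nth Nat.Prime (i : ℕ) : ℕ) : ℂ) ≠ 0 := fun i => by
    exact_mod_cast (Nat.prime_nth_prime (i : ℕ)).ne_zero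
  have hinj : ∀ i j : Fin n, i ≠ j →
      ((Nat.nth Nat.Prime (j : ℕ) : ℕ) : ℂ) ≠ ((Nat.nth Nat.Prime (i : ℕ) : ℕ) : ℂ) := by
    intro i j hij h'
    have h'' : Nat.nth Nat.Prime (j : ℕ) = Nat.nth Nat.Prime (i : ℕ) := by exact_mod_cast h'
    have := Nat.nth_injective Nat.infinite_setOfPred_prime h''
    exact hij (Fin.ext this.symm)
  -- `δB₁` is diagonal
  have hoff : ∀ i j : Fin n, i ≠ j → δ.2.2.1 i j = 0 := by
    intro i j hij
    have h1 := hent i j
    rw [Matrix.diagonal_apply_ne _ hij, Matrix.diagonal_apply_ne _ hij, sub_zero, add_zero] at h1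
    have h2 : δ.2.2.1 i j * (((Nat.nth Nat.Prime (j : ℕ) : ℕ) : ℂ)
        - ((Nat.nth Nat.Prime (i : ℕ) : ℕ) : ℂ)) = 0 := by
      have := congrArg (fun z => ((Nat.nth Nat.Prime (i : ℕ) : ℕ) : ℂ) * z) h1
      simp only [mul_zero] at this
      rw [← this]
      field_simp [hp i]
    rcases mul_eq_zero.mp h2 with h4 | h4
    · exact h4
    · exact absurd (sub_eq_zero.mp h4) (hinj i j hij)
  have hB : δ.2.2.1 = Matrix.diagonal (fun i => δ.2.2.1 i i) := by
    ext i j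
    by_cases hij : i = j
    · subst hij; rw [Matrix.diagonal_apply_eq]
    · rw [Matrix.diagonal_apply_ne _ hij, hoff i j hij]
  -- `d` is rotation invariant
  have hdd : (fun i => d ((finRotate n).symm i)) = d := by
    funext i
    have h1 := hent i i
    rw [Matrix.diagonal_apply_eq, Matrix.diagonal_apply_eq] at h1
    have h2 : ((Nat.nth Nat.Prime (i : ℕ) : ℕ) : ℂ)⁻¹ * δ.2.2.1 i i *
      ((Nat.nth Nat.Prime (i : ℕ) : ℕ) : ℂ) = δ.2.2.1 i i := by
      field_simp [hp i]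
    rw [h2, sub_self, zero_add] at h1
    exact (sub_eq_zero.mp h1).symm
  obtain ⟨a, ha⟩ := scalar_of_commute_primeDiag_cycX (w := Matrix.diagonal d)
    (by rw [primeDiag, Matrix.diagonal_mul_diagonal, Matrix.diagonal_mul_diagonal]
        congr 1; funext i; ring)
    (by rw [loc2B_cycX_mul_diagonal, hdd])
  have hinj' : Function.Injective (fun i : Fin n => ((Nat.nth Nat.Prime (i : ℕ) : ℕ) : ℂ)⁻¹) := by
    intro i j hij
    by_contra hne
    exact hinj i j hne (inv_injective hij).symm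
  obtain ⟨s, hs⟩ := exists_pS_diagonal hinj' (fun i => δ.2.2.1 i i)
  refine ⟨(δ.2.1, s, a, δ.2.2.2.2), ?_⟩
  obtain ⟨δ0, δ1, δ2, δ3, δ4⟩ := δ
  simp only at hB hd hs
  simp only [dbeta2L, LinearMap.coe_mk, AddHom.coe_mk]
  rw [loc2B_primeDiag_inv, hs, ← hB, ← ha, ← hd]
  congr 1
  exact Subsingleton.elim _ _

end Claimed.Agent.R236
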