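import Claimed.Agent.R236.LocGA
import Claimed.Agent.R236.Core

/-!
# Row 236: local fullness `Loc(g+3)` at `base3 = (base1; 1, X)`, ambient trick (blueprint section 10)
-/

namespace Claimed.Agent.R236

open Matrix Topology Filter

variable {g n : ℕ}

attribute [local instance] Matrix.linftyOpNormedRing Matrix.linftyOpNormedAlgebra

/-- continuity of the projection to the first `g + 1` handles. -/
theorem locG_continuous_head (g n K : ℕ) :
    Continuous fun q : BG g n × (Fin K → Fin n → ℂ) => snocH q.1.1 q.1.2.1 q.1.2.2.1 := by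
  have h1 : Continuous fun x : Tup g n × Mat n × Mat n => snocH x.1 x.2.1 x.2.2 :=
    (snocL g n).toLinearMap.continuous_of_finiteDimensional
  have h2 : Continuous fun q : BG g n × (Fin K → Fin n → ℂ) => (q.1.1, q.1.2.1, q.1.2.2.1) := by
    fun_prop
  exact h1.comp h2

/-- **Loc(g+3).**  `Ψ q = fam minv (kapG n) (n + 1) (betaGL _ _ q.1) (embP e0 q.2)`, `Ψ'` from `fam_core`
(`β' = betaGL` as a continuous linear map).  `Ψ'` is onto: given `δ` take `δs` from `span_bG0 δ.A₂`; then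
`δ - Ψ' (0, δs)` has `A₂`-component `0`, so it is `betaGL (σ, A₁, B₁, 0, B₂) = Ψ' (_, 0)`.
`om_surj` with `U = {q | GoodRun … ∧ (snocH q.1.1 q.1.2.1 q.1.2.2.1 ∈ RC → … ∈ VC)}`
(`eventually_goodRun`; `hyp` pulled back by the continuous linear map `q ↦ snocH q.1.1 q.1.2.1 q.1.2.2.1`).
If `tup4 (Ψ q) ∈ RC` then `mu (snocH q.1.1 …) = 1` (`fam_mu_eq_one_iff`, `mu_betaGL`), so
`snocH q.1.1 … ∈ VC`, and `fam_minv_mem_VC` applies to the family `gamG q.1.1 q.1.2.1 q.1.2.2.1`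
(`polyMap_gamG`, `gamG_mem_VC`, `gamG_gen`).  Transfer by `eventually_tup4`. -/
theorem locG (hn : 1 ≤ n) (S : Subring ℂ) (g : ℕ)
    (hyp : ∀ᶠ ρ' in 𝓝 (base1 g n), ρ' ∈ RC (g + 2) n → ρ' ∈ VC S (g + 2) n) :
    ∀ᶠ ρ' in 𝓝 (base3 g n), ρ' ∈ RC (g + 3) n → ρ' ∈ VC S (g + 3) n := by
  have hx : AllInv4 (betaGL (g + 1) n (bG0 g n)) := allInv4_betaGL_bG0
  set β' : BG (g + 1) n →L[ℂ] P4 (g + 1) n := LinearMap.toContinuousLinearMap (betaGL (g + 1) n)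
    with hβ'
  have hβ : HasStrictFDerivAt (fun b : BG (g + 1) n => betaGL (g + 1) n b) β' (bG0 g n) :=
    β'.hasStrictFDerivAt
  obtain ⟨Ψ', hΨ, hb', hs'⟩ := fam_core hn (kapG n) (n + 1) hx
    (fun b : BG (g + 1) n => betaGL (g + 1) n b) β' (bG0 g n) hβ rfl
  -- surjectivity
  have hsurj : Function.Surjective Ψ' := by
    intro δ
    obtain ⟨δs, hδs⟩ := span_bG0 (g := g) δ.2.2.2.1
    set w : P4 (g + 1) n := δ - Ψ' (0, δs) with hw
    have hw0 : w.2.2.2.1 = 0 := by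
      have : w.2.2.2.1 = δ.2.2.2.1 - (Ψ' (0, δs)).2.2.2.1 := rfl
      rw [this, hs' δs, ← hδs, sub_self]
    have hw1 : w = β' (w.1, w.2.1, w.2.2.1, 0, w.2.2.2.2) := by
      have : β' (w.1, w.2.1, w.2.2.1, 0, w.2.2.2.2)
          = (w.1, w.2.1, w.2.2.1, (0 : ℂ) • (1 : Mat n), w.2.2.2.2) := rfl
      rw [this, zero_smul, ← hw0]
    refine ⟨((w.1, w.2.1, w.2.2.1, 0, w.2.2.2.2), δs), ?_⟩
    have hsplit : (((w.1, w.2.1, w.2.2.1, 0, w.2.2.2.2), δs) :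
        BG (g + 1) n × (Fin (n + 1) → Fin n → ℂ))
        = ((w.1, w.2.1, w.2.2.1, 0, w.2.2.2.2), 0) + (0, δs) := by
      simp
    have h3 : Ψ' ((w.1, w.2.1, w.2.2.1, 0, w.2.2.2.2), 0) = w := (hb' _).trans hw1.symm
    rw [hsplit, map_add, h3, hw, sub_add_cancel]
  -- the neighbourhood
  have hU : {q : BG (g + 1) n × (Fin (n + 1) → Fin n → ℂ) |
      GoodRun (kapG n) (n + 1) (betaGL (g + 1) n q.1) (embP e0 q.2) ∧
      (snocH q.1.1 q.1.2.1 q.1.2.2.1 ∈ RC (g + 2) n →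
        snocH q.1.1 q.1.2.1 q.1.2.2.1 ∈ VC S (g + 2) n)} ∈
      𝓝 ((bG0 g n, fun _ => e0) : BG (g + 1) n × (Fin (n + 1) → Fin n → ℂ)) := by
    have h1 := eventually_goodRun hn (kapG n) (n + 1) hx
      (fun b : BG (g + 1) n => betaGL (g + 1) n b) (bG0 g n) hβ.continuousAt rfl
    have h2 : ∀ᶠ q : BG (g + 1) n × (Fin (n + 1) → Fin n → ℂ) in 𝓝 (bG0 g n, fun _ => e0),
        snocH q.1.1 q.1.2.1 q.1.2.2.1 ∈ RC (g + 2) n →
        snocH q.1.1 q.1.2.1 q.1.2.2.1 ∈ VC S (g + 2) n :=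
      ((locG_continuous_head (g + 1) n (n + 1)).tendsto
        ((bG0 g n, fun _ => e0) : BG (g + 1) n × (Fin (n + 1) → Fin n → ℂ))).eventually hyp
    filter_upwards [h1, h2] with q a b
    exact ⟨a, b⟩
  have hopen := om_surj hΨ hsurj _ hU
  have hbase : fam minv (kapG n) (n + 1) (betaGL (g + 1) n (bG0 g n))
      (embP e0 (fun _ : Fin (n + 1) => e0)) = betaGL (g + 1) n (bG0 g n) :=
    fam_base hn (kapG n) (n + 1) hx
  simp only [hbase] at hopen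
  rw [← tup4_betaGL_bG0, eventually_tup4]
  filter_upwards [hopen] with y hy hRC
  obtain ⟨q, ⟨hgood, hV⟩, rfl⟩ := hy
  obtain ⟨⟨σ, A, B, c, B₂⟩, s⟩ := q
  have hmu1 : mu (tup4 (betaGL (g + 1) n (σ, A, B, c, B₂))) = 1 :=
    (fam_mu_eq_one_iff hgood).1 hRC.2
  have hmu2 : mu (snocH σ A B) = 1 := by
    rw [← hmu1]
    exact (mu_betaGL hgood.1).symm
  have hinv : AllInv (snocH σ A B) := allInv_snocH.2 ⟨hgood.1.1, hgood.1.2.1, hgood.1.2.2.1⟩
  have hVC : snocH σ A B ∈ VC S (g + 2) n := hV ⟨hinv, hmu2⟩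
  exact fam_minv_mem_VC hn S (β := gamG σ A B) (polyMap_gamG σ A B) (gamG_mem_VC S hVC) (kapG n)
    (fun K => gamG_gen hinv (kapG n K)) (K := n + 1) (b := (c, B₂)) (s := embP e0 s) hgood

end Claimed.Agent.R236
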