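import Claimed.Agent.R236.Propag
import Claimed.Agent.R236.Span

/-!
# Row 236: `Loc(g+3)`: the ambient base family, algebraic facts (blueprint section 10)
-/

namespace Claimed.Agent.R236

open Matrix Topology Filter

variable {g n : ℕ}

attribute [local instance] Matrix.linftyOpNormedRing Matrix.linftyOpNormedAlgebra

/-- ambient parameters `(σ, A₁, B₁, λ, B₂)`. -/
abbrev BG (g n : ℕ) := Tup g n × Mat n × Mat n × ℂ × Mat n

/-- the (linear) base family `(σ; A₁, B₁; λ, B₂)`. -/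
def betaGL (g n : ℕ) : BG g n →ₗ[ℂ] P4 g n where
  toFun b := (b.1, b.2.1, b.2.2.1, b.2.2.2.1 • 1, b.2.2.2.2)
  map_add' x y := by
    simp only [Prod.mk_add_mk, Prod.fst_add, Prod.snd_add, add_smul]
  map_smul' c x := by
    simp only [Prod.smul_mk, Prod.smul_fst, Prod.smul_snd, RingHom.id_apply, smul_eq_mul, mul_smul]

/-- the base parameter. -/
noncomputable def bG0 (g n : ℕ) : BG (g + 1) n :=
  (snocH (fun _ _ => 1) (cycX n)⁻¹ (primeDiag n)⁻¹, (primeDiag n)⁻¹, (cycX n)⁻¹, 1, cycX n)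

/-- the stages: `Fl_0, …, Fl_{n-1}`, then `ψ⁻¹ Fl_1 ψ`. -/
def kapG (n : ℕ) : ℕ → Bool × ℕ := fun k => if k < n then (false, k) else (true, 1)

/-- the family with the first `g + 1` handles fixed. -/
def gamG (σ : Tup g n) (A B : Mat n) (c : ℂ × Mat n) : P4 g n := (σ, A, B, c.1 • 1, c.2)

/-- explicit form of the base point. -/
theorem locGA_betaGL_bG0 : betaGL (g + 1) n (bG0 g n) =
    (snocH (fun _ _ => 1) (cycX n)⁻¹ (primeDiag n)⁻¹, (primeDiag n)⁻¹, (cycX n)⁻¹, 1, cycX n) := by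
  show (_, _, _, (1 : ℂ) • (1 : Mat n), _) = _
  rw [one_smul]
  rfl

theorem locGA_isUnit_det_inv {A : Mat n} (h : IsUnit A.det) : IsUnit (A⁻¹).det :=
  (Matrix.isUnit_nonsing_inv_det_iff).2 h

theorem tup4_betaGL_bG0 : tup4 (betaGL (g + 1) n (bG0 g n)) = base3 g n := by
  rw [locGA_betaGL_bG0]
  rfl

theorem allInv4_betaGL_bG0 : AllInv4 (betaGL (g + 1) n (bG0 g n)) := by
  rw [locGA_betaGL_bG0]
  refine ⟨?_, locGA_isUnit_det_inv (isUnit_det_primeDiag n),
    locGA_isUnit_det_inv (isUnit_det_cycX n), ?_, isUnit_det_cycX n⟩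
  · exact loc_allInv_snocH loc_allInv_one (locGA_isUnit_det_inv (isUnit_det_cycX n))
      (locGA_isUnit_det_inv (isUnit_det_primeDiag n))
  · show IsUnit (1 : Mat n).det
    rw [det_one]
    exact isUnit_one

theorem polyMap_gamG (σ : Tup g n) (A B : Mat n) : PolyMap (gamG σ A B) := by
  have h1 : PolyMap (fun c : ℂ × Mat n => c.1 • (1 : Mat n)) :=
    PolyMap.smul (polyMap_iff_polyFun.1 (PolyMap.fst polyMap_id)) (polyMap_const _)
  exact (polyMap_const σ).prodMk ((polyMap_const A).prodMk ((polyMap_const B).prodMk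
    (h1.prodMk (PolyMap.snd polyMap_id))))

/-- (`snocH_one_mem_VC`). -/
theorem gamG_mem_VC (S : Subring ℂ) {σ : Tup g n} {A B : Mat n}
    (h : snocH σ A B ∈ VC S (g + 1) n) (c : ℂ × Mat n) : tup4 (gamG σ A B c) ∈ VC S (g + 2) n :=
  snocH_one_mem_VC S h c.1 c.2

theorem locGA_isUnit_det_lkE {x : P4 g n} (h : AllInv4 x) : IsUnit (lkE minv x).det := by
  obtain ⟨-, h1, h2, h3, -⟩ := h
  unfold lkE minv
  rw [det_mul, det_mul, det_mul]
  exact ((h2.mul (locGA_isUnit_det_inv h1)).mul (locGA_isUnit_det_inv h2)).mul h3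

theorem locGA_allInv4_preK {x : P4 g n} (h : AllInv4 x) (k : Bool × ℕ) : AllInv4 (preK k x) := by
  unfold preK
  split
  · obtain ⟨h0, h1, h2, h3, h4⟩ := h
    refine ⟨h0, ?_, h2, h3, h4⟩
    show IsUnit (x.2.1 * x.2.2.1).det
    rw [det_mul]
    exact h1.mul h2
  · exact h

/-- `c = (1, primeDiag n * Eʲ)` with `E = lkE minv (preK k (σ, A, B, 1, _))` (which does not depend on the
last block): `Mx = B₂ E⁻ʲ = primeDiag n`. -/
theorem gamG_gen {σ : Tup g n} {A B : Mat n} (h : AllInv (snocH σ A B)) (k : Bool × ℕ) :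
    ∃ c, AllInv4 (gamG σ A B c) ∧ Prp (primeDiag n) (mxK minv k (gamG σ A B c)) := by
  rw [allInv_snocH] at h
  obtain ⟨h0, hA, hB⟩ := h
  have hone : IsUnit ((1 : ℂ) • (1 : Mat n)).det := by
    rw [one_smul, det_one]; exact isUnit_one
  have hx0 : AllInv4 (gamG σ A B (1, 1)) := by
    refine ⟨h0, hA, hB, hone, ?_⟩
    show IsUnit (1 : Mat n).det
    rw [det_one]; exact isUnit_one
  set E : Mat n := lkE minv (preK k (gamG σ A B (1, 1))) with hE
  have hEu : IsUnit E.det := locGA_isUnit_det_lkE (locGA_allInv4_preK hx0 k)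
  have hEind : ∀ C : Mat n, lkE minv (preK k (gamG σ A B (1, C))) = E := by
    intro C
    rw [hE]
    unfold preK
    split <;> rfl
  have hlast : ∀ C : Mat n, (preK k (gamG σ A B (1, C))).2.2.2.2 = C := by
    intro C
    unfold preK
    split <;> rfl
  refine ⟨(1, primeDiag n * E ^ k.2), ⟨h0, hA, hB, hone, ?_⟩, 1, one_ne_zero, ?_⟩
  · show IsUnit (primeDiag n * E ^ k.2).det
    rw [det_mul, det_pow]
    exact (isUnit_det_primeDiag n).mul (hEu.pow _)
  · rw [one_smul]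
    unfold mxK flMx
    rw [hEind, hlast]
    show primeDiag n * E ^ k.2 * E⁻¹ ^ k.2 = primeDiag n
    rw [mul_assoc, ← (Commute.mul_pow (show Commute E E⁻¹ by
      rw [Commute, SemiconjBy, mul_nonsing_inv _ hEu, nonsing_inv_mul _ hEu])),
      mul_nonsing_inv _ hEu, one_pow, mul_one]

/-- the last commutator is trivial. -/
theorem mu_betaGL {b : BG g n} (h : AllInv4 (betaGL g n b)) :
    mu (tup4 (betaGL g n b)) = mu (snocH b.1 b.2.1 b.2.2.1) := by
  obtain ⟨-, -, -, h3, h4⟩ := h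
  change IsUnit (b.2.2.2.1 • (1 : Mat n)).det at h3
  change IsUnit (b.2.2.2.2).det at h4
  unfold tup4
  rw [mu_snocH]
  show mu (snocH b.1 b.2.1 b.2.2.1) * cm (b.2.2.2.1 • (1 : Mat n)) b.2.2.2.2 = _
  have : cm (b.2.2.2.1 • (1 : Mat n)) b.2.2.2.2 = 1 := by
    unfold cm
    have hc : (b.2.2.2.1 • (1 : Mat n)) * b.2.2.2.2 = b.2.2.2.2 * (b.2.2.2.1 • (1 : Mat n)) := by
      rw [smul_mul_assoc, mul_smul_comm, one_mul, mul_one]
    rw [hc, mul_assoc b.2.2.2.2, mul_nonsing_inv _ h3, mul_one, mul_nonsing_inv _ h4]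
  rw [this, mul_one]

/-- the linking element at the base point, unconjugated flows: `E₀ = X⁻¹ Dg X`. -/
theorem lkE_bG0_false (j : ℕ) :
    lkE minv (preK (false, j) (betaGL (g + 1) n (bG0 g n))) =
      (cycX n)⁻¹ * primeDiag n * cycX n := by
  rw [locGA_betaGL_bG0]
  show (cycX n)⁻¹ * ((primeDiag n)⁻¹)⁻¹ * ((cycX n)⁻¹)⁻¹ * 1 = _
  rw [nonsing_inv_nonsing_inv _ (isUnit_det_primeDiag n),
    nonsing_inv_nonsing_inv _ (isUnit_det_cycX n), mul_one]

/-- the linking element at the base point, `ψ`-conjugated flow: `E' = Dg X`. -/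
theorem lkE_bG0_true (j : ℕ) :
    lkE minv (preK (true, j) (betaGL (g + 1) n (bG0 g n))) = primeDiag n * cycX n := by
  rw [locGA_betaGL_bG0]
  show (cycX n)⁻¹ * ((primeDiag n)⁻¹ * (cycX n)⁻¹)⁻¹ * ((cycX n)⁻¹)⁻¹ * 1 = _
  rw [Matrix.mul_inv_rev, nonsing_inv_nonsing_inv _ (isUnit_det_primeDiag n),
    nonsing_inv_nonsing_inv _ (isUnit_det_cycX n), mul_one, ← mul_assoc,
    nonsing_inv_mul _ (isUnit_det_cycX n), one_mul]

theorem locGA_conj_inv_pow (j : ℕ) :
    ((cycX n)⁻¹ * primeDiag n * cycX n)⁻¹ ^ j = (cycX n)⁻¹ * (primeDiag n)⁻¹ ^ j * cycX n := by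
  have hX := isUnit_det_cycX n
  have h1 : ((cycX n)⁻¹ * primeDiag n * cycX n)⁻¹ = (cycX n)⁻¹ * (primeDiag n)⁻¹ * cycX n := by
    rw [Matrix.mul_inv_rev, Matrix.mul_inv_rev, nonsing_inv_nonsing_inv _ hX, mul_assoc]
  rw [h1]
  induction j with
  | zero => rw [pow_zero, pow_zero, mul_one, nonsing_inv_mul _ hX]
  | succ j ih =>
    rw [pow_succ, ih, pow_succ]
    calc (cycX n)⁻¹ * (primeDiag n)⁻¹ ^ j * cycX n * ((cycX n)⁻¹ * (primeDiag n)⁻¹ * cycX n)
        = (cycX n)⁻¹ * (primeDiag n)⁻¹ ^ j * (cycX n * (cycX n)⁻¹) * (primeDiag n)⁻¹ * cycX n := by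
          simp only [mul_assoc]
      _ = _ := by rw [mul_nonsing_inv _ hX, mul_one]; simp only [mul_assoc]

/-- the `A₂`-components of the flow directions span everything: rewrite the sum over `Fin (n + 1)` by
`Fin.sum_univ_castSucc`, use `lkE_bG0_false`, `lkE_bG0_true` and `span_locG`. -/
theorem span_bG0 (M : Mat n) : ∃ δs : Fin (n + 1) → Fin n → ℂ,
    M = ∑ k : Fin (n + 1), (betaGL (g + 1) n (bG0 g n)).2.2.2.1 *
      pS (δs k) ((lkE minv (preK (kapG n k) (betaGL (g + 1) n (bG0 g n))))⁻¹ ^ (kapG n k).2 *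
        (betaGL (g + 1) n (bG0 g n)).2.2.2.2) := by
  obtain ⟨s', s, hM⟩ := span_locG M
  refine ⟨Fin.snoc (α := fun _ => Fin n → ℂ) s s', ?_⟩
  have hA2 : (betaGL (g + 1) n (bG0 g n)).2.2.2.1 = 1 := by rw [locGA_betaGL_bG0]
  have hB2 : (betaGL (g + 1) n (bG0 g n)).2.2.2.2 = cycX n := by rw [locGA_betaGL_bG0]
  rw [Fin.sum_univ_castSucc, hA2, hB2]
  have hlast : kapG n ((Fin.last n : Fin (n + 1)) : ℕ) = (true, 1) := by
    unfold kapG
    rw [if_neg (by simp)]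
  have hcast : ∀ k : Fin n, kapG n ((k.castSucc : Fin (n + 1)) : ℕ) = (false, (k : ℕ)) := by
    intro k
    unfold kapG
    rw [if_pos (by simp)]
    rfl
  rw [hlast, lkE_bG0_true, Fin.snoc_last]
  simp only [hcast, lkE_bG0_false, Fin.snoc_castSucc, one_mul, locGA_conj_inv_pow, pow_one]
  rw [Matrix.mul_inv_rev, hM, add_comm]

end Claimed.Agent.R236
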