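import Claimed.Agent.R236.Blocks

/-!
# Row 236: semisimplification (blueprint section 12, (T))
-/

namespace Claimed.Agent.R236

open Matrix

variable {g n : ℕ}

/-- the `GL_n`-orbit. -/
def orbit (ρ : Tup g n) : Set (Tup g n) := {ρ' | ∃ h : Mat n, IsUnit h.det ∧ ρ' = conjT h ρ}

/-- Schur's lemma: an eigenspace of a commuting matrix is invariant. -/
theorem IsIrr.isSchur (hn : 1 ≤ n) {ρ : Tup g n} (h : IsIrr ρ) : IsSchur ρ := by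
  intro w hw
  have : Nonempty (Fin n) := ⟨⟨0, by omega⟩⟩
  have : Nontrivial (Fin n → ℂ) := inferInstance
  obtain ⟨a, ha⟩ := Module.End.exists_eigenvalue (Matrix.toLin' w)
  have hU : ∀ i c, ∀ v ∈ Module.End.eigenspace (Matrix.toLin' w) a,
      ρ i c *ᵥ v ∈ Module.End.eigenspace (Matrix.toLin' w) a := by
    intro i c v hv
    rw [Module.End.mem_eigenspace_iff] at hv ⊢
    rw [Matrix.toLin'_apply] at hv ⊢
    rw [Matrix.mulVec_mulVec, hw i c, ← Matrix.mulVec_mulVec, hv, Matrix.mulVec_smul]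
  rcases h _ hU with h0 | h1
  · exact absurd h0 ha
  · refine ⟨a, ?_⟩
    apply Matrix.toLin'.injective
    apply LinearMap.ext
    intro v
    have hv : v ∈ Module.End.eigenspace (Matrix.toLin' w) a := by rw [h1]; trivial
    rw [Module.End.mem_eigenspace_iff] at hv
    rw [hv]
    simp

theorem ssp_exists_tri {n₁ n₂ : ℕ} (ρ : Tup g (n₁ + n₂)) (U : Submodule ℂ (Fin (n₁ + n₂) → ℂ))
    (hU : ∀ i c, ∀ v ∈ U, ρ i c *ᵥ v ∈ U) (hr : Module.finrank ℂ U = n₁) :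
    ∃ (ρ₁ : Tup g n₁) (β : Fin g → Fin 2 → Matrix (Fin n₁) (Fin n₂) ℂ) (ρ₂ : Tup g n₂),
      tri ρ₁ β ρ₂ ∈ orbit ρ := by
  obtain ⟨W, hW⟩ := Submodule.exists_isCompl U
  have hrW : Module.finrank ℂ W = n₂ := by
    have h1 := Submodule.finrank_add_eq_of_isCompl hW
    rw [hr, Module.finrank_fin_fun] at h1
    omega
  let bU := Module.finBasisOfFinrankEq ℂ U hr
  let bW := Module.finBasisOfFinrankEq ℂ W hrW
  let b : Module.Basis (Fin (n₁ + n₂)) ℂ (Fin (n₁ + n₂) → ℂ) :=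
    ((bU.prod bW).map (Submodule.prodEquivOfIsCompl U W hW)).reindex finSumFinEquiv
  let e := Pi.basisFun ℂ (Fin (n₁ + n₂))
  have hb_inl : ∀ j' : Fin n₁, b (finSumFinEquiv (Sum.inl j')) ∈ U := by
    intro j'
    simp [b]
  have hrepr : ∀ u ∈ U, ∀ i' : Fin n₂, b.repr u (finSumFinEquiv (Sum.inr i')) = 0 := by
    intro u hu i'
    have h1 : (Submodule.prodEquivOfIsCompl U W hW).symm u = ((⟨u, hu⟩ : U), (0 : W)) :=
      Submodule.prodEquivOfIsCompl_symm_apply_left U W hW ⟨u, hu⟩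
    simp [b, h1]
  have hPQ : b.toMatrix e * e.toMatrix b = 1 := Module.Basis.toMatrix_mul_toMatrix_flip b e
  have hinv : (b.toMatrix e)⁻¹ = e.toMatrix b := Matrix.inv_eq_right_inv hPQ
  have hdet : IsUnit (b.toMatrix e).det := by
    have := congrArg Matrix.det hPQ
    rw [Matrix.det_mul, Matrix.det_one] at this
    exact IsUnit.of_mul_eq_one _ this
  have hM : ∀ i c, b.toMatrix e * ρ i c * (b.toMatrix e)⁻¹ =
      LinearMap.toMatrix b b (Matrix.toLin' (ρ i c)) := by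
    intro i c
    rw [hinv, ← basis_toMatrix_mul_linearMap_toMatrix_mul_basis_toMatrix b e b e,
      LinearMap.toMatrix_eq_toMatrix', LinearMap.toMatrix'_toLin']
  let N : Fin g → Fin 2 → Matrix (Fin n₁ ⊕ Fin n₂) (Fin n₁ ⊕ Fin n₂) ℂ := fun i c =>
    (Matrix.reindex finSumFinEquiv finSumFinEquiv).symm
      (LinearMap.toMatrix b b (Matrix.toLin' (ρ i c)))
  have hN21 : ∀ i c, (N i c).toBlocks₂₁ = 0 := by
    intro i c
    ext p q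
    show LinearMap.toMatrix b b (Matrix.toLin' (ρ i c)) (finSumFinEquiv (Sum.inr p))
      (finSumFinEquiv (Sum.inl q)) = 0
    rw [LinearMap.toMatrix_apply]
    apply hrepr
    rw [Matrix.toLin'_apply]
    exact hU i c _ (hb_inl q)
  refine ⟨fun i c => (N i c).toBlocks₁₁, fun i c => (N i c).toBlocks₁₂,
    fun i c => (N i c).toBlocks₂₂, b.toMatrix e, hdet, ?_⟩
  funext i c
  show blk (N i c).toBlocks₁₁ (N i c).toBlocks₁₂ 0 (N i c).toBlocks₂₂ =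
    b.toMatrix e * ρ i c * (b.toMatrix e)⁻¹
  rw [hM, ← hN21 i c, blk, Matrix.fromBlocks_toBlocks]
  exact Equiv.apply_symm_apply _ _

/-- a reducible tuple is conjugate to a block upper triangular one (basis adapted to an invariant
subspace). -/
theorem exists_tri_of_not_isIrr {ρ : Tup g n} (h : ¬ IsIrr ρ) :
    ∃ (n₁ n₂ : ℕ) (e : n = n₁ + n₂), 1 ≤ n₁ ∧ 1 ≤ n₂ ∧
      ∃ (ρ₁ : Tup g n₁) (β : Fin g → Fin 2 → Matrix (Fin n₁) (Fin n₂) ℂ) (ρ₂ : Tup g n₂),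
        tri ρ₁ β ρ₂ ∈ orbit (e ▸ ρ) := by
  unfold IsIrr at h
  push Not at h
  obtain ⟨U, hU, hbot, htop⟩ := h
  obtain ⟨n₁, hn₁⟩ : ∃ n₁, Module.finrank ℂ U = n₁ := ⟨_, rfl⟩
  have hlt : n₁ < n := by
    rw [← hn₁]
    have := Submodule.finrank_lt htop
    rwa [Module.finrank_fin_fun] at this
  have hpos : 1 ≤ n₁ := by
    rw [← hn₁]
    by_contra hcon
    have h0 : Module.finrank ℂ U = 0 := by omega
    exact hbot (Submodule.finrank_eq_zero.1 h0)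
  obtain ⟨n₂, rfl⟩ := Nat.exists_eq_add_of_le (le_of_lt hlt)
  exact ⟨n₁, n₂, rfl, hpos, by omega, ssp_exists_tri ρ U hU hn₁⟩

theorem ssp_mem_orbit_self (ρ : Tup g n) : ρ ∈ orbit ρ :=
  ⟨1, by simp, by funext i c; simp [conjT]⟩

theorem orbit_subset_RC {ρ : Tup g n} (h : ρ ∈ RC g n) : orbit ρ ⊆ RC g n := by
  rintro ρ' ⟨k, hk, rfl⟩
  refine ⟨fun i c => ?_, ?_⟩
  · show IsUnit (k * ρ i c * k⁻¹).det
    rw [Matrix.det_conj ((Matrix.isUnit_iff_isUnit_det k).2 hk)]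
    exact h.1 i c
  · rw [mu_conj hk, h.2, Matrix.mul_one, Matrix.mul_nonsing_inv k hk]

/-- conjugation as a linear map. -/
noncomputable def ssp_conjL (h : Mat n) : Tup g n →ₗ[ℂ] Tup g n where
  toFun := conjT h
  map_add' x y := by
    funext i c
    simp [conjT, Matrix.mul_add, Matrix.add_mul]
  map_smul' t x := by
    funext i c
    simp [conjT]

theorem ssp_conjT_conjT (h k : Mat n) (ρ : Tup g n) : conjT h (conjT k ρ) = conjT (h * k) ρ := by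
  funext i c
  simp only [conjT, Matrix.mul_inv_rev, Matrix.mul_assoc]

theorem ssp_conjT_mem_ZCl_orbit {ρ ρ' : Tup g n} (h : ρ' ∈ ZCl (orbit ρ)) {k : Mat n}
    (hk : IsUnit k.det) : conjT k ρ' ∈ ZCl (orbit ρ) := by
  refine PolyMap.maps_ZCl (Φ := fun x => ssp_conjL k x) (polyMap_linear (ssp_conjL k))
    (A := orbit ρ) (B := orbit ρ) ?_ ρ' h
  rintro a ⟨m, hm, rfl⟩
  apply subset_ZCl
  refine ⟨k * m, ?_, ssp_conjT_conjT k m ρ⟩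
  rw [Matrix.det_mul]
  exact hk.mul hm

/-- orbit closures are stable under conjugation, so `ρ' ∈ ZCl (orbit ρ)` implies
`ZCl (orbit ρ') ⊆ ZCl (orbit ρ)`. -/
theorem ZCl_orbit_subset {ρ ρ' : Tup g n} (h : ρ' ∈ ZCl (orbit ρ)) :
    ZCl (orbit ρ') ⊆ ZCl (orbit ρ) := by
  have h1 : orbit ρ' ⊆ ZCl (orbit ρ) := by
    rintro a ⟨k, hk, rfl⟩
    exact ssp_conjT_mem_ZCl_orbit h hk
  calc ZCl (orbit ρ') ⊆ ZCl (ZCl (orbit ρ)) := ZCl_mono h1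
    _ = ZCl (orbit ρ) := ZCl_idem _

theorem ssp_tri_smul_mem_orbit {n₁ n₂ : ℕ} (ρ₁ : Tup g n₁)
    (β : Fin g → Fin 2 → Matrix (Fin n₁) (Fin n₂) ℂ) (ρ₂ : Tup g n₂) {θ : ℂ} (hθ : θ ≠ 0) :
    tri ρ₁ (θ • β) ρ₂ ∈ orbit (tri ρ₁ β ρ₂) := by
  have h1 : IsUnit ((θ • (1 : Mat n₁))).det := by
    rw [det_smul, det_one, mul_one]
    exact (isUnit_iff_ne_zero.mpr hθ).pow _
  have h2 : IsUnit ((1 : Mat n₂)).det := by simp
  refine ⟨blk (θ • 1) 0 0 1, ?_, ?_⟩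
  · rw [det_blk_tri]
    exact h1.mul h2
  · funext i c
    show blk (ρ₁ i c) (θ • β i c) 0 (ρ₂ i c) =
      blk (θ • 1) 0 0 1 * blk (ρ₁ i c) (β i c) 0 (ρ₂ i c) * (blk (θ • 1) 0 0 1)⁻¹
    rw [blk_diag_inv h1 h2, blk_mul, blk_mul, inv_smul_ne_zero _ hθ]
    simp [smul_smul, hθ]

theorem ssp_polyMap_tri {n₁ n₂ : ℕ} (ρ₁ : Tup g n₁)
    (β : Fin g → Fin 2 → Matrix (Fin n₁) (Fin n₂) ℂ) (ρ₂ : Tup g n₂) :
    PolyMap fun θ : ℂ => tri ρ₁ (θ • β) ρ₂ := by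
  have h : (fun θ : ℂ => tri ρ₁ (θ • β) ρ₂) =
      fun θ : ℂ => dsum ρ₁ ρ₂ + θ • tri (0 : Tup g n₁) β (0 : Tup g n₂) := by
    funext θ i c
    show blk (ρ₁ i c) (θ • β i c) 0 (ρ₂ i c) =
      blk (ρ₁ i c) 0 0 (ρ₂ i c) + θ • blk 0 (β i c) 0 0
    rw [← blk_smul, ← blk_add]
    simp
  rw [h]
  exact PolyMap.add (polyMap_const _) (PolyMap.smul (PolyFun.linear LinearMap.id) (polyMap_const _))

/-- conjugating by `blk 1 0 0 t` scales `β` by `t⁻¹` (or `t`); let the parameter go to `0` (`ZCl_curve`). -/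
theorem dsum_mem_ZCl_orbit_tri {n₁ n₂ : ℕ} (ρ₁ : Tup g n₁)
    (β : Fin g → Fin 2 → Matrix (Fin n₁) (Fin n₂) ℂ) (ρ₂ : Tup g n₂) :
    dsum ρ₁ ρ₂ ∈ ZCl (orbit (tri ρ₁ β ρ₂)) := by
  have h := ZCl_curve (ssp_polyMap_tri ρ₁ β ρ₂) (A := orbit (tri ρ₁ β ρ₂)) ?_ 0
  · simpa [dsum] using h
  · apply Set.Infinite.mono (s := {θ : ℂ | θ ≠ 0})
    · intro θ hθ
      exact subset_ZCl _ (ssp_tri_smul_mem_orbit ρ₁ β ρ₂ hθ)
    · have : ({θ : ℂ | θ ≠ 0} : Set ℂ) = {0}ᶜ := by ext; simp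
      rw [this]
      exact (Set.finite_singleton (0 : ℂ)).infinite_compl

theorem dsum_mem_ZCl_orbit_dsum {n₁ n₂ : ℕ} {ρ₁ ρ₁' : Tup g n₁} {ρ₂ ρ₂' : Tup g n₂}
    (h1 : ρ₁' ∈ ZCl (orbit ρ₁)) (h2 : ρ₂' ∈ ZCl (orbit ρ₂)) :
    dsum ρ₁' ρ₂' ∈ ZCl (orbit (dsum ρ₁ ρ₂)) := by
  refine PolyMap.maps_ZCl₂ (polyMap_dsum (g := g) (n₁ := n₁) (n₂ := n₂))
    (A := orbit ρ₁) (B := orbit ρ₂) (C := orbit (dsum ρ₁ ρ₂)) ?_ ρ₁' h1 ρ₂' h2
  rintro a ⟨k₁, hk₁, rfl⟩ b ⟨k₂, hk₂, rfl⟩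
  apply subset_ZCl
  refine ⟨blk k₁ 0 0 k₂, ?_, ?_⟩
  · rw [det_blk_tri]
    exact hk₁.mul hk₂
  · funext i c
    show blk (k₁ * ρ₁ i c * k₁⁻¹) 0 0 (k₂ * ρ₂ i c * k₂⁻¹) =
      blk k₁ 0 0 k₂ * blk (ρ₁ i c) 0 0 (ρ₂ i c) * (blk k₁ 0 0 k₂)⁻¹
    rw [blk_diag_inv hk₁ hk₂, blk_mul, blk_mul]
    simp

/-- every `1 × 1` tuple is in the cone. -/
theorem mem_VC_of_one (S : Subring ℂ) (ρ : Tup g 1) : ρ ∈ VC S g 1 := by
  apply subset_ZCl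
  refine ⟨fun _ _ => 1, ⟨⟨fun i c => by simp, ?_⟩, ?_⟩, fun i c => ρ i c 0 0, ?_⟩
  · unfold mu cm
    simp
  · intro i c p q
    show (1 : Mat 1) p q ∈ S
    rw [Matrix.one_apply]
    split_ifs
    · exact S.one_mem
    · exact S.zero_mem
  · funext i c
    ext p q
    have hp : p = 0 := Subsingleton.elim _ _
    have hq : q = 0 := Subsingleton.elim _ _
    subst hp hq
    simp [scl]

/-- **(T)**, with the hypothesis only for irreducible tuples: strong induction on `n`. -/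
theorem orbit_closure_meets_VC_irr (S : Subring ℂ) {u : ℂ} (hu : u ∈ S) (hu' : u⁻¹ ∈ S)
    (hu1 : 1 < ‖u‖)
    (hP : ∀ n, 2 ≤ n → ∀ ρ ∈ RC g n, IsIrr ρ → ρ ∈ VC S g n) :
    ∀ n, 1 ≤ n → ∀ ρ ∈ RC g n, ∃ ρ' ∈ ZCl (orbit ρ), ρ' ∈ VC S g n := by
  intro n
  induction n using Nat.strong_induction_on with
  | _ n ih =>
    intro hn ρ hρ
    by_cases hirr : IsIrr ρ
    · refine ⟨ρ, subset_ZCl _ (ssp_mem_orbit_self ρ), ?_⟩
      rcases Nat.lt_or_ge n 2 with h2 | h2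
      · obtain rfl : n = 1 := by omega
        exact mem_VC_of_one S ρ
      · exact hP n h2 ρ hρ hirr
    · obtain ⟨n₁, n₂, e, h1, h2, ρ₁, β, ρ₂, htri⟩ := exists_tri_of_not_isIrr hirr
      subst e
      have htri' : tri ρ₁ β ρ₂ ∈ orbit ρ := htri
      obtain ⟨hρ₁, hρ₂⟩ := tri_mem_RC (orbit_subset_RC hρ htri')
      obtain ⟨ρ₁', h1', h1''⟩ := ih n₁ (by omega) h1 ρ₁ hρ₁
      obtain ⟨ρ₂', h2', h2''⟩ := ih n₂ (by omega) h2 ρ₂ hρ₂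
      refine ⟨dsum ρ₁' ρ₂', ?_, dsum_mem_VC S hu hu' hu1 h1'' h2''⟩
      apply ZCl_orbit_subset (subset_ZCl _ htri')
      apply ZCl_orbit_subset (dsum_mem_ZCl_orbit_tri ρ₁ β ρ₂)
      exact dsum_mem_ZCl_orbit_dsum h1' h2'

/-- **(T)** -/
theorem orbit_closure_meets_VC (S : Subring ℂ) {u : ℂ} (hu : u ∈ S) (hu' : u⁻¹ ∈ S)
    (hu1 : 1 < ‖u‖)
    (hP : ∀ n, 2 ≤ n → ∀ ρ ∈ RC g n, IsSchur ρ → ρ ∈ VC S g n) :
    ∀ n, 1 ≤ n → ∀ ρ ∈ RC g n, ∃ ρ' ∈ ZCl (orbit ρ), ρ' ∈ VC S g n :=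
  orbit_closure_meets_VC_irr S hu hu' hu1
    (fun n hn ρ hρ hirr => hP n hn ρ hρ (hirr.isSchur (by omega)))

end Claimed.Agent.R236
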