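import Claimed.Agent.R236.Interface
import Claimed.Agent.R236.LemmaH
import Claimed.Agent.R236.Semisimple

/-!
# Row 236: the end of the proof (blueprint section 13, "End"), parametrised by the hypothesis
`hP`: irreducible representations lie in `VC`.
-/

namespace Claimed.Agent.R236

open Matrix Claims.C0399

variable {g r : ℕ}

theorem mainOf_conjT_smul {c : ℂ} (hc : c ≠ 0) (h : Mat r) (ρ : Tup g r) :
    conjT (c • h) ρ = conjT h ρ := by
  funext i k
  simp only [conjT, inv_smul_ne_zero h hc, smul_mul_assoc, mul_smul_comm, smul_smul]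
  rw [inv_mul_cancel₀ hc, one_smul]

/-- every element of the `GL`-orbit is an `SL`-conjugate. -/
theorem mainOf_orbit_SL (hr : 1 ≤ r) {ρ ρ' : Tup g r} (h : ρ' ∈ orbit ρ) :
    ∃ k : Mat r, k.det = 1 ∧ ρ' = conjT k ρ := by
  obtain ⟨k, hk, rfl⟩ := h
  have hk0 : k.det ≠ 0 := hk.ne_zero
  obtain ⟨c, hc⟩ := IsAlgClosed.exists_pow_nat_eq (k.det)⁻¹ (show 0 < r by omega)
  have hc0 : c ≠ 0 := by
    intro h0
    rw [h0, zero_pow (by omega)] at hc
    exact inv_ne_zero hk0 hc.symm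
  refine ⟨c • k, ?_, (mainOf_conjT_smul hc0 k ρ).symm⟩
  rw [det_smul, Fintype.card_fin, hc, inv_mul_cancel₀ hk0]

/-- The statement in the framework of `Basic`/`ZCl` which implies S0471. -/
theorem mainOf_framework (hr : 1 ≤ r) (S : Subring ℂ) {ζ : ℂ} (hζ : IsPrimitiveRoot ζ r) (hζS : ζ ∈ S)
    {u : ℂ} (hu : u ∈ S) (hu' : u⁻¹ ∈ S) (hu1 : 1 < ‖u‖)
    (hP : ∀ n, 2 ≤ n → ∀ ρ ∈ RC g n, IsIrr ρ → ρ ∈ VC S g n)
    {F : Tup g r → ℂ} (hF : F ∈ PolyFun (Tup g r))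
    (hinv : ∀ ρ ∈ RSL g r, ∀ h : Mat r, h.det = 1 → F (conjT h ρ) = F ρ)
    (h0 : ∀ ρ ∈ RS S g r, F ρ = 0) : ∀ ρ ∈ RSL g r, F ρ = 0 := by
  intro ρ hρ
  obtain ⟨ρ', h1, h2⟩ := orbit_closure_meets_VC_irr S hu hu' hu1 hP r hr ρ (RSL_subset_RC hρ)
  -- `F` is constant on the orbit closure
  have hFρ' : F ρ' = F ρ := by
    have := h1 (fun x => F x - F ρ) (PolyFun.sub hF (PolyFun.const _)) ?_
    · exact sub_eq_zero.1 this
    · intro a ha
      obtain ⟨k, hk, rfl⟩ := mainOf_orbit_SL hr ha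
      show F (conjT k ρ) - F ρ = 0
      rw [hinv ρ hρ k hk, sub_self]
  -- all determinants are `1` on the orbit closure
  have hdet : ∀ i c, (ρ' i c).det = 1 := by
    intro i c
    have hpm : PolyMap fun x : Tup g r => x i c :=
      polyMap_linear ((LinearMap.proj c : (Fin 2 → Mat r) →ₗ[ℂ] Mat r).comp
        (LinearMap.proj i : Tup g r →ₗ[ℂ] (Fin 2 → Mat r)))
    have := h1 (fun x => (x i c).det - 1) (PolyFun.sub (PolyMap.det hpm) (PolyFun.const _)) ?_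
    · exact sub_eq_zero.1 this
    · rintro a ⟨k, hk, rfl⟩
      show (k * ρ i c * k⁻¹).det - 1 = 0
      rw [Matrix.det_conj ((Matrix.isUnit_iff_isUnit_det k).2 hk), hρ.1 i c, sub_self]
  rw [← hFρ']
  exact lemmaH hr S hζ hζS hF h0 ρ' h2 hdet

/-- S0471 from the hypothesis `hP`. -/
theorem mainOf_statement (hr : 1 ≤ r)
    (hP : ∀ n, 2 ≤ n → ∀ ρ ∈ RC g n, IsIrr ρ → ρ ∈ VC (ringS r) g n) :
    ∃ L : IntermediateField ℚ ℂ, FiniteDimensional ℚ L ∧
      ∀ (m : ℕ) (f : Fin m → MvPolynomial (RepVar g r) ℤ) (c : Fin m → ℂ),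
        (∀ i, IsConjInvariant (f i)) →
        (∀ ρ, IsComplexRep ρ →
          (∀ h : MvPolynomial (RepVar g r) ℤ, IsConjInvariant h →
            MvPolynomial.aeval ρ h ∈ L ∧ IsIntegral ℤ (MvPolynomial.aeval ρ h)) →
          ∑ i, c i * MvPolynomial.aeval ρ (f i) = 0) →
        ∀ ρ, IsComplexRep ρ → ∑ i, c i * MvPolynomial.aeval ρ (f i) = 0 := by
  refine ⟨fieldL r, finiteDimensional_fieldL r hr, ?_⟩
  intro m f c hf hvan ρ hρ
  obtain ⟨ζ, hζS, hζ⟩ := exists_zeta_mem_ringS r hr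
  obtain ⟨u, hu, hu', hu1⟩ := exists_unit_mem_ringS r
  have key := mainOf_framework hr (ringS r) hζ hζS hu hu' hu1 hP (polyFun_comb f c) ?_ ?_
    (toTup ρ) ((isComplexRep_iff ρ).1 hρ)
  · simpa [ofTup_toTup] using key
  · intro T hT h hh
    apply Finset.sum_congr rfl
    intro i _
    congr 1
    have hT' : IsComplexRep (ofTup T) := (isComplexRep_iff (ofTup T)).2 (by rw [toTup_ofTup]; exact hT)
    have := aeval_conj_eq (hf i) hT' hh
    rwa [toTup_ofTup] at this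
  · intro T hT
    have hT' : IsComplexRep (ofTup T) := (isComplexRep_iff (ofTup T)).2 (by rw [toTup_ofTup]; exact hT.1)
    apply hvan _ hT'
    intro h _
    exact mem_ringS.1 (aeval_mem_subring (ringS r) (fun v => hT.2 _ _ _ _) h)

end Claimed.Agent.R236
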