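import Claimed.Agent.R236.SLZ
import Claimed.Agent.R236.FlowLemma

/-!
# Row 236: the flows on the last two handles (blueprint section 3)

A point of `P4 g n` is `(σ, A₁, B₁, A₂, B₂)`, standing for the tuple `tup4 x = (σ; A₁, B₁; A₂, B₂)`.
All maps take a parameter `iv : Mat n → Mat n`: `iv = Matrix.adjugate` gives the polynomial version,
`iv = (·)⁻¹` the honest one.  They agree up to nonzero scalars (`Prp`) on invertible data.
-/

namespace Claimed.Agent.R236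

open Matrix

variable {g n : ℕ}

/-- `(σ, A₁, B₁, A₂, B₂)`. -/
abbrev P4 (g n : ℕ) := Tup g n × Mat n × Mat n × Mat n × Mat n

/-- the tuple of a point of `P4`. -/
def tup4 (x : P4 g n) : Tup (g + 2) n := snocH (snocH x.1 x.2.1 x.2.2.1) x.2.2.2.1 x.2.2.2.2

/-- the honest inverse, as a function. -/
noncomputable def minv : Mat n → Mat n := fun A => A⁻¹

/-- the adjugate, as a function. -/
def madj : Mat n → Mat n := fun A => A.adjugate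

/-- all blocks invertible. -/
def AllInv4 (x : P4 g n) : Prop :=
  AllInv x.1 ∧ IsUnit x.2.1.det ∧ IsUnit x.2.2.1.det ∧ IsUnit x.2.2.2.1.det ∧ IsUnit x.2.2.2.2.det

/-- the linking element `E = B₁ A₁⁻¹ B₁⁻¹ A₂`. -/
def lkE (iv : Mat n → Mat n) (x : P4 g n) : Mat n := x.2.2.1 * iv x.2.1 * iv x.2.2.1 * x.2.2.2.1

/-- the holonomy `Mx = B₂ E⁻ʲ` of the twisting curve. -/
def flMx (iv : Mat n → Mat n) (j : ℕ) (x : P4 g n) : Mat n := x.2.2.2.2 * iv (lkE iv x) ^ j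

/-- `γ = (E z)⁻ʲ Eʲ`. -/
def flG (iv : Mat n → Mat n) (j : ℕ) (x : P4 g n) (z : Mat n) : Mat n :=
  iv (lkE iv x * z) ^ j * lkE iv x ^ j

/-- the flow `Fl_{j,z}` (blueprint section 3). -/
def flow (iv : Mat n → Mat n) (j : ℕ) (x : P4 g n) (z : Mat n) : P4 g n :=
  (fun i c => iv (flG iv j x z) * x.1 i c * flG iv j x z,
   iv (flG iv j x z) * x.2.1 * flG iv j x z,
   x.2.2.1 * flG iv j x z,
   x.2.2.2.1 * iv (lkE iv x) ^ j * z * lkE iv x ^ j,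
   iv (flG iv j x z) * x.2.2.2.2)

/-- `ψ : (A₁, B₁) ↦ (A₁ B₁, B₁)`. -/
def psi (x : P4 g n) : P4 g n := (x.1, x.2.1 * x.2.2.1, x.2.2.1, x.2.2.2.1, x.2.2.2.2)

/-- `ψ⁻¹ : (A₁, B₁) ↦ (A₁ B₁⁻¹, B₁)`. -/
def psiInv (iv : Mat n → Mat n) (x : P4 g n) : P4 g n :=
  (x.1, x.2.1 * iv x.2.2.1, x.2.2.1, x.2.2.2.1, x.2.2.2.2)

/-- flows of both kinds: `k = (false, j)` is `Fl_j`, `k = (true, j)` is `ψ⁻¹ ∘ Fl_j ∘ ψ`. -/
def flowK (iv : Mat n → Mat n) (k : Bool × ℕ) (x : P4 g n) (z : Mat n) : P4 g n :=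
  if k.1 then psiInv iv (flow iv k.2 (psi x) z) else flow iv k.2 x z

/-- the point at which `lkE`, `flMx` are computed. -/
def preK (k : Bool × ℕ) (x : P4 g n) : P4 g n := if k.1 then psi x else x

/-- holonomy for `flowK`. -/
def mxK (iv : Mat n → Mat n) (k : Bool × ℕ) (x : P4 g n) : Mat n := flMx iv k.2 (preK k x)

/-- one stage: flow with `z = p_s(Mx)`. -/
def stepK (iv : Mat n → Mat n) (k : Bool × ℕ) (x : P4 g n) (s : Fin n → ℂ) : P4 g n :=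
  flowK iv k x (pS s (mxK iv k x))

/-- the trivial flow parameter: `p_{e0}(M) = 1`. -/
def e0 : Fin n → ℂ := fun k => if (k : ℕ) = 0 then 1 else 0

theorem pS_e0 (hn : 1 ≤ n) (M : Mat n) : pS e0 M = 1 := by
  unfold pS
  rw [Finset.sum_eq_single (⟨0, hn⟩ : Fin n)]
  · simp [e0]
  · intro b _ hb
    have : (b : ℕ) ≠ 0 := fun h => hb (Fin.ext h)
    simp [e0, this]
  · intro h
    exact absurd (Finset.mem_univ _) h

theorem allInv_tup4 {x : P4 g n} : AllInv (tup4 x) ↔ AllInv4 x := by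
  unfold tup4 AllInv4
  rw [allInv_snocH, allInv_snocH]
  tauto

theorem mu_tup4 (x : P4 g n) :
    mu (tup4 x) = mu x.1 * cm x.2.1 x.2.2.1 * cm x.2.2.2.1 x.2.2.2.2 := by
  unfold tup4
  rw [mu_snocH, mu_snocH]

/-- `tup4` as a linear equivalence. -/
def tup4L (g n : ℕ) : P4 g n ≃ₗ[ℂ] Tup (g + 2) n where
  toFun := tup4
  invFun ρ := (Fin.init (α := fun _ => Fin 2 → Mat n) (Fin.init (α := fun _ => Fin 2 → Mat n) ρ),
    ρ (Fin.last g).castSucc 0, ρ (Fin.last g).castSucc 1, ρ (Fin.last (g + 1)) 0,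
    ρ (Fin.last (g + 1)) 1)
  map_add' := by
    intro x y
    unfold tup4
    rw [← snocH_add, ← snocH_add]
    rfl
  map_smul' := by
    intro t x
    unfold tup4
    rw [RingHom.id_apply, ← snocH_smul, ← snocH_smul]
    rfl
  left_inv := by
    intro x
    obtain ⟨σ, A1, B1, A2, B2⟩ := x
    unfold tup4
    simp only [init_snocH, snocH_castSucc, (snocH_last _ _ _).1, (snocH_last _ _ _).2]
  right_inv := by
    intro ρ
    unfold tup4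
    have h := snocH_init_last (Fin.init (α := fun _ => Fin 2 → Mat n) ρ)
    have h2 := snocH_init_last ρ
    dsimp only
    have e0' : ρ (Fin.last g).castSucc 0 = Fin.init (α := fun _ => Fin 2 → Mat n) ρ (Fin.last g) 0 := rfl
    have e1' : ρ (Fin.last g).castSucc 1 = Fin.init (α := fun _ => Fin 2 → Mat n) ρ (Fin.last g) 1 := rfl
    rw [e0', e1', h, h2]

/-! ### (F1), (F2): the honest flows -/

/-- the group identity behind (F1), with `P = Eʲ`, `Q = (E z)ʲ` as atoms and `A₂ = B₁ A₁ B₁⁻¹ E`. -/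
theorem flow_group {G : Type*} [Group G] (a1 b1 E b2 z P Q : G)
    (hP : P * E = E * P) (hQ : Q * (E * z) = E * z * Q)
    (hc : z * (b2 * P⁻¹) = b2 * P⁻¹ * z) :
    ((Q⁻¹ * P)⁻¹ * a1 * (Q⁻¹ * P)) * (b1 * (Q⁻¹ * P)) * ((Q⁻¹ * P)⁻¹ * a1 * (Q⁻¹ * P))⁻¹
        * (b1 * (Q⁻¹ * P))⁻¹ *
      ((b1 * a1 * b1⁻¹ * E * P⁻¹ * z * P) * ((Q⁻¹ * P)⁻¹ * b2) *
        (b1 * a1 * b1⁻¹ * E * P⁻¹ * z * P)⁻¹ * ((Q⁻¹ * P)⁻¹ * b2)⁻¹) =
    (Q⁻¹ * P)⁻¹ * (a1 * b1 * a1⁻¹ * b1⁻¹ *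
      ((b1 * a1 * b1⁻¹ * E) * b2 * (b1 * a1 * b1⁻¹ * E)⁻¹ * b2⁻¹)) * (Q⁻¹ * P) := by
  have k0 : P * E * P⁻¹ = E := by rw [hP]; group
  have k1 : Q⁻¹ * (P * E * P⁻¹) * z * Q = E * z := by
    rw [k0]
    calc Q⁻¹ * E * z * Q = Q⁻¹ * (E * z * Q) := by group
      _ = Q⁻¹ * (Q * (E * z)) := by rw [hQ]
      _ = E * z := by group
  have k2 : z * (b2 * P⁻¹) * z⁻¹ = b2 * P⁻¹ := by rw [hc]; group
  calc _ = (Q⁻¹ * P)⁻¹ * a1 * (Q⁻¹ * (P * E * P⁻¹) * z * Q) * (b2 * P⁻¹) * z⁻¹ * P * E⁻¹ * b1 * a1⁻¹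
        * b1⁻¹ * b2⁻¹ * (Q⁻¹ * P) := by group
    _ = (Q⁻¹ * P)⁻¹ * a1 * E * (z * (b2 * P⁻¹) * z⁻¹) * P * E⁻¹ * b1 * a1⁻¹
        * b1⁻¹ * b2⁻¹ * (Q⁻¹ * P) := by rw [k1]; group
    _ = _ := by rw [k2]; group

/-- the group identity behind (F1). -/
theorem flow_group_pow {G : Type*} [Group G] (a1 b1 a2 b2 z : G) (j : ℕ)
    (hc : z * (b2 * (b1 * a1⁻¹ * b1⁻¹ * a2)⁻¹ ^ j) = b2 * (b1 * a1⁻¹ * b1⁻¹ * a2)⁻¹ ^ j * z)
    (γ : G) (hγ : γ = (b1 * a1⁻¹ * b1⁻¹ * a2 * z)⁻¹ ^ j * (b1 * a1⁻¹ * b1⁻¹ * a2) ^ j) :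
    (γ⁻¹ * a1 * γ) * (b1 * γ) * (γ⁻¹ * a1 * γ)⁻¹ * (b1 * γ)⁻¹ *
      ((a2 * (b1 * a1⁻¹ * b1⁻¹ * a2)⁻¹ ^ j * z * (b1 * a1⁻¹ * b1⁻¹ * a2) ^ j) * (γ⁻¹ * b2) *
        (a2 * (b1 * a1⁻¹ * b1⁻¹ * a2)⁻¹ ^ j * z * (b1 * a1⁻¹ * b1⁻¹ * a2) ^ j)⁻¹ * (γ⁻¹ * b2)⁻¹) =
    γ⁻¹ * (a1 * b1 * a1⁻¹ * b1⁻¹ * (a2 * b2 * a2⁻¹ * b2⁻¹)) * γ := by
  obtain ⟨E, hE⟩ : ∃ E, E = b1 * a1⁻¹ * b1⁻¹ * a2 := ⟨_, rfl⟩
  have ha2 : a2 = b1 * a1 * b1⁻¹ * E := by rw [hE]; group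
  rw [← hE] at hc hγ ⊢
  rw [inv_pow] at hc hγ
  rw [inv_pow, hγ, ha2]
  exact flow_group a1 b1 E b2 z (E ^ j) ((E * z) ^ j) (Commute.pow_self E j).eq
    (Commute.pow_self (E * z) j).eq hc

/-- the determinant of a unit is a unit. -/
theorem isUnit_det_unit (u : (Mat n)ˣ) : IsUnit (u : Mat n).det :=
  (Matrix.isUnit_iff_isUnit_det _).1 u.isUnit

/-- an invertible matrix is the value of a unit. -/
theorem exists_unit_of_det {A : Mat n} (h : IsUnit A.det) : ∃ u : (Mat n)ˣ, (u : Mat n) = A :=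
  (Matrix.isUnit_iff_isUnit_det _).2 h

theorem cm_units (a b : (Mat n)ˣ) : cm (a : Mat n) (b : Mat n) = ((a * b * a⁻¹ * b⁻¹ : (Mat n)ˣ) : Mat n) := by
  simp [cm, Matrix.coe_units_inv]

/-- (F1) for `Fl_j`: `z` invertible commuting with `Mx`. Direct computation
(`E' := E z`, `c₁' c₂' = γ⁻¹ c₁ c₂ γ`; blueprint section 3). -/
theorem flow_spec (j : ℕ) {x : P4 g n} (hx : AllInv4 x) {z : Mat n} (hz : IsUnit z.det)
    (hc : z * flMx minv j x = flMx minv j x * z) :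
    AllInv4 (flow minv j x z) ∧ IsUnit (flG minv j x z).det ∧
      mu (tup4 (flow minv j x z)) = (flG minv j x z)⁻¹ * mu (tup4 x) * flG minv j x z := by
  obtain ⟨σ, A1, B1, A2, B2⟩ := x
  obtain ⟨hσ, h1, h2, h3, h4⟩ := hx
  dsimp only at hσ h1 h2 h3 h4
  obtain ⟨a1, rfl⟩ := exists_unit_of_det h1
  obtain ⟨b1, rfl⟩ := exists_unit_of_det h2
  obtain ⟨a2, rfl⟩ := exists_unit_of_det h3
  obtain ⟨b2, rfl⟩ := exists_unit_of_det h4
  obtain ⟨w, rfl⟩ := exists_unit_of_det hz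
  have hE : lkE minv (σ, (a1 : Mat n), (b1 : Mat n), (a2 : Mat n), (b2 : Mat n)) =
      ((b1 * a1⁻¹ * b1⁻¹ * a2 : (Mat n)ˣ) : Mat n) := by
    simp [lkE, minv, Matrix.coe_units_inv]
  have hEi : minv (lkE minv (σ, (a1 : Mat n), (b1 : Mat n), (a2 : Mat n), (b2 : Mat n))) =
      (((b1 * a1⁻¹ * b1⁻¹ * a2)⁻¹ : (Mat n)ˣ) : Mat n) := by
    rw [hE]; unfold minv; rw [Matrix.coe_units_inv]
  obtain ⟨γ, hγ⟩ : ∃ γ : (Mat n)ˣ,
      γ = (b1 * a1⁻¹ * b1⁻¹ * a2 * w)⁻¹ ^ j * (b1 * a1⁻¹ * b1⁻¹ * a2) ^ j := ⟨_, rfl⟩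
  have hG : flG minv j (σ, (a1 : Mat n), (b1 : Mat n), (a2 : Mat n), (b2 : Mat n)) (w : Mat n) =
      (γ : Mat n) := by
    unfold flG
    rw [hE, hγ, ← Units.val_mul]
    unfold minv
    rw [← Matrix.coe_units_inv, ← Units.val_pow_eq_pow_val, ← Units.val_pow_eq_pow_val,
      ← Units.val_mul]
  have hGi : minv (γ : Mat n) = ((γ⁻¹ : (Mat n)ˣ) : Mat n) := by
    unfold minv; rw [Matrix.coe_units_inv]
  have hc' : w * (b2 * (b1 * a1⁻¹ * b1⁻¹ * a2)⁻¹ ^ j) = b2 * (b1 * a1⁻¹ * b1⁻¹ * a2)⁻¹ ^ j * w := by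
    apply Units.ext
    unfold flMx at hc
    rw [hEi] at hc
    simpa using hc
  have key := flow_group_pow a1 b1 a2 b2 w j hc' γ hγ
  have hfl : flow minv j (σ, (a1 : Mat n), (b1 : Mat n), (a2 : Mat n), (b2 : Mat n)) (w : Mat n) =
      (conjT ((γ⁻¹ : (Mat n)ˣ) : Mat n) σ, ((γ⁻¹ * a1 * γ : (Mat n)ˣ) : Mat n),
        ((b1 * γ : (Mat n)ˣ) : Mat n),
        ((a2 * (b1 * a1⁻¹ * b1⁻¹ * a2)⁻¹ ^ j * w * (b1 * a1⁻¹ * b1⁻¹ * a2) ^ j : (Mat n)ˣ) : Mat n),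
        ((γ⁻¹ * b2 : (Mat n)ˣ) : Mat n)) := by
    unfold flow
    rw [hG, hGi, hEi, hE]
    refine Prod.ext ?_ ?_
    · funext i c
      simp [conjT, ← Matrix.coe_units_inv]
    · simp
  rw [hfl, hG]
  refine ⟨⟨?_, isUnit_det_unit (γ⁻¹ * a1 * γ), isUnit_det_unit (b1 * γ),
    isUnit_det_unit (a2 * (b1 * a1⁻¹ * b1⁻¹ * a2)⁻¹ ^ j * w * (b1 * a1⁻¹ * b1⁻¹ * a2) ^ j),
    isUnit_det_unit (γ⁻¹ * b2)⟩, isUnit_det_unit _, ?_⟩
  · intro i c
    dsimp only [conjT]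
    rw [det_mul, det_mul]
    refine (IsUnit.mul (isUnit_det_unit _) (hσ i c)).mul ?_
    rw [← Matrix.coe_units_inv]
    exact isUnit_det_unit _
  · rw [mu_tup4, mu_tup4]
    dsimp only
    rw [mu_conj (isUnit_det_unit _), cm_units, cm_units, cm_units, cm_units, Matrix.mul_assoc,
      ← Units.val_mul, key, ← Matrix.coe_units_inv, ← Matrix.coe_units_inv, inv_inv]
    simp only [Units.val_mul, Matrix.mul_assoc]
    rw [← Matrix.mul_assoc (γ : Mat n) ((γ⁻¹ : (Mat n)ˣ) : Mat n), ← Units.val_mul, mul_inv_cancel,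
      Units.val_one, Matrix.one_mul]

theorem psi_spec {x : P4 g n} (hx : AllInv4 x) :
    AllInv4 (psi x) ∧ mu (tup4 (psi x)) = mu (tup4 x) ∧ psiInv minv (psi x) = x := by
  obtain ⟨σ, A1, B1, A2, B2⟩ := x
  obtain ⟨hσ, h1, h2, h3, h4⟩ := hx
  dsimp only at hσ h1 h2 h3 h4
  obtain ⟨a1, rfl⟩ := exists_unit_of_det h1
  obtain ⟨b1, rfl⟩ := exists_unit_of_det h2
  refine ⟨⟨hσ, isUnit_det_unit (a1 * b1), h2, h3, h4⟩, ?_, ?_⟩
  · rw [mu_tup4, mu_tup4]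
    dsimp only [psi]
    rw [← Units.val_mul, cm_units, cm_units]
    congr 3
    group
  · unfold psiInv psi minv
    dsimp only
    rw [← Matrix.coe_units_inv, ← Units.val_mul, ← Units.val_mul, mul_inv_cancel_right]

theorem psiInv_spec {x : P4 g n} (hx : AllInv4 x) :
    AllInv4 (psiInv minv x) ∧ mu (tup4 (psiInv minv x)) = mu (tup4 x) := by
  obtain ⟨σ, A1, B1, A2, B2⟩ := x
  obtain ⟨hσ, h1, h2, h3, h4⟩ := hx
  dsimp only at hσ h1 h2 h3 h4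
  obtain ⟨a1, rfl⟩ := exists_unit_of_det h1
  obtain ⟨b1, rfl⟩ := exists_unit_of_det h2
  have e : psiInv minv (σ, (a1 : Mat n), (b1 : Mat n), A2, B2) =
      (σ, ((a1 * b1⁻¹ : (Mat n)ˣ) : Mat n), (b1 : Mat n), A2, B2) := by
    unfold psiInv minv
    dsimp only
    rw [← Matrix.coe_units_inv, ← Units.val_mul]
  rw [e]
  refine ⟨⟨hσ, isUnit_det_unit (a1 * b1⁻¹), h2, h3, h4⟩, ?_⟩
  rw [mu_tup4, mu_tup4]
  dsimp only
  rw [cm_units, cm_units]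
  congr 3
  group

theorem pS_mul_comm (s : Fin n → ℂ) (M : Mat n) : pS s M * M = M * pS s M := by
  unfold pS
  rw [Finset.sum_mul, Finset.mul_sum]
  refine Finset.sum_congr rfl fun k _ => ?_
  rw [smul_mul_assoc, mul_smul_comm, ← pow_succ, ← pow_succ']

/-- (F1) for one stage. -/
theorem stepK_spec (k : Bool × ℕ) {x : P4 g n} (hx : AllInv4 x) {s : Fin n → ℂ}
    (hz : IsUnit (pS s (mxK minv k x)).det) :
    AllInv4 (stepK minv k x s) ∧ ∃ γ : Mat n, IsUnit γ.det ∧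
      mu (tup4 (stepK minv k x s)) = γ⁻¹ * mu (tup4 x) * γ := by
  obtain ⟨b, j⟩ := k
  cases b with
  | false =>
    have h := flow_spec j hx (z := pS s (mxK minv (false, j) x)) hz (pS_mul_comm s _)
    exact ⟨h.1, _, h.2.1, h.2.2⟩
  | true =>
    have hp := psi_spec hx
    have h := flow_spec j hp.1 (z := pS s (mxK minv (true, j) x)) hz (pS_mul_comm s _)
    have hq := psiInv_spec h.1
    refine ⟨hq.1, _, h.2.1, ?_⟩
    rw [← hp.2.1, ← h.2.2, ← hq.2]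
    rfl

theorem flow_one (j : ℕ) {x : P4 g n} (hx : AllInv4 x) : flow minv j x 1 = x := by
  obtain ⟨σ, A1, B1, A2, B2⟩ := x
  obtain ⟨hσ, h1, h2, h3, h4⟩ := hx
  dsimp only at hσ h1 h2 h3 h4
  obtain ⟨a1, rfl⟩ := exists_unit_of_det h1
  obtain ⟨b1, rfl⟩ := exists_unit_of_det h2
  obtain ⟨a2, rfl⟩ := exists_unit_of_det h3
  have hE : lkE minv (σ, (a1 : Mat n), (b1 : Mat n), (a2 : Mat n), B2) =
      ((b1 * a1⁻¹ * b1⁻¹ * a2 : (Mat n)ˣ) : Mat n) := by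
    simp [lkE, minv, Matrix.coe_units_inv]
  have hEi : minv (lkE minv (σ, (a1 : Mat n), (b1 : Mat n), (a2 : Mat n), B2)) =
      (((b1 * a1⁻¹ * b1⁻¹ * a2)⁻¹ : (Mat n)ˣ) : Mat n) := by
    rw [hE]; unfold minv; rw [Matrix.coe_units_inv]
  have hG : flG minv j (σ, (a1 : Mat n), (b1 : Mat n), (a2 : Mat n), B2) 1 = 1 := by
    unfold flG
    rw [mul_one, hEi, hE, ← Units.val_pow_eq_pow_val, ← Units.val_pow_eq_pow_val, ← Units.val_mul,
      inv_pow, inv_mul_cancel, Units.val_one]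
  have h1' : minv (1 : Mat n) = 1 := by unfold minv; exact inv_one
  unfold flow
  rw [hG, h1', hEi, hE]
  dsimp only
  refine Prod.ext ?_ (Prod.ext ?_ (Prod.ext ?_ (Prod.ext ?_ ?_)))
  · funext i c
    simp
  · simp
  · simp
  · dsimp only
    rw [mul_one, mul_assoc, ← Units.val_pow_eq_pow_val, ← Units.val_pow_eq_pow_val,
      ← Units.val_mul, inv_pow, inv_mul_cancel, Units.val_one, mul_one]
  · simp

/-- (F2) -/
theorem stepK_e0 (hn : 1 ≤ n) (k : Bool × ℕ) {x : P4 g n} (hx : AllInv4 x) :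
    stepK minv k x e0 = x := by
  obtain ⟨b, j⟩ := k
  unfold stepK
  rw [pS_e0 hn]
  cases b with
  | false => exact flow_one j hx
  | true =>
    have hp := psi_spec hx
    have : flowK minv (true, j) x 1 = psiInv minv (flow minv j (psi x) 1) := rfl
    rw [this, flow_one j hp.1, hp.2.2]

/-- (F3) the `A₂`-component. -/
theorem stepK_A2 (iv : Mat n → Mat n) (k : Bool × ℕ) (x : P4 g n) (s : Fin n → ℂ) :
    (stepK iv k x s).2.2.2.1 =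
      x.2.2.2.1 * iv (lkE iv (preK k x)) ^ k.2 * pS s (mxK iv k x) * lkE iv (preK k x) ^ k.2 := by
  obtain ⟨b, j⟩ := k
  cases b <;> rfl

/-! ### (F7): polynomiality of the adjugate version -/

theorem polyMap_lkE {V : Type*} [AddCommGroup V] [Module ℂ V] {Φ : V → P4 g n} (h : PolyMap Φ) :
    PolyMap fun v => lkE madj (Φ v) :=
  ((h.snd.snd.fst.matMul h.snd.fst.adjugate).matMul h.snd.snd.fst.adjugate).matMul
    h.snd.snd.snd.fst

theorem polyMap_flMx {V : Type*} [AddCommGroup V] [Module ℂ V] {Φ : V → P4 g n} (h : PolyMap Φ)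
    (j : ℕ) : PolyMap fun v => flMx madj j (Φ v) :=
  h.snd.snd.snd.snd.matMul ((polyMap_lkE h).adjugate.matPow j)

theorem polyMap_flG {V : Type*} [AddCommGroup V] [Module ℂ V] {Φ : V → P4 g n} (h : PolyMap Φ)
    {ζ : V → Mat n} (hζ : PolyMap ζ) (j : ℕ) : PolyMap fun v => flG madj j (Φ v) (ζ v) :=
  ((((polyMap_lkE h).matMul hζ).adjugate).matPow j).matMul ((polyMap_lkE h).matPow j)

theorem polyMap_psi {V : Type*} [AddCommGroup V] [Module ℂ V] {Φ : V → P4 g n} (h : PolyMap Φ) :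
    PolyMap fun v => psi (Φ v) :=
  h.fst.prodMk ((h.snd.fst.matMul h.snd.snd.fst).prodMk (h.snd.snd.fst.prodMk
    (h.snd.snd.snd.fst.prodMk h.snd.snd.snd.snd)))

theorem polyMap_psiInv {V : Type*} [AddCommGroup V] [Module ℂ V] {Φ : V → P4 g n}
    (h : PolyMap Φ) : PolyMap fun v => psiInv madj (Φ v) :=
  h.fst.prodMk ((h.snd.fst.matMul h.snd.snd.fst.adjugate).prodMk (h.snd.snd.fst.prodMk
    (h.snd.snd.snd.fst.prodMk h.snd.snd.snd.snd)))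

theorem polyMap_flow {V : Type*} [AddCommGroup V] [Module ℂ V] {Φ : V → P4 g n} (h : PolyMap Φ)
    {ζ : V → Mat n} (hζ : PolyMap ζ) (j : ℕ) : PolyMap fun v => flow madj j (Φ v) (ζ v) := by
  have hG := polyMap_flG h hζ j
  have hE := polyMap_lkE h
  refine PolyMap.prodMk ?_ (PolyMap.prodMk ?_ (PolyMap.prodMk ?_ (PolyMap.prodMk ?_ ?_)))
  · rw [polyMap_pi]
    intro i
    rw [polyMap_pi]
    intro c
    exact (hG.adjugate.matMul (polyMap_pi.1 (polyMap_pi.1 h.fst i) c)).matMul hG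
  · exact (hG.adjugate.matMul h.snd.fst).matMul hG
  · exact h.snd.snd.fst.matMul hG
  · exact ((h.snd.snd.snd.fst.matMul (hE.adjugate.matPow j)).matMul hζ).matMul (hE.matPow j)
  · exact hG.adjugate.matMul h.snd.snd.snd.snd

theorem polyMap_mxK (k : Bool × ℕ) : PolyMap fun x : P4 g n => mxK madj k x := by
  obtain ⟨b, j⟩ := k
  cases b with
  | false => exact polyMap_flMx polyMap_id j
  | true => exact polyMap_flMx (polyMap_psi polyMap_id) j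

theorem polyMap_flowK (k : Bool × ℕ) : PolyMap fun p : P4 g n × Mat n => flowK madj k p.1 p.2 := by
  obtain ⟨b, j⟩ := k
  cases b with
  | false => exact polyMap_flow polyMap_id.fst polyMap_id.snd j
  | true => exact polyMap_psiInv (polyMap_flow (polyMap_psi polyMap_id.fst) polyMap_id.snd j)

end Claimed.Agent.R236
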