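import Claimed.Agent.R236.Moves

/-!
# Row 236: the flows: integrality (F4) and comparison of the two versions (F5)
(blueprint section 3)
-/

namespace Claimed.Agent.R236

open Matrix

variable {g n : ℕ}

/-! ### calculus of proportionality -/

theorem Prp.refl (A : Mat n) : Prp A A := ⟨1, one_ne_zero, (one_smul _ _).symm⟩

theorem Prp.symm {A B : Mat n} (h : Prp A B) : Prp B A := by
  obtain ⟨c, hc, rfl⟩ := h
  exact ⟨c⁻¹, inv_ne_zero hc, by rw [smul_smul, inv_mul_cancel₀ hc, one_smul]⟩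

theorem Prp.trans {A B C : Mat n} (h : Prp A B) (h' : Prp B C) : Prp A C := by
  obtain ⟨c, hc, rfl⟩ := h
  obtain ⟨d, hd, rfl⟩ := h'
  exact ⟨d * c, mul_ne_zero hd hc, by rw [smul_smul]⟩

theorem Prp.mul {A A' B B' : Mat n} (h : Prp A A') (h' : Prp B B') : Prp (A * B) (A' * B') := by
  obtain ⟨c, hc, rfl⟩ := h
  obtain ⟨d, hd, rfl⟩ := h'
  exact ⟨c * d, mul_ne_zero hc hd, by rw [smul_mul_smul_comm]⟩

theorem Prp.pow {A A' : Mat n} (h : Prp A A') (j : ℕ) : Prp (A ^ j) (A' ^ j) := by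
  obtain ⟨c, hc, rfl⟩ := h
  exact ⟨c ^ j, pow_ne_zero _ hc, by rw [smul_pow]⟩

/-- `adj A = det A • A⁻¹` for invertible `A`. -/
theorem Moves2_adjugate_eq {A : Mat n} (hA : IsUnit A.det) : A.adjugate = A.det • A⁻¹ := by
  rw [Matrix.inv_def, smul_smul, Ring.mul_inverse_cancel _ hA, one_smul]

/-- `adj (c A) = c^{n-1} det A • A⁻¹`. -/
theorem Prp.minv_madj {A A' : Mat n} (h : Prp A A') (hA : IsUnit A.det) :
    Prp (minv A) (madj A') := by
  obtain ⟨c, hc, rfl⟩ := h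
  refine ⟨c ^ (Fintype.card (Fin n) - 1) * A.det, mul_ne_zero (pow_ne_zero _ hc) hA.ne_zero, ?_⟩
  show (c • A).adjugate = _ • A⁻¹
  rw [adjugate_smul, Moves2_adjugate_eq hA, smul_smul]

theorem Prp.isUnit_det {A A' : Mat n} (h : Prp A A') (hA : IsUnit A.det) : IsUnit A'.det := by
  obtain ⟨c, hc, rfl⟩ := h
  rw [det_smul]
  exact ((isUnit_iff_ne_zero.mpr hc).pow _).mul hA

/-- `p_s(M) = p_{s'}(c M)` with `s'_k = c^{-k} s_k`. -/
theorem Prp.exists_pS {M M' : Mat n} (h : Prp M M') (s : Fin n → ℂ) :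
    ∃ s' : Fin n → ℂ, pS s' M' = pS s M := by
  obtain ⟨c, hc, rfl⟩ := h
  refine ⟨fun k => s k * (c ^ (k : ℕ))⁻¹, ?_⟩
  unfold pS
  refine Finset.sum_congr rfl fun k _ => ?_
  rw [smul_pow, smul_smul, mul_assoc, inv_mul_cancel₀ (pow_ne_zero _ hc), mul_one]

/-! ### blocks of `tup4` -/

theorem Moves2_tup4_old (x : P4 g n) (i : Fin g) : tup4 x i.castSucc.castSucc = x.1 i := by
  unfold tup4
  rw [snocH_castSucc, snocH_castSucc]

theorem Moves2_tup4_A1 (x : P4 g n) : tup4 x (Fin.last g).castSucc 0 = x.2.1 := by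
  unfold tup4
  rw [snocH_castSucc, (snocH_last _ _ _).1]

theorem Moves2_tup4_B1 (x : P4 g n) : tup4 x (Fin.last g).castSucc 1 = x.2.2.1 := by
  unfold tup4
  rw [snocH_castSucc, (snocH_last _ _ _).2]

theorem Moves2_tup4_A2 (x : P4 g n) : tup4 x (Fin.last (g + 1)) 0 = x.2.2.2.1 := by
  unfold tup4
  rw [(snocH_last _ _ _).1]

theorem Moves2_tup4_B2 (x : P4 g n) : tup4 x (Fin.last (g + 1)) 1 = x.2.2.2.2 := by
  unfold tup4
  rw [(snocH_last _ _ _).2]

theorem Moves2_forall_blocks4 {P : Fin (g + 2) → Fin 2 → Prop} :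
    (∀ i c, P i c) ↔ (∀ (i : Fin g) c, P i.castSucc.castSucc c) ∧ P (Fin.last g).castSucc 0 ∧
      P (Fin.last g).castSucc 1 ∧ P (Fin.last (g + 1)) 0 ∧ P (Fin.last (g + 1)) 1 := by
  constructor
  · intro h
    exact ⟨fun i c => h _ _, h _ _, h _ _, h _ _, h _ _⟩
  · rintro ⟨h0, h1, h2, h3, h4⟩ i c
    refine Fin.lastCases ?_ (fun i' => ?_) i
    · fin_cases c
      · exact h3
      · exact h4
    · refine Fin.lastCases ?_ (fun i'' => ?_) i'
      · fin_cases c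
        · exact h1
        · exact h2
      · exact h0 i'' c

/-- a relation holding blockwise on `P4`. -/
def Rel4 (R : Mat n → Mat n → Prop) (x x' : P4 g n) : Prop :=
  (∀ i c, R (x.1 i c) (x'.1 i c)) ∧ R x.2.1 x'.2.1 ∧ R x.2.2.1 x'.2.2.1 ∧
    R x.2.2.2.1 x'.2.2.2.1 ∧ R x.2.2.2.2 x'.2.2.2.2

theorem rel4_tup4 {R : Mat n → Mat n → Prop} {x x' : P4 g n} :
    (∀ i c, R (tup4 x i c) (tup4 x' i c)) ↔ Rel4 R x x' := by
  rw [Moves2_forall_blocks4]
  simp only [Moves2_tup4_old, Moves2_tup4_A1, Moves2_tup4_B1, Moves2_tup4_A2, Moves2_tup4_B2]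
  rfl

theorem prpT_tup4 {x x' : P4 g n} :
    PrpT (tup4 x) (tup4 x') ↔ PrpT x.1 x'.1 ∧ Prp x.2.1 x'.2.1 ∧ Prp x.2.2.1 x'.2.2.1 ∧
      Prp x.2.2.2.1 x'.2.2.2.1 ∧ Prp x.2.2.2.2 x'.2.2.2.2 :=
  rel4_tup4 (R := Prp)

/-! ### a generic transfer principle

`R` is a relation between matrices which is compatible with products and powers, and which is
compatible with the two versions `iv`, `iv'` of the inverse. -/

/-- compatibility of a relation with the operations occurring in the flows. -/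
structure LinkRel (R : Mat n → Mat n → Prop) (iv iv' : Mat n → Mat n) : Prop where
  mul : ∀ {A A' B B' : Mat n}, R A A' → R B B' → R (A * B) (A' * B')
  pow : ∀ {A A' : Mat n}, R A A' → ∀ j : ℕ, R (A ^ j) (A' ^ j)
  inv : ∀ {A A' : Mat n}, R A A' → R (iv A) (iv' A')

section Generic

variable {R : Mat n → Mat n → Prop} {iv iv' : Mat n → Mat n}

theorem LinkRel.lkE (L : LinkRel R iv iv') {x x' : P4 g n} (h : Rel4 R x x') :
    R (lkE iv x) (lkE iv' x') :=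
  L.mul (L.mul (L.mul h.2.2.1 (L.inv h.2.1)) (L.inv h.2.2.1)) h.2.2.2.1

theorem LinkRel.flMx (L : LinkRel R iv iv') (j : ℕ) {x x' : P4 g n} (h : Rel4 R x x') :
    R (flMx iv j x) (flMx iv' j x') :=
  L.mul h.2.2.2.2 (L.pow (L.inv (L.lkE h)) j)

theorem LinkRel.flG (L : LinkRel R iv iv') (j : ℕ) {x x' : P4 g n} (h : Rel4 R x x')
    {z z' : Mat n} (hz : R z z') : R (flG iv j x z) (flG iv' j x' z') :=
  L.mul (L.pow (L.inv (L.mul (L.lkE h) hz)) j) (L.pow (L.lkE h) j)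

theorem LinkRel.flow (L : LinkRel R iv iv') (j : ℕ) {x x' : P4 g n} (h : Rel4 R x x')
    {z z' : Mat n} (hz : R z z') : Rel4 R (flow iv j x z) (flow iv' j x' z') :=
  ⟨fun i c => L.mul (L.mul (L.inv (L.flG j h hz)) (h.1 i c)) (L.flG j h hz),
   L.mul (L.mul (L.inv (L.flG j h hz)) h.2.1) (L.flG j h hz),
   L.mul h.2.2.1 (L.flG j h hz),
   L.mul (L.mul (L.mul h.2.2.2.1 (L.pow (L.inv (L.lkE h)) j)) hz) (L.pow (L.lkE h) j),
   L.mul (L.inv (L.flG j h hz)) h.2.2.2.2⟩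

theorem LinkRel.psi (L : LinkRel R iv iv') {x x' : P4 g n} (h : Rel4 R x x') :
    Rel4 R (psi x) (psi x') :=
  ⟨h.1, L.mul h.2.1 h.2.2.1, h.2.2.1, h.2.2.2.1, h.2.2.2.2⟩

theorem LinkRel.psiInv (L : LinkRel R iv iv') {x x' : P4 g n} (h : Rel4 R x x') :
    Rel4 R (psiInv iv x) (psiInv iv' x') :=
  ⟨h.1, L.mul h.2.1 (L.inv h.2.2.1), h.2.2.1, h.2.2.2.1, h.2.2.2.2⟩

theorem LinkRel.flowK (L : LinkRel R iv iv') (k : Bool × ℕ) {x x' : P4 g n} (h : Rel4 R x x')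
    {z z' : Mat n} (hz : R z z') : Rel4 R (flowK iv k x z) (flowK iv' k x' z') := by
  unfold Claimed.Agent.R236.flowK
  split_ifs
  · exact L.psiInv (L.flow _ (L.psi h) hz)
  · exact L.flow _ h hz

theorem LinkRel.mxK (L : LinkRel R iv iv') (k : Bool × ℕ) {x x' : P4 g n} (h : Rel4 R x x') :
    R (mxK iv k x) (mxK iv' k x') := by
  unfold Claimed.Agent.R236.mxK preK
  split_ifs
  · exact L.flMx _ (L.psi h)
  · exact L.flMx _ h

end Generic

/-! ### (F5) -/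

/-- proportional, the first one being invertible. -/
def PrpU (A A' : Mat n) : Prop := IsUnit A.det ∧ Prp A A'

theorem linkRel_prpU : LinkRel (n := n) PrpU minv madj where
  mul := by
    rintro A A' B B' ⟨h1, h2⟩ ⟨h3, h4⟩
    exact ⟨by rw [det_mul]; exact h1.mul h3, h2.mul h4⟩
  pow := by
    rintro A A' ⟨h1, h2⟩ j
    exact ⟨by rw [det_pow]; exact h1.pow j, h2.pow j⟩
  inv := by
    rintro A A' ⟨h1, h2⟩
    refine ⟨?_, h2.minv_madj h1⟩
    show IsUnit (A⁻¹).det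
    exact (Matrix.isUnit_nonsing_inv_det_iff).mpr h1

theorem rel4_prpU {x x' : P4 g n} (hx : AllInv4 x) (h : PrpT (tup4 x) (tup4 x')) :
    Rel4 PrpU x x' := by
  rw [prpT_tup4] at h
  exact ⟨fun i c => ⟨hx.1 i c, h.1 i c⟩, ⟨hx.2.1, h.2.1⟩, ⟨hx.2.2.1, h.2.2.1⟩,
    ⟨hx.2.2.2.1, h.2.2.2.1⟩, ⟨hx.2.2.2.2, h.2.2.2.2⟩⟩

theorem Rel4.mono {R R' : Mat n → Mat n → Prop} (hR : ∀ A A', R A A' → R' A A') {x x' : P4 g n}
    (h : Rel4 R x x') : Rel4 R' x x' :=
  ⟨fun i c => hR _ _ (h.1 i c), hR _ _ h.2.1, hR _ _ h.2.2.1, hR _ _ h.2.2.2.1,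
    hR _ _ h.2.2.2.2⟩

theorem mxK_link (k : Bool × ℕ) {x x' : P4 g n} (hx : AllInv4 x) (h : PrpT (tup4 x) (tup4 x')) :
    Prp (mxK minv k x) (mxK madj k x') :=
  (linkRel_prpU.mxK k (rel4_prpU hx h)).2

theorem flowK_link (k : Bool × ℕ) {x x' : P4 g n} (hx : AllInv4 x) (h : PrpT (tup4 x) (tup4 x'))
    {z z' : Mat n} (hz : IsUnit z.det) (hzz : Prp z z') :
    PrpT (tup4 (flowK minv k x z)) (tup4 (flowK madj k x' z')) :=
  rel4_tup4.mpr ((linkRel_prpU.flowK k (rel4_prpU hx h) ⟨hz, hzz⟩).mono fun _ _ h => h.2)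

theorem stepK_link (k : Bool × ℕ) {x x' : P4 g n} (hx : AllInv4 x) (h : PrpT (tup4 x) (tup4 x'))
    (s : Fin n → ℂ) (hz : IsUnit (pS s (mxK minv k x)).det) :
    ∃ s' : Fin n → ℂ, PrpT (tup4 (stepK minv k x s)) (tup4 (stepK madj k x' s')) := by
  obtain ⟨s', hs'⟩ := (mxK_link k hx h).exists_pS s
  refine ⟨s', ?_⟩
  unfold stepK
  rw [hs']
  exact flowK_link k hx h hz (Prp.refl _)

/-! ### (F4) -/

/-- scalar multiples, the scalar may vanish. -/
def Smu (A B : Mat n) : Prop := ∃ c : ℂ, B = c • A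

theorem Smu.mul {A A' B B' : Mat n} (h : Smu A A') (h' : Smu B B') : Smu (A * B) (A' * B') := by
  obtain ⟨c, rfl⟩ := h
  obtain ⟨d, rfl⟩ := h'
  exact ⟨c * d, by rw [smul_mul_smul_comm]⟩

theorem Smu.pow {A A' : Mat n} (h : Smu A A') (j : ℕ) : Smu (A ^ j) (A' ^ j) := by
  obtain ⟨c, rfl⟩ := h
  exact ⟨c ^ j, by rw [smul_pow]⟩

theorem Smu.madj {A A' : Mat n} (h : Smu A A') : Smu (madj A) (madj A') := by
  obtain ⟨c, rfl⟩ := h
  exact ⟨c ^ (Fintype.card (Fin n) - 1), adjugate_smul _ _⟩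

theorem linkRel_smu : LinkRel (n := n) Smu madj madj where
  mul := Smu.mul
  pow := Smu.pow
  inv := Smu.madj

/-- the adjugate flow is compatible with blockwise scalar multiples (possibly zero). -/
theorem flowK_smu (k : Bool × ℕ) {x x' : P4 g n} (h : ∀ i c, Smu (tup4 x i c) (tup4 x' i c))
    {z z' : Mat n} (hz : Smu z z') :
    ∀ i c, Smu (tup4 (flowK madj k x z) i c) (tup4 (flowK madj k x' z') i c) :=
  rel4_tup4.mpr (linkRel_smu.flowK k (rel4_tup4.mp h) hz)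

theorem mxK_smu (k : Bool × ℕ) {x x' : P4 g n} (h : ∀ i c, Smu (tup4 x i c) (tup4 x' i c)) :
    Smu (mxK madj k x) (mxK madj k x') :=
  linkRel_smu.mxK k (rel4_tup4.mp h)

/-- equal matrices of determinant one. -/
def EqSL (A A' : Mat n) : Prop := A.det = 1 ∧ A' = A

theorem linkRel_eqSL : LinkRel (n := n) EqSL minv madj where
  mul := by
    rintro A A' B B' ⟨h1, rfl⟩ ⟨h3, rfl⟩
    exact ⟨by rw [det_mul, h1, h3, one_mul], rfl⟩
  pow := by
    rintro A A' ⟨h1, rfl⟩ j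
    exact ⟨by rw [det_pow, h1, one_pow], rfl⟩
  inv := by
    rintro A A' ⟨h1, rfl⟩
    have hu : IsUnit A'.det := by rw [h1]; exact isUnit_one
    refine ⟨?_, ?_⟩
    · show (A'⁻¹).det = 1
      rw [det_nonsing_inv, h1, Ring.inverse_one]
    · show A'.adjugate = A'⁻¹
      rw [Moves2_adjugate_eq hu, h1, one_smul]

/-- the second matrix has determinant one and entries in `S`. -/
def InSL (S : Subring ℂ) (_A A' : Mat n) : Prop := A'.det = 1 ∧ ∀ p q, A' p q ∈ S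

theorem Moves2_det_mem (S : Subring ℂ) {A : Mat n} (h : ∀ p q, A p q ∈ S) : A.det ∈ S := by
  rw [det_apply]
  refine S.sum_mem fun σ _ => ?_
  rcases Int.units_eq_one_or (Equiv.Perm.sign σ) with h1 | h1
  · rw [h1, one_smul]
    exact S.prod_mem fun i _ => h _ _
  · rw [h1, Units.neg_smul, one_smul]
    exact S.neg_mem (S.prod_mem fun i _ => h _ _)

theorem Moves2_adjugate_mem (S : Subring ℂ) {A : Mat n} (h : ∀ p q, A p q ∈ S) (p q : Fin n) :
    A.adjugate p q ∈ S := by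
  rw [adjugate_apply]
  refine Moves2_det_mem S fun a b => ?_
  by_cases hab : a = q
  · subst hab
    rw [updateRow_self]
    by_cases hb : p = b
    · subst hb
      rw [Pi.single_eq_same]
      exact S.one_mem
    · rw [Pi.single_eq_of_ne (Ne.symm hb)]
      exact S.zero_mem
  · rw [updateRow_ne hab]
    exact h a b

theorem Moves2_mul_mem (S : Subring ℂ) {A B : Mat n} (hA : ∀ p q, A p q ∈ S)
    (hB : ∀ p q, B p q ∈ S) (p q : Fin n) : (A * B) p q ∈ S := by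
  rw [mul_apply]
  exact S.sum_mem fun i _ => S.mul_mem (hA _ _) (hB _ _)

theorem Moves2_pow_mem (S : Subring ℂ) {A : Mat n} (hA : ∀ p q, A p q ∈ S) (j : ℕ) :
    ∀ p q, (A ^ j) p q ∈ S := by
  induction j with
  | zero =>
    intro p q
    rw [pow_zero, one_apply]
    split_ifs
    · exact S.one_mem
    · exact S.zero_mem
  | succ j ih =>
    rw [pow_succ]
    exact Moves2_mul_mem S ih hA

theorem linkRel_inSL (S : Subring ℂ) (iv : Mat n → Mat n) : LinkRel (n := n) (InSL S) iv madj where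
  mul := by
    rintro A A' B B' ⟨h1, h2⟩ ⟨h3, h4⟩
    exact ⟨by rw [det_mul, h1, h3, one_mul], Moves2_mul_mem S h2 h4⟩
  pow := by
    rintro A A' ⟨h1, h2⟩ j
    exact ⟨by rw [det_pow, h1, one_pow], Moves2_pow_mem S h2 j⟩
  inv := by
    rintro A A' ⟨h1, h2⟩
    refine ⟨?_, Moves2_adjugate_mem S h2⟩
    show A'.adjugate.det = 1
    rw [det_adjugate, h1, one_pow]

theorem Rel4.eq_of_eqSL {x x' : P4 g n} (h : Rel4 EqSL x x') : x' = x := by
  obtain ⟨σ, A1, B1, A2, B2⟩ := x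
  obtain ⟨σ', A1', B1', A2', B2'⟩ := x'
  obtain ⟨h0, h1, h2, h3, h4⟩ := h
  have h0' : σ' = σ := by
    funext i c
    exact (h0 i c).2
  simp only at h1 h2 h3 h4
  rw [h0', h1.2, h2.2, h3.2, h4.2]

/-- the honest flows with `z = Mx^m` preserve `mu = 1`. -/
theorem Moves2_mu_flowK (k : Bool × ℕ) {x : P4 g n} (hx : AllInv4 x) (hmu : mu (tup4 x) = 1)
    (m : ℕ) : mu (tup4 (flowK minv k x (mxK minv k x ^ m))) = 1 := by
  have key : ∀ (j : ℕ) {y : P4 g n}, AllInv4 y → mu (tup4 y) = 1 →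
      AllInv4 (flow minv j y (flMx minv j y ^ m)) ∧
        mu (tup4 (flow minv j y (flMx minv j y ^ m))) = 1 := by
    intro j y hy hmy
    have hM : IsUnit (flMx minv j y).det :=
      (linkRel_prpU.flMx j (rel4_prpU hy (fun i c => Prp.refl _))).1
    have hz : IsUnit (flMx minv j y ^ m).det := by rw [det_pow]; exact hM.pow m
    obtain ⟨h1, h2, h3⟩ := flow_spec j hy hz (Commute.pow_self _ _).eq
    refine ⟨h1, ?_⟩
    rw [h3, hmy, Matrix.mul_one, nonsing_inv_mul _ h2]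
  unfold flowK mxK preK
  split_ifs
  · obtain ⟨h1, h2, -⟩ := psi_spec hx
    obtain ⟨h3, h4⟩ := key k.2 h1 (h2.trans hmu)
    rw [(psiInv_spec h3).2, h4]
  · exact (key k.2 hx hmu).2

/-- on `S`-points the flow with `z = Mx^m` is an integral move.  (All determinants are `1`, so
`madj = minv` on everything in sight; `mu = 1` by `flow_spec`; entries: products and adjugates of matrices
with entries in `S` have entries in `S`.) -/
theorem flowK_mem_RS (S : Subring ℂ) (k : Bool × ℕ) {x : P4 g n} (hx : tup4 x ∈ RS S (g + 2) n)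
    (m : ℕ) : tup4 (flowK madj k x (mxK madj k x ^ m)) ∈ RS S (g + 2) n := by
  obtain ⟨⟨hdet, hmu⟩, hS⟩ := hx
  have hE : Rel4 EqSL x x := rel4_tup4.mp fun i c => ⟨hdet i c, rfl⟩
  have hI : Rel4 (InSL S) x x := rel4_tup4.mp fun i c => ⟨hdet i c, hS i c⟩
  have hinv : AllInv4 x := allInv_tup4.mp fun i c => by rw [hdet i c]; exact isUnit_one
  have hM : mxK madj k x = mxK minv k x := (linkRel_eqSL.mxK k hE).2
  have hF : flowK madj k x (mxK madj k x ^ m) = flowK minv k x (mxK minv k x ^ m) :=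
    (linkRel_eqSL.flowK k hE (linkRel_eqSL.pow (linkRel_eqSL.mxK k hE) m)).eq_of_eqSL
  have hI' := rel4_tup4.mpr ((linkRel_inSL S madj).flowK k hI
    ((linkRel_inSL S madj).pow ((linkRel_inSL S madj).mxK k hI) m))
  refine ⟨⟨fun i c => (hI' i c).1, ?_⟩, fun i c => (hI' i c).2⟩
  rw [hF]
  exact Moves2_mu_flowK k hinv hmu m

theorem flowK_mem_Cone (S : Subring ℂ) (k : Bool × ℕ) {x : P4 g n} (hx : tup4 x ∈ Cone S (g + 2) n)
    (m : ℕ) (l : ℂ) : tup4 (flowK madj k x (l • mxK madj k x ^ m)) ∈ Cone S (g + 2) n := by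
  obtain ⟨ρ₀, h0, t, ht⟩ := hx
  obtain ⟨x₀, rfl⟩ : ∃ x₀ : P4 g n, tup4 x₀ = ρ₀ :=
    ⟨(tup4L g n).symm ρ₀, (tup4L g n).apply_symm_apply ρ₀⟩
  have hs : ∀ i c, Smu (tup4 x₀ i c) (tup4 x i c) := fun i c => ⟨t i c, by rw [ht]; rfl⟩
  have hz : Smu (mxK madj k x₀ ^ m) (l • mxK madj k x ^ m) := by
    obtain ⟨c, hc⟩ := (mxK_smu k hs).pow m
    exact ⟨l * c, by rw [hc, smul_smul]⟩
  have := flowK_smu k hs hz
  choose t' ht' using this
  exact ⟨_, flowK_mem_RS S k h0 m, t', by funext i c; exact ht' i c⟩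

/-- the flow with `z = l Mx^m`, read on tuples. -/
noncomputable def Moves2Phi (k : Bool × ℕ) (m : ℕ) (l : ℂ) (ρ : Tup (g + 2) n) : Tup (g + 2) n :=
  tup4 (flowK madj k ((tup4L g n).symm ρ) (l • mxK madj k ((tup4L g n).symm ρ) ^ m))

theorem Moves2_polyMap_symm : PolyMap fun ρ : Tup (g + 2) n => (tup4L g n).symm ρ :=
  polyMap_linear ((tup4L g n).symm : Tup (g + 2) n →ₗ[ℂ] P4 g n)

theorem Moves2_polyMap_z (k : Bool × ℕ) (m : ℕ) (l : ℂ) :
    PolyMap fun ρ : Tup (g + 2) n => l • mxK madj k ((tup4L g n).symm ρ) ^ m :=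
  PolyMap.smul (PolyFun.const l) (((polyMap_mxK k).comp Moves2_polyMap_symm).matPow m)

theorem Moves2_polyMap_pair (k : Bool × ℕ) (m : ℕ) (l : ℂ) :
    PolyMap fun ρ : Tup (g + 2) n =>
      ((tup4L g n).symm ρ, l • mxK madj k ((tup4L g n).symm ρ) ^ m) :=
  Moves2_polyMap_symm.prodMk (Moves2_polyMap_z k m l)

theorem Moves2_polyMap_flow (k : Bool × ℕ) (m : ℕ) (l : ℂ) :
    PolyMap fun ρ : Tup (g + 2) n =>
      flowK madj k ((tup4L g n).symm ρ) (l • mxK madj k ((tup4L g n).symm ρ) ^ m) := by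
  have h1 := polyMap_flowK (g := g) (n := n) k
  have h2 := Moves2_polyMap_pair (g := g) (n := n) k m l
  intro ℓ
  have h3 := h1 ℓ
  have h4 := PolyFun.comp h3 h2
  exact h4

theorem Moves2_polyMap_tup4 : PolyMap fun x : P4 g n => tup4 x :=
  polyMap_linear ((tup4L g n) : P4 g n →ₗ[ℂ] Tup (g + 2) n)

theorem Moves2_polyMap_Phi (k : Bool × ℕ) (m : ℕ) (l : ℂ) :
    PolyMap (Moves2Phi (g := g) (n := n) k m l) := by
  have h1 := Moves2_polyMap_tup4 (g := g) (n := n)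
  have h2 := Moves2_polyMap_flow (g := g) (n := n) k m l
  intro ℓ
  have h3 := h1 ℓ
  have h4 := PolyFun.comp h3 h2
  exact h4

/-- (F4) (`PolyMap.maps_ZCl` through the linear equivalence `tup4L`). -/
theorem flowK_mem_VC (S : Subring ℂ) (k : Bool × ℕ) {x : P4 g n} (hx : tup4 x ∈ VC S (g + 2) n)
    (m : ℕ) (l : ℂ) : tup4 (flowK madj k x (l • mxK madj k x ^ m)) ∈ VC S (g + 2) n := by
  have h1 : ∀ a ∈ Cone S (g + 2) n, Moves2Phi k m l a ∈ ZCl (Cone S (g + 2) n) := by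
    intro a ha
    refine subset_ZCl _ ?_
    refine flowK_mem_Cone S k ?_ m l
    have : tup4 ((tup4L g n).symm a) = a := (tup4L g n).apply_symm_apply a
    rw [this]
    exact ha
  have h2 := PolyMap.maps_ZCl (Moves2_polyMap_Phi k m l) h1 (tup4 x) hx
  have hx' : (tup4L g n).symm (tup4 x) = x := (tup4L g n).symm_apply_apply x
  unfold Moves2Phi at h2
  rw [hx'] at h2
  exact h2

end Claimed.Agent.R236
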