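import Claimed.Agent.R236.Deriv

/-!
# Row 236: open mapping wrappers (blueprint section 6)
-/

namespace Claimed.Agent.R236

open Matrix Module Topology Filter

variable {g n : ℕ}

attribute [local instance] Matrix.linftyOpNormedRing Matrix.linftyOpNormedAlgebra

/-- (O1) upper semicontinuity of the dimension of the kernel.
Take a complement `K_c` of `ker (T x)`; `T x` is injective on it; injectivity is an open condition
(`ContinuousLinearMap.isOpen_injective`), so `ker (T x') ⊓ K_c = ⊥` nearby. -/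
theorem usc_ker {X V W : Type*} [TopologicalSpace X] [NormedAddCommGroup V] [NormedSpace ℂ V]
    [FiniteDimensional ℂ V] [NormedAddCommGroup W] [NormedSpace ℂ W]
    (T : X → V →L[ℂ] W) (hT : Continuous T) (x : X) :
    ∀ᶠ x' in 𝓝 x, finrank ℂ (LinearMap.ker (T x' : V →ₗ[ℂ] W))
      ≤ finrank ℂ (LinearMap.ker (T x : V →ₗ[ℂ] W)) := by
  obtain ⟨Kc, hKc⟩ := Submodule.exists_isCompl (LinearMap.ker (T x : V →ₗ[ℂ] W))
  have hcont : Continuous fun x' => (T x').comp Kc.subtypeL :=
    hT.clm_comp continuous_const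
  have hinj : Function.Injective ((T x).comp Kc.subtypeL) := by
    intro a b hab
    have h1 : ((a - b : Kc) : V) ∈ LinearMap.ker (T x : V →ₗ[ℂ] W) := by
      rw [LinearMap.mem_ker]
      have : T x (a : V) = T x (b : V) := hab
      simp [this]
    have h2 : ((a - b : Kc) : V) = 0 := by
      have := hKc.disjoint.le_bot ⟨h1, (a - b).2⟩
      simpa using this
    have h3 : a - b = 0 := Subtype.ext h2
    exact sub_eq_zero.1 h3
  have hopen := (ContinuousLinearMap.isOpen_injective (𝕜 := ℂ) (E := Kc) (F := W)).preimage hcont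
  filter_upwards [hopen.mem_nhds hinj] with x' hx'
  have hdisj : Disjoint (LinearMap.ker (T x' : V →ₗ[ℂ] W)) Kc := by
    rw [Submodule.disjoint_def]
    intro v hv hvK
    have h1 : ((T x').comp Kc.subtypeL) ⟨v, hvK⟩ = ((T x').comp Kc.subtypeL) 0 := by
      have : T x' v = 0 := hv
      simp [this]
    have h2 := hx' h1
    exact congrArg Subtype.val h2
  have h1 := Submodule.finrank_add_finrank_le_of_disjoint hdisj
  have h2 := Submodule.finrank_add_eq_of_isCompl hKc
  omega

/-- `u ↦ (u X_v - X_v u)_v`. -/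
def comT (ρ : Tup g n) : Mat n →ₗ[ℂ] Tup g n :=
  LinearMap.pi fun i => LinearMap.pi fun c => adL (ρ i c)

theorem ker_comT (ρ : Tup g n) : LinearMap.ker (comT ρ) = commSub ρ := by
  ext u
  rw [LinearMap.mem_ker]
  constructor
  · intro h i c
    have h1 := congrFun (congrFun h i) c
    have h2 : u * ρ i c - ρ i c * u = 0 := h1
    exact sub_eq_zero.1 h2
  · intro h
    funext i c
    have h2 : u * ρ i c - ρ i c * u = 0 := sub_eq_zero.2 (h i c)
    exact h2

theorem eventually_finrank_commSub_le (ρ : Tup g n) :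
    ∀ᶠ ρ' in 𝓝 ρ, finrank ℂ (commSub ρ') ≤ finrank ℂ (commSub ρ) := by
  have hcont : Continuous fun ρ' : Tup g n => LinearMap.toContinuousLinearMap (comT ρ') := by
    refine continuous_clm_apply.2 fun u => ?_
    refine continuous_pi fun i => continuous_pi fun c => ?_
    have h1 : Continuous fun ρ' : Tup g n => ρ' i c :=
      (continuous_apply c).comp (continuous_apply i)
    exact (continuous_const.mul h1).sub (h1.mul continuous_const)
  have h := usc_ker (fun ρ' : Tup g n => LinearMap.toContinuousLinearMap (comT ρ')) hcont ρ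
  filter_upwards [h] with ρ' hρ'
  rw [← ker_comT, ← ker_comT]
  exact hρ'

theorem isSchur_iff_finrank (hn : 1 ≤ n) (ρ : Tup g n) : IsSchur ρ ↔ finrank ℂ (commSub ρ) = 1 := by
  have : Nonempty (Fin n) := ⟨⟨0, hn⟩⟩
  have h1 : (1 : Mat n) ∈ commSub ρ := fun i c => by rw [one_mul, mul_one]
  have hne : (⟨1, h1⟩ : commSub ρ) ≠ 0 := by
    intro h
    exact one_ne_zero (congrArg Subtype.val h)
  rw [finrank_eq_one_iff_of_nonzero' _ hne]
  constructor
  · intro hS w
    obtain ⟨a, ha⟩ := hS w.1 w.2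
    exact ⟨a, Subtype.ext ha.symm⟩
  · intro h w hw
    obtain ⟨a, ha⟩ := h ⟨w, hw⟩
    exact ⟨a, (congrArg Subtype.val ha).symm⟩

theorem one_le_finrank_commSub (hn : 1 ≤ n) (ρ : Tup g n) : 1 ≤ finrank ℂ (commSub ρ) := by
  have : Nonempty (Fin n) := ⟨⟨0, hn⟩⟩
  have h1 : (1 : Mat n) ∈ commSub ρ := fun i c => by rw [one_mul, mul_one]
  rw [Submodule.one_le_finrank_iff]
  intro h
  rw [h, Submodule.mem_bot] at h1
  exact one_ne_zero h1

theorem isOpen_isSchur (hn : 1 ≤ n) : IsOpen {ρ : Tup g n | IsSchur ρ} := by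
  rw [isOpen_iff_eventually]
  intro ρ hρ
  have h1 := (isSchur_iff_finrank hn ρ).1 hρ
  filter_upwards [eventually_finrank_commSub_le ρ] with ρ' hρ'
  rw [isSchur_iff_finrank hn]
  have := one_le_finrank_commSub hn ρ'
  omega

theorem isOpen_allInv : IsOpen {ρ : Tup g n | AllInv ρ} := by
  have h : {ρ : Tup g n | AllInv ρ} = ⋂ i, ⋂ c, {ρ : Tup g n | (ρ i c).det ≠ 0} := by
    ext ρ
    simp only [Set.mem_ofPred_eq, Set.mem_iInter, AllInv, isUnit_iff_ne_zero]
  rw [h]
  refine isOpen_iInter_of_finite fun i => isOpen_iInter_of_finite fun c => ?_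
  have h1 : Continuous fun ρ' : Tup g n => ρ' i c :=
    (continuous_apply c).comp (continuous_apply i)
  exact isOpen_ne_fun h1.matrix_det continuous_const

/-- (O2) -/
theorem eventually_eq_one_of_pow_eq_one (hn : 1 ≤ n) : ∀ᶠ s : ℂ in 𝓝 1, s ^ n = 1 → s = 1 := by
  have hfin : (((Polynomial.nthRootsFinset n (1 : ℂ)).erase 1 : Finset ℂ) : Set ℂ).Finite :=
    Finset.finite_toSet _
  have hmem : (1 : ℂ) ∈ (((Polynomial.nthRootsFinset n (1 : ℂ)).erase 1 : Finset ℂ) : Set ℂ)ᶜ := by
    simp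
  filter_upwards [hfin.isClosed.isOpen_compl.mem_nhds hmem] with s hs hsn
  by_contra hne
  apply hs
  rw [Finset.mem_coe, Finset.mem_erase]
  exact ⟨hne, (Polynomial.mem_nthRootsFinset hn (1 : ℂ)).2 hsn⟩

end Claimed.Agent.R236
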