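import Claimed.Agent.R236.OpenMap

/-!
# Row 236: open mapping wrappers, part 2 (blueprint section 6: O3, O4)
-/

namespace Claimed.Agent.R236

open Matrix Module Topology Filter

variable {g n : ℕ}

attribute [local instance] Matrix.linftyOpNormedRing Matrix.linftyOpNormedAlgebra

/-- open mapping in the form used for the ambient trick. -/
theorem om_surj {E P : Type*} [NormedAddCommGroup E] [NormedSpace ℂ E] [FiniteDimensional ℂ E]
    [NormedAddCommGroup P] [NormedSpace ℂ P] [FiniteDimensional ℂ P]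
    {Ψ : P → E} {Ψ' : P →L[ℂ] E} {p₀ : P} (hΨ : HasStrictFDerivAt Ψ Ψ' p₀)
    (hsurj : Function.Surjective Ψ') :
    ∀ U ∈ 𝓝 p₀, ∀ᶠ x in 𝓝 (Ψ p₀), ∃ p ∈ U, Ψ p = x := by
  intro U hU
  have : CompleteSpace E := FiniteDimensional.complete ℂ E
  have : CompleteSpace P := FiniteDimensional.complete ℂ P
  have h1 : map Ψ (𝓝 p₀) = 𝓝 (Ψ p₀) :=
    hΨ.map_nhds_eq_of_surj (LinearMap.range_eq_top.2 hsurj)
  have h2 : Ψ '' U ∈ 𝓝 (Ψ p₀) := by
    rw [← h1]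
    exact image_mem_map hU
  filter_upwards [h2] with x hx
  obtain ⟨p, hp, rfl⟩ := hx
  exact ⟨p, hp, rfl⟩

/-- (O3) open mapping on `RC`.  Apply `HasStrictFDerivAt.map_nhds_eq_of_surj` to
`(ρ', e, s) ↦ (mu ρ' - s • 1, h (ρ', e))` at `(ρ, e', 1)`; its derivative is onto by `dmu_surj`
(traceless part), the variable `s` (scalar part) and `hsurj`.  A zero of the first component near the
base point has `mu ρ' = s • 1`, `s ^ n = det = 1`, so `s = 1`. -/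
theorem om_RC (hn : 1 ≤ n) {ρ : Tup g n} (hρ : ρ ∈ RC g n) (hS : IsSchur ρ)
    {E' F' : Type*} [NormedAddCommGroup E'] [NormedSpace ℂ E'] [FiniteDimensional ℂ E']
    [NormedAddCommGroup F'] [NormedSpace ℂ F'] [FiniteDimensional ℂ F']
    (h : Tup g n × E' → F') (h' : Tup g n × E' →L[ℂ] F') (e' : E')
    (hh : HasStrictFDerivAt h h' (ρ, e'))
    (hsurj : ∀ y, ∃ δ δ', dmu ρ δ = 0 ∧ h' (δ, δ') = y) :
    ∀ N ∈ 𝓝 (ρ, e'), h '' (N ∩ {x | x.1 ∈ RC g n}) ∈ 𝓝 (h (ρ, e')) := by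
  intro N hN
  have hn0 : (n : ℂ) ≠ 0 := by
    exact_mod_cast (by omega : n ≠ 0)
  obtain ⟨hinv, hmu⟩ := hρ
  set Φ : (Tup g n × E') × ℂ → Mat n × F' :=
    fun x => (mu x.1.1 - x.2 • (1 : Mat n), h x.1) with hΦ
  set Φ' : (Tup g n × E') × ℂ →L[ℂ] Mat n × F' :=
    (((LinearMap.toContinuousLinearMap (dmuL ρ)).comp
        ((ContinuousLinearMap.fst ℂ (Tup g n) E').comp
          (ContinuousLinearMap.fst ℂ (Tup g n × E') ℂ)))
      - (ContinuousLinearMap.snd ℂ (Tup g n × E') ℂ).smulRight (1 : Mat n)).prod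
      (h'.comp (ContinuousLinearMap.fst ℂ (Tup g n × E') ℂ)) with hΦ'
  have hΦd : HasStrictFDerivAt Φ Φ' ((ρ, e'), 1) := by
    have h0 : HasStrictFDerivAt (fun x : (Tup g n × E') × ℂ => x.1.1)
        ((ContinuousLinearMap.fst ℂ (Tup g n) E').comp
          (ContinuousLinearMap.fst ℂ (Tup g n × E') ℂ)) ((ρ, e'), 1) :=
      ((ContinuousLinearMap.fst ℂ (Tup g n) E').comp
          (ContinuousLinearMap.fst ℂ (Tup g n × E') ℂ)).hasStrictFDerivAt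
    have h1 : HasStrictFDerivAt (fun x : (Tup g n × E') × ℂ => mu x.1.1)
        ((LinearMap.toContinuousLinearMap (dmuL ρ)).comp
          ((ContinuousLinearMap.fst ℂ (Tup g n) E').comp
            (ContinuousLinearMap.fst ℂ (Tup g n × E') ℂ))) ((ρ, e'), 1) :=
      HasStrictFDerivAt.comp ((ρ, e'), (1 : ℂ)) (g := mu)
        (f := fun x : (Tup g n × E') × ℂ => x.1.1) (hasStrictFDerivAt_mu hinv) h0
    have h2 : HasStrictFDerivAt (fun x : (Tup g n × E') × ℂ => x.2 • (1 : Mat n))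
        ((ContinuousLinearMap.snd ℂ (Tup g n × E') ℂ).smulRight (1 : Mat n)) ((ρ, e'), 1) :=
      ((ContinuousLinearMap.snd ℂ (Tup g n × E') ℂ).smulRight (1 : Mat n)).hasStrictFDerivAt
    have h3 : HasStrictFDerivAt (fun x : (Tup g n × E') × ℂ => h x.1)
        (h'.comp (ContinuousLinearMap.fst ℂ (Tup g n × E') ℂ)) ((ρ, e'), 1) :=
      HasStrictFDerivAt.comp ((ρ, e'), (1 : ℂ)) (g := h) (f := Prod.fst) hh hasStrictFDerivAt_fst
    exact (h1.sub h2).prodMk h3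
  have hΦ'apply : ∀ (δ : Tup g n) (δ' : E') (t : ℂ),
      Φ' ((δ, δ'), t) = (dmu ρ δ - t • (1 : Mat n), h' (δ, δ')) := by
    intro δ δ' t
    simp [hΦ', dmuL]
  have hΦs : Function.Surjective Φ' := by
    rintro ⟨w, y⟩
    set t : ℂ := -(trace w / n) with ht
    have htr : trace (w + t • (1 : Mat n)) = 0 := by
      rw [trace_add, trace_smul, trace_one, Fintype.card_fin, ht, smul_eq_mul]
      field_simp
      ring
    obtain ⟨δ1, hδ1⟩ := dmu_surj hinv hS _ htr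
    rw [hmu, inv_one, Matrix.mul_one] at hδ1
    obtain ⟨δ2, δ2', h1, h2⟩ := hsurj (y - h' (δ1, 0))
    refine ⟨((δ1 + δ2, δ2'), t), ?_⟩
    rw [hΦ'apply, dmu_add, h1, add_zero, hδ1, add_sub_cancel_right]
    have h3 : h' (δ1 + δ2, δ2') = h' (δ1, 0) + h' (δ2, δ2') := by
      rw [← map_add]
      simp
    rw [h3, h2, add_sub_cancel]
  have hW : {x : (Tup g n × E') × ℂ | x.1 ∈ N ∧ AllInv x.1.1 ∧ (x.2 ^ n = 1 → x.2 = 1)}
      ∈ 𝓝 (((ρ, e'), 1) : (Tup g n × E') × ℂ) := by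
    have h1 : ∀ᶠ x : (Tup g n × E') × ℂ in 𝓝 ((ρ, e'), 1), x.1 ∈ N :=
      (continuous_fst.tendsto (((ρ, e'), 1) : (Tup g n × E') × ℂ)).eventually hN
    have h2 : ∀ᶠ x : (Tup g n × E') × ℂ in 𝓝 ((ρ, e'), 1), AllInv x.1.1 :=
      ((continuous_fst.comp continuous_fst).tendsto
        (((ρ, e'), 1) : (Tup g n × E') × ℂ)).eventually (isOpen_allInv.mem_nhds hinv)
    have h3 : ∀ᶠ x : (Tup g n × E') × ℂ in 𝓝 ((ρ, e'), 1), x.2 ^ n = 1 → x.2 = 1 :=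
      (continuous_snd.tendsto (((ρ, e'), 1) : (Tup g n × E') × ℂ)).eventually
        (eventually_eq_one_of_pow_eq_one hn)
    filter_upwards [h1, h2, h3] with x a b c
    exact ⟨a, b, c⟩
  have hopen := om_surj hΦd hΦs _ hW
  have hbase : Φ ((ρ, e'), 1) = (0, h (ρ, e')) := by simp [hΦ, hmu]
  rw [hbase] at hopen
  have hcont : Tendsto (fun y : F' => ((0 : Mat n), y)) (𝓝 (h (ρ, e'))) (𝓝 (0, h (ρ, e'))) :=
    (Continuous.prodMk continuous_const continuous_id).tendsto _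
  filter_upwards [hcont.eventually hopen] with y hy
  obtain ⟨⟨⟨ρ', e⟩, s⟩, ⟨h1, h2, h3⟩, h4⟩ := hy
  simp only [hΦ, Prod.mk.injEq] at h4
  obtain ⟨h5, h6⟩ := h4
  have h7 : mu ρ' = s • (1 : Mat n) := sub_eq_zero.1 h5
  have h8 : s ^ n = 1 := by
    have := det_mu h2
    rw [h7, Matrix.det_smul, Fintype.card_fin, Matrix.det_one, mul_one] at this
    exact this
  have hs : s = 1 := h3 h8
  refine ⟨(ρ', e), ⟨h1, h2, ?_⟩, h6⟩
  rw [h7, hs, one_smul]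

/-- openness of `mu` at a Schur tuple (used for "the last handle is free"): every matrix of
determinant one near `mu σ` is `mu σ'` with `σ'` near `σ`.
(`(σ', s) ↦ s • mu σ'` is open at `(σ, 1)`.) -/
theorem om_mu (hn : 1 ≤ n) {σ : Tup g n} (hσ : AllInv σ) (hS : IsSchur σ) :
    ∀ N ∈ 𝓝 σ, ∀ᶠ y in 𝓝 (mu σ), y.det = 1 → ∃ σ' ∈ N, AllInv σ' ∧ mu σ' = y := by
  intro N hN
  have hn0 : (n : ℂ) ≠ 0 := by
    exact_mod_cast (by omega : n ≠ 0)
  have hM : IsUnit (mu σ).det := by rw [det_mu hσ]; exact isUnit_one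
  set G : Tup g n × ℂ → Mat n := fun x => x.2 • mu x.1 with hG
  set G' : Tup g n × ℂ →L[ℂ] Mat n :=
    (1 : ℂ) • (LinearMap.toContinuousLinearMap (dmuL σ)).comp (ContinuousLinearMap.fst ℂ (Tup g n) ℂ)
      + (ContinuousLinearMap.snd ℂ (Tup g n) ℂ).smulRight (mu σ) with hG'
  have hGd : HasStrictFDerivAt G G' (σ, 1) := by
    have h1 : HasStrictFDerivAt (fun x : Tup g n × ℂ => mu x.1)
        ((LinearMap.toContinuousLinearMap (dmuL σ)).comp (ContinuousLinearMap.fst ℂ (Tup g n) ℂ))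
        (σ, 1) :=
      HasStrictFDerivAt.comp (σ, (1 : ℂ)) (g := mu) (f := Prod.fst) (hasStrictFDerivAt_mu hσ)
        hasStrictFDerivAt_fst
    have h2 : HasStrictFDerivAt (fun x : Tup g n × ℂ => x.2)
        (ContinuousLinearMap.snd ℂ (Tup g n) ℂ) (σ, 1) := hasStrictFDerivAt_snd
    exact h2.smul h1
  have hGs : Function.Surjective G' := by
    intro y
    set t : ℂ := trace (y * (mu σ)⁻¹) / n with ht
    have htr : trace (y * (mu σ)⁻¹ - t • (1 : Mat n)) = 0 := by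
      rw [trace_sub, trace_smul, trace_one, Fintype.card_fin, ht, smul_eq_mul]
      field_simp
      ring
    obtain ⟨δ, hδ⟩ := dmu_surj hσ hS _ htr
    refine ⟨(δ, t), ?_⟩
    have h3 : dmu σ δ = y - t • mu σ := by
      have h4 : dmu σ δ * (mu σ)⁻¹ * mu σ = (y * (mu σ)⁻¹ - t • (1 : Mat n)) * mu σ := by rw [hδ]
      rw [Matrix.mul_assoc, Matrix.nonsing_inv_mul _ hM, Matrix.mul_one, Matrix.sub_mul,
        Matrix.mul_assoc, Matrix.nonsing_inv_mul _ hM, Matrix.mul_one, Matrix.smul_mul,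
        Matrix.one_mul] at h4
      exact h4
    have h5 : G' (δ, t) = dmu σ δ + t • mu σ := by
      simp [hG', dmuL]
    rw [h5, h3, sub_add_cancel]
  have hW : {x : Tup g n × ℂ | x.1 ∈ N ∧ AllInv x.1 ∧ (x.2 ^ n = 1 → x.2 = 1)}
      ∈ 𝓝 ((σ, 1) : Tup g n × ℂ) := by
    have h1 : ∀ᶠ x : Tup g n × ℂ in 𝓝 (σ, 1), x.1 ∈ N :=
      (continuous_fst.tendsto ((σ, 1) : Tup g n × ℂ)).eventually hN
    have h2 : ∀ᶠ x : Tup g n × ℂ in 𝓝 (σ, 1), AllInv x.1 :=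
      (continuous_fst.tendsto ((σ, 1) : Tup g n × ℂ)).eventually (isOpen_allInv.mem_nhds hσ)
    have h3 : ∀ᶠ x : Tup g n × ℂ in 𝓝 (σ, 1), x.2 ^ n = 1 → x.2 = 1 :=
      (continuous_snd.tendsto ((σ, 1) : Tup g n × ℂ)).eventually
        (eventually_eq_one_of_pow_eq_one hn)
    filter_upwards [h1, h2, h3] with x a b c
    exact ⟨a, b, c⟩
  have hopen := om_surj hGd hGs _ hW
  have hbase : G (σ, 1) = mu σ := by simp [hG]
  rw [hbase] at hopen
  filter_upwards [hopen] with y hy hdet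
  obtain ⟨⟨σ', s⟩, ⟨h1, h2, h3⟩, rfl⟩ := hy
  simp only [hG] at hdet ⊢
  rw [Matrix.det_smul, Fintype.card_fin, det_mu h2, mul_one] at hdet
  have hs : s = 1 := h3 hdet
  exact ⟨σ', h1, h2, by rw [hs, one_smul]⟩

/-- (O4) local parametrisation of a level set.
Let `c` be a complement of `ker L`.  `(p, c) ↦ Ψ p + c` has surjective strict derivative at `(p₀, 0)`, so
it is open there.  If `x = Ψ p + c` and `m x = m x₀ = m (Ψ p)` then
`‖L c‖ = ‖m (Ψ p + c) - m (Ψ p) - L c‖ ≤ ε ‖c‖` by strict differentiability, while `‖L c‖ ≥ a ‖c‖` on the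
complement: `c = 0`. -/
theorem local_param {E F P : Type*} [NormedAddCommGroup E] [NormedSpace ℂ E] [FiniteDimensional ℂ E]
    [NormedAddCommGroup F] [NormedSpace ℂ F] [NormedAddCommGroup P] [NormedSpace ℂ P]
    [FiniteDimensional ℂ P]
    {m : E → F} {L : E →L[ℂ] F} {x₀ : E} (hm : HasStrictFDerivAt m L x₀)
    {Ψ : P → E} {Ψ' : P →L[ℂ] E} {p₀ : P} (hΨ : HasStrictFDerivAt Ψ Ψ' p₀) (h0 : Ψ p₀ = x₀)
    (hc : ∀ᶠ p in 𝓝 p₀, m (Ψ p) = m x₀) (hker : ∀ δ, L δ = 0 → ∃ π, Ψ' π = δ) :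
    ∀ U ∈ 𝓝 p₀, ∀ᶠ x in 𝓝 x₀, m x = m x₀ → ∃ p ∈ U, Ψ p = x := by
  intro U hU
  obtain ⟨Cc, hCc⟩ := Submodule.exists_isCompl (LinearMap.ker (L : E →ₗ[ℂ] F))
  -- `L` is antilipschitz on the complement
  have hinj : LinearMap.ker ((L : E →ₗ[ℂ] F).comp Cc.subtype) = ⊥ := by
    rw [LinearMap.ker_eq_bot']
    intro c hc0
    have h1 : (c : E) ∈ LinearMap.ker (L : E →ₗ[ℂ] F) := by
      rw [LinearMap.mem_ker]
      exact hc0
    have h2 : (c : E) ∈ LinearMap.ker (L : E →ₗ[ℂ] F) ⊓ Cc := ⟨h1, c.2⟩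
    rw [hCc.inf_eq_bot, Submodule.mem_bot] at h2
    exact Subtype.ext h2
  obtain ⟨K, hK0, hK⟩ := LinearMap.exists_antilipschitzWith _ hinj
  have hanti : ∀ c : Cc, ‖c‖ ≤ K * ‖L c‖ := by
    intro c
    have := hK.le_mul_dist c 0
    simpa [dist_zero_right] using this
  -- the map `(p, c) ↦ Ψ p + c`
  set Φ : P × Cc → E := fun x => Ψ x.1 + (x.2 : E) with hΦ
  set Φ' : P × Cc →L[ℂ] E :=
    Ψ'.comp (ContinuousLinearMap.fst ℂ P Cc) + Cc.subtypeL.comp (ContinuousLinearMap.snd ℂ P Cc)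
    with hΦ'
  have hΦd : HasStrictFDerivAt Φ Φ' (p₀, 0) := by
    have h1 : HasStrictFDerivAt (fun x : P × Cc => Ψ x.1)
        (Ψ'.comp (ContinuousLinearMap.fst ℂ P Cc)) (p₀, 0) :=
      HasStrictFDerivAt.comp (p₀, (0 : Cc)) (g := Ψ) (f := Prod.fst) hΨ hasStrictFDerivAt_fst
    have h2 : HasStrictFDerivAt (fun x : P × Cc => (x.2 : E))
        (Cc.subtypeL.comp (ContinuousLinearMap.snd ℂ P Cc)) (p₀, 0) :=
      (Cc.subtypeL.comp (ContinuousLinearMap.snd ℂ P Cc)).hasStrictFDerivAt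
    exact h1.add h2
  have hΦs : Function.Surjective Φ' := by
    intro δ
    obtain ⟨k, hk, c, hcC, rfl⟩ : ∃ k ∈ LinearMap.ker (L : E →ₗ[ℂ] F), ∃ c ∈ Cc, k + c = δ := by
      have : δ ∈ LinearMap.ker (L : E →ₗ[ℂ] F) ⊔ Cc := by
        rw [hCc.sup_eq_top]; trivial
      exact Submodule.mem_sup.1 this
    obtain ⟨π, hπ⟩ := hker k hk
    exact ⟨(π, ⟨c, hcC⟩), by simp [hΦ', hπ]⟩
  -- strict differentiability of `m`
  have hsmall : ∀ᶠ q : E × E in 𝓝 (x₀, x₀),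
      ‖m q.1 - m q.2 - L (q.1 - q.2)‖ ≤ (1 / (2 * K) : ℝ) * ‖q.1 - q.2‖ :=
    hm.isLittleO.def (by positivity)
  have hcont : Tendsto (fun x : P × Cc => (Ψ x.1 + (x.2 : E), Ψ x.1)) (𝓝 (p₀, 0)) (𝓝 (x₀, x₀)) := by
    have h1 : Tendsto (fun x : P × Cc => Ψ x.1) (𝓝 (p₀, 0)) (𝓝 x₀) := by
      rw [← h0]
      exact hΨ.continuousAt.tendsto.comp (continuous_fst.tendsto _)
    have h2 : Tendsto (fun x : P × Cc => (x.2 : E)) (𝓝 (p₀, 0)) (𝓝 0) := by
      have : Continuous fun x : P × Cc => (x.2 : E) := continuous_subtype_val.comp continuous_snd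
      simpa using this.tendsto (p₀, 0)
    have h3 := h1.add h2
    rw [add_zero] at h3
    exact h3.prodMk_nhds h1
  have hW : {x : P × Cc | x.1 ∈ U ∧ m (Ψ x.1) = m x₀ ∧
      ‖m (Ψ x.1 + (x.2 : E)) - m (Ψ x.1) - L ((Ψ x.1 + (x.2 : E)) - Ψ x.1)‖
        ≤ (1 / (2 * K) : ℝ) * ‖(Ψ x.1 + (x.2 : E)) - Ψ x.1‖} ∈ 𝓝 ((p₀, 0) : P × Cc) := by
    have h1 : ∀ᶠ x : P × Cc in 𝓝 (p₀, 0), x.1 ∈ U := (continuous_fst.tendsto _).eventually hU
    have h2 : ∀ᶠ x : P × Cc in 𝓝 (p₀, 0), m (Ψ x.1) = m x₀ :=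
      (continuous_fst.tendsto ((p₀, 0) : P × Cc)).eventually hc
    have h3 := hcont.eventually hsmall
    filter_upwards [h1, h2, h3] with x a b c
    exact ⟨a, b, c⟩
  have hopen := om_surj hΦd hΦs _ hW
  have hbase : Φ (p₀, 0) = x₀ := by simp [hΦ, h0]
  rw [hbase] at hopen
  filter_upwards [hopen] with x hx hmx
  obtain ⟨⟨p, c⟩, ⟨hpU, hmp, hest⟩, rfl⟩ := hx
  refine ⟨p, hpU, ?_⟩
  simp only [hΦ] at hmx hest ⊢
  rw [hmx, hmp, sub_self, zero_sub, norm_neg, add_sub_cancel_left] at hest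
  have h4 := hanti c
  have h5 : ‖(c : E)‖ = ‖c‖ := rfl
  rw [h5] at hest
  have hKpos : (0 : ℝ) < K := by exact_mod_cast hK0
  have h6 : ‖c‖ ≤ ‖c‖ / 2 := by
    calc ‖c‖ ≤ K * ‖L c‖ := h4
      _ ≤ K * (1 / (2 * K) * ‖c‖) := mul_le_mul_of_nonneg_left hest hKpos.le
      _ = ‖c‖ / 2 := by field_simp
  have h7 : ‖c‖ = 0 := by
    have := norm_nonneg c
    linarith
  have h8 : c = 0 := norm_eq_zero.1 h7
  simp [h8]

end Claimed.Agent.R236
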