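import Claimed.Agent.R236.PropGCount
import Claimed.Agent.R236.OpenMap
import Claimed.Agent.R236.Cyc2

/-!
# Row 236: Prop G (blueprint section 8, step b)
-/

namespace Claimed.Agent.R236

open Matrix Module Topology Filter

variable {g n : ℕ}

attribute [local instance] Matrix.linftyOpNormedRing Matrix.linftyOpNormedAlgebra

section abstractWrapper

variable {X V Y : Type} [NormedAddCommGroup X] [NormedSpace ℂ X] [FiniteDimensional ℂ X]
  [NormedAddCommGroup V] [NormedSpace ℂ V] [FiniteDimensional ℂ V]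
  [NormedAddCommGroup Y] [NormedSpace ℂ Y] [FiniteDimensional ℂ Y]

/-- the bilinear map of the wrapper, algebraic version. -/
noncomputable def pgB₀ (T : X →ₗ[ℂ] V →ₗ[ℂ] Y) (Kc : Submodule ℂ V) (η : V) :
    X →ₗ[ℂ] (Y →L[ℂ] (Kc × ℂ)) →ₗ[ℂ] ((Kc →L[ℂ] (Kc × ℂ)) × ℂ) :=
  LinearMap.mk₂ ℂ
    (fun ρ' Γ => (LinearMap.toContinuousLinearMap
        ((Γ : Y →ₗ[ℂ] (Kc × ℂ)) ∘ₗ T ρ' ∘ₗ Kc.subtype), (Γ (T ρ' η)).2))
    (by
      intro a b Γ
      refine Prod.ext ?_ ?_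
      · ext x <;> simp
      · simp)
    (by
      intro t a Γ
      refine Prod.ext ?_ ?_
      · ext x <;> simp
      · simp)
    (by
      intro a Γ Γ'
      refine Prod.ext ?_ ?_
      · ext x <;> simp
      · simp)
    (by
      intro t a Γ
      refine Prod.ext ?_ ?_
      · ext x <;> simp
      · simp)

/-- the bilinear map of the wrapper, continuous version. -/
noncomputable def pgB (T : X →ₗ[ℂ] V →ₗ[ℂ] Y) (Kc : Submodule ℂ V) (η : V) :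
    X →L[ℂ] (Y →L[ℂ] (Kc × ℂ)) →L[ℂ] ((Kc →L[ℂ] (Kc × ℂ)) × ℂ) :=
  (pgB₀ T Kc η).toContinuousBilinearMap

theorem pgB_apply (T : X →ₗ[ℂ] V →ₗ[ℂ] Y) (Kc : Submodule ℂ V) (η : V) (ρ' : X)
    (Γ : Y →L[ℂ] (Kc × ℂ)) :
    pgB T Kc η ρ' Γ = (LinearMap.toContinuousLinearMap
        ((Γ : Y →ₗ[ℂ] (Kc × ℂ)) ∘ₗ T ρ' ∘ₗ Kc.subtype), (Γ (T ρ' η)).2) := rfl

theorem pg_abstract (T : X →ₗ[ℂ] V →ₗ[ℂ] Y) (R : Set X) (tan : Set X) (ρ : X)
    (hOM : ∀ (E' F' : Type) [NormedAddCommGroup E'] [NormedSpace ℂ E'] [FiniteDimensional ℂ E']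
      [NormedAddCommGroup F'] [NormedSpace ℂ F'] [FiniteDimensional ℂ F']
      (h : X × E' → F') (h' : X × E' →L[ℂ] F') (e' : E'),
      HasStrictFDerivAt h h' (ρ, e') → (∀ y, ∃ δ δ', δ ∈ tan ∧ h' (δ, δ') = y) →
      ∀ N ∈ 𝓝 (ρ, e'), h '' (N ∩ {x | x.1 ∈ R}) ∈ 𝓝 (h (ρ, e')))
    (η : V) (hη : T ρ η = 0) (δ₀ : X) (hδ : ∀ c : ℂ, c • δ₀ ∈ tan)
    (hgood : T δ₀ η ∉ LinearMap.range (T ρ)) :
    ∀ N ∈ 𝓝 ρ, ∃ ρ' ∈ N, ρ' ∈ R ∧
      finrank ℂ (LinearMap.ker (T ρ')) < finrank ℂ (LinearMap.ker (T ρ)) := by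
  intro N hN
  obtain ⟨Kc, hKc⟩ := Submodule.exists_isCompl (LinearMap.ker (T ρ))
  set y₀ : Y := T δ₀ η with hy₀
  -- the injective map `S`
  let S : (Kc × ℂ) →ₗ[ℂ] Y :=
    (T ρ ∘ₗ Kc.subtype).coprod (LinearMap.toSpanSingleton ℂ Y y₀)
  have hSapp : ∀ (x : Kc) (s : ℂ), S (x, s) = T ρ x + s • y₀ := by
    intro x s
    simp [S]
  have hSker : LinearMap.ker S = ⊥ := by
    rw [LinearMap.ker_eq_bot']
    rintro ⟨x, s⟩ hxs
    rw [hSapp] at hxs
    have hs : s = 0 := by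
      by_contra hs
      apply hgood
      refine ⟨-(s⁻¹ • (x : V)), ?_⟩
      have h1 : s • y₀ = -(T ρ x) := by
        rw [eq_neg_iff_add_eq_zero, add_comm]; exact hxs
      calc T ρ (-(s⁻¹ • (x : V))) = s⁻¹ • (-(T ρ x)) := by simp
        _ = s⁻¹ • (s • y₀) := by rw [h1]
        _ = y₀ := by rw [smul_smul, inv_mul_cancel₀ hs, one_smul]
    subst hs
    rw [zero_smul, add_zero] at hxs
    have hx0 : (x : V) ∈ LinearMap.ker (T ρ) ⊓ Kc := ⟨LinearMap.mem_ker.mpr hxs, x.2⟩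
    rw [hKc.inf_eq_bot, Submodule.mem_bot] at hx0
    have : x = 0 := Subtype.ext hx0
    rw [this]
    rfl
  obtain ⟨G₀, hG₀⟩ := S.exists_leftInverse_of_injective hSker
  have hG₀app : ∀ z, G₀ (S z) = z := fun z => LinearMap.congr_fun hG₀ z
  let G : Y →L[ℂ] (Kc × ℂ) := LinearMap.toContinuousLinearMap G₀
  have hGT : ∀ x : Kc, G (T ρ x) = (x, 0) := by
    intro x
    have := hG₀app (x, 0)
    rw [hSapp, zero_smul, add_zero] at this
    exact this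
  have hGy : G y₀ = (0, 1) := by
    have := hG₀app (0, 1)
    rw [hSapp, one_smul] at this
    simp only [ZeroMemClass.coe_zero, map_zero, zero_add] at this
    exact this
  -- the bilinear map
  let B := pgB T Kc η
  have hB := ContinuousLinearMap.isBoundedBilinearMap (𝕜 := ℂ) (E := X)
    (F := Y →L[ℂ] (Kc × ℂ)) (G := (Kc →L[ℂ] (Kc × ℂ)) × ℂ) B
  have hh := IsBoundedBilinearMap.hasStrictFDerivAt (𝕜 := ℂ) (E := X)
    (F := Y →L[ℂ] (Kc × ℂ)) (G := (Kc →L[ℂ] (Kc × ℂ)) × ℂ) hB (ρ, G)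
  have hsurj : ∀ y : (Kc →L[ℂ] (Kc × ℂ)) × ℂ, ∃ δ δ', δ ∈ tan ∧ hB.deriv (ρ, G) (δ, δ') = y := by
    rintro ⟨φ, c⟩
    let ψ : Kc →ₗ[ℂ] (Kc × ℂ) :=
      (φ : Kc →ₗ[ℂ] (Kc × ℂ)) - (G : Y →ₗ[ℂ] (Kc × ℂ)) ∘ₗ T (c • δ₀) ∘ₗ Kc.subtype
    let γ : Y →L[ℂ] (Kc × ℂ) :=
      LinearMap.toContinuousLinearMap (ψ ∘ₗ (LinearMap.fst ℂ Kc ℂ) ∘ₗ G₀)
    refine ⟨c • δ₀, γ, hδ c, ?_⟩
    rw [IsBoundedBilinearMap.deriv_apply]
    change pgB T Kc η ρ γ + pgB T Kc η (c • δ₀) G = (φ, c)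
    rw [pgB_apply, pgB_apply]
    refine Prod.ext ?_ ?_
    · ext1 x
      have h1 : γ (T ρ x) = ψ x := by
        change ψ ((G (T ρ x)).1) = ψ x
        rw [hGT]
      change γ (T ρ x) + G (T (c • δ₀) x) = φ x
      rw [h1]
      change (φ x - G (T (c • δ₀) x)) + G (T (c • δ₀) x) = φ x
      abel
    · change (γ (T ρ η)).2 + (G (T (c • δ₀) η)).2 = c
      rw [hη, map_zero, map_smul, LinearMap.smul_apply, map_smul, ← hy₀, hGy]
      simp
  have hom0 := hOM (Y →L[ℂ] (Kc × ℂ)) ((Kc →L[ℂ] (Kc × ℂ)) × ℂ)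
  have hom1 := hom0 (fun x : X × (Y →L[ℂ] (Kc × ℂ)) => B x.1 x.2)
  have hom2 := hom1 (hB.deriv (ρ, G)) G
  have hom3 := hom2 hh
  have hom4 := hom3 hsurj
  have hom5 := hom4 (N ×ˢ Set.univ)
  have hom := hom5 (prod_mem_nhds hN univ_mem)
  clear hom0 hom1 hom2 hom3 hom4 hom5
  -- base value
  let φ₀ : Kc →L[ℂ] (Kc × ℂ) := ContinuousLinearMap.inl ℂ Kc ℂ
  have hbase : B ρ G = (φ₀, 0) := by
    change pgB T Kc η ρ G = _
    rw [pgB_apply]
    refine Prod.ext ?_ ?_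
    · ext1 x
      change G (T ρ x) = (x, 0)
      exact hGT x
    · change (G (T ρ η)).2 = 0
      rw [hη, map_zero]
      rfl
  simp only [hbase] at hom
  have hcont : Tendsto (fun d : ℂ => ((φ₀, d) : (Kc →L[ℂ] (Kc × ℂ)) × ℂ)) (𝓝 0) (𝓝 (φ₀, 0)) :=
    (Continuous.prodMk continuous_const continuous_id).tendsto 0
  have hev := hcont.eventually_mem hom
  obtain ⟨d, hd, hd0⟩ :=
    ((hev.filter_mono nhdsWithin_le_nhds).and (self_mem_nhdsWithin (s := {(0 : ℂ)}ᶜ))).exists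
  obtain ⟨⟨ρ', Γ⟩, ⟨⟨hρ'N, -⟩, hρ'R⟩, hval⟩ := hd
  refine ⟨ρ', hρ'N, hρ'R, ?_⟩
  change pgB T Kc η ρ' Γ = _ at hval
  rw [pgB_apply] at hval
  have hv1 : ∀ x : Kc, Γ (T ρ' x) = (x, 0) := by
    intro x
    have := congrArg (fun f : (Kc →L[ℂ] (Kc × ℂ)) × ℂ => f.1 x) hval
    exact this
  have hv2 : (Γ (T ρ' η)).2 = d := congrArg Prod.snd hval
  -- injectivity of `T ρ' ∘ j`
  let j : (Kc × ℂ) →ₗ[ℂ] V := Kc.subtype.coprod (LinearMap.toSpanSingleton ℂ V η)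
  have hjapp : ∀ (x : Kc) (s : ℂ), j (x, s) = (x : V) + s • η := by
    intro x s
    simp [j]
  have hinj : Function.Injective ((T ρ' ∘ₗ j).rangeRestrict) := by
    rw [← LinearMap.ker_eq_bot, LinearMap.ker_rangeRestrict, LinearMap.ker_eq_bot']
    rintro ⟨x, s⟩ hxs
    rw [LinearMap.comp_apply, hjapp, map_add, map_smul] at hxs
    have h1 := congrArg Γ hxs
    rw [map_add, map_smul, hv1, map_zero] at h1
    have h2 := congrArg Prod.snd h1
    simp only [Prod.snd_add, Prod.smul_snd, hv2, smul_eq_mul, zero_add, Prod.snd_zero] at h2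
    have hs : s = 0 := by
      rcases mul_eq_zero.mp h2 with h | h
      · exact h
      · exact absurd h hd0
    subst hs
    have h3 := congrArg Prod.fst h1
    simp only [zero_smul, add_zero, Prod.fst_zero] at h3
    rw [h3]
    rfl
  have e1 := LinearMap.finrank_le_finrank_of_injective hinj
  have e2 : finrank ℂ (LinearMap.range (T ρ' ∘ₗ j)) ≤ finrank ℂ (LinearMap.range (T ρ')) :=
    Submodule.finrank_mono (LinearMap.range_comp_le_range j (T ρ'))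
  have e3 := LinearMap.finrank_range_add_finrank_ker (T ρ')
  have e4 := Submodule.finrank_add_eq_of_isCompl hKc
  have e5 : finrank ℂ (Kc × ℂ) = finrank ℂ Kc + 1 := by
    rw [Module.finrank_prod, Module.finrank_self]
  omega

end abstractWrapper

/-- `ρ' ↦ (u ↦ (u X_v - X_v u)_v)`, `v` running over the blocks of `init ρ'`; bilinear. -/
def pgT (g n : ℕ) : Tup (g + 1) n →ₗ[ℂ] Mat n →ₗ[ℂ] Tup g n :=
  LinearMap.mk₂ ℂ (fun ρ' u => fun i c => u * ρ' i.castSucc c - ρ' i.castSucc c * u)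
    (by intro a b u; funext i c; simp only [Pi.add_apply]; noncomm_ring)
    (by intro t a u; funext i c
        simp only [Pi.smul_apply, mul_smul_comm, smul_mul_assoc, smul_sub])
    (by intro a u v; funext i c; simp only [Pi.add_apply]; noncomm_ring)
    (by intro t a u; funext i c
        simp only [Pi.smul_apply, mul_smul_comm, smul_mul_assoc, smul_sub])

theorem pgT_apply (ρ' : Tup (g + 1) n) (u : Mat n) (i : Fin g) (c : Fin 2) :
    pgT g n ρ' u i c = u * ρ' i.castSucc c - ρ' i.castSucc c * u := rfl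

theorem ker_pgT (ρ' : Tup (g + 1) n) :
    LinearMap.ker (pgT g n ρ') = commSub (Fin.init (α := fun _ => Fin 2 → Mat n) ρ') := by
  ext u
  rw [LinearMap.mem_ker]
  constructor
  · intro h i c
    have := congrFun (congrFun h i) c
    rw [pgT_apply] at this
    exact sub_eq_zero.mp this
  · intro h
    funext i c
    rw [pgT_apply]
    exact sub_eq_zero.mpr (h i c)

/-- **Wrapper**: a good tangent vector lowers `dim Comm(σ)` at nearby points of `RC`.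
`T σ' = comT σ'` is linear in `σ'`, `T₀ = T σ`, `K₀ = ker T₀ ∋ η`, `K_c` a complement of `K₀` in `Mat n`,
`η^*` a linear form with `η^* η = 1`, `η^* = 0` on `K_c`; `y₀ = (η δσ_v - δσ_v η)_v ∉ range T₀`
(it is `± T(δσ) η`).  Choose `Λ₀ : Tup g n → Mat n` linear with `Λ₀ T₀ x = x` on `K_c` and `Λ₀ (T(δσ) η) = η`.
Apply `om_RC` with `E' = (Tup g n →L Mat n)` and
`h (ρ', Λ) = (Λ ∘ T (init ρ') restricted to K_c , η^* (Λ (T (init ρ') η)))`, a bounded bilinear map.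
Its derivative is onto on `ker dmu × E'`.  So there are `ρ' ∈ RC` near `ρ` and `Λ` with
`Λ T(σ') x = x` on `K_c` and `η^* (Λ T(σ') η) ≠ 0`; then `T σ'` is injective on `K_c ⊕ ℂ η`. -/
theorem rank_drop (hn : 1 ≤ n) {σ : Tup g n} {C D : Mat n} (hρ : snocH σ C D ∈ RC (g + 1) n)
    (hS : IsSchur (snocH σ C D)) {η : Mat n} (hη : InComm σ η) {δσ : Tup g n} {δC δD : Mat n}
    (hker : dmu (snocH σ C D) (snocH δσ δC δD) = 0)
    (hgood : ¬ ∃ u : Mat n, ∀ i c, u * σ i c - σ i c * u = η * δσ i c - δσ i c * η) :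
    ∀ N ∈ 𝓝 (snocH σ C D), ∃ ρ' ∈ N, ρ' ∈ RC (g + 1) n ∧
      finrank ℂ (commSub (Fin.init (α := fun _ => Fin 2 → Mat n) ρ')) < finrank ℂ (commSub σ) := by
  have key := pg_abstract (X := Tup (g + 1) n) (V := Mat n) (Y := Tup g n) (pgT g n)
    (RC (g + 1) n) {δ | dmu (snocH σ C D) δ = 0} (snocH σ C D)
    (fun E' F' _ _ _ _ _ _ h h' e' hh hs => om_RC hn hρ hS h h' e' hh hs) η
    (by
      funext i c
      rw [pgT_apply, snocH_castSucc]
      exact sub_eq_zero.mpr (hη i c))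
    (snocH δσ δC δD)
    (by
      intro c
      change dmu _ _ = 0
      rw [dmu_smul, hker, smul_zero])
    (by
      rintro ⟨u, hu⟩
      apply hgood
      refine ⟨u, fun i c => ?_⟩
      have := congrFun (congrFun hu i) c
      rw [pgT_apply, pgT_apply, snocH_castSucc, snocH_castSucc] at this
      exact this)
  intro N hN
  obtain ⟨ρ', h1, h2, h3⟩ := key N hN
  refine ⟨ρ', h1, h2, ?_⟩
  rw [ker_pgT, ker_pgT, init_snocH] at h3
  exact h3

/-- **Prop G.** -/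
theorem propG (hn : 1 ≤ n) {σ : Tup (g + 1) n} {C D : Mat n} (hρ : snocH σ C D ∈ RC (g + 2) n)
    (hS : IsSchur (snocH σ C D)) (hA1 : IsCyc (σ 0 0)) (hAg : IsCyc C) (hσ : ¬ IsSchur σ) :
    ∀ N ∈ 𝓝 (snocH σ C D), ∃ ρ' ∈ N, ρ' ∈ RC (g + 2) n ∧
      finrank ℂ (commSub (Fin.init (α := fun _ => Fin 2 → Mat n) ρ')) < finrank ℂ (commSub σ) := by
  unfold IsSchur at hσ
  push Not at hσ
  obtain ⟨η, hη, hns⟩ := hσ
  have hns' : ¬ ∃ a : ℂ, η = a • (1 : Mat n) := by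
    rintro ⟨a, ha⟩
    exact hns a ha
  obtain ⟨δσ, hδ, hgood⟩ := exists_good (Nat.succ_le_succ (Nat.zero_le g)) σ η hη hns' 0 0
    hA1.finrank_ker_adL_le (tanPr σ C D) (finrank_tanPr hρ hAg.finrank_ker_adL_le)
  obtain ⟨δC, δD, hker⟩ := mem_tanPr.mp hδ
  exact rank_drop hn hρ hS hη hker hgood

end Claimed.Agent.R236
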