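import Claimed.Agent.R236.RankAd
import Claimed.Agent.R236.Deriv
import Claimed.Agent.R236.Cyc2

/-!
# Row 236: the counting part of Prop G (blueprint section 8, step b)
-/

namespace Claimed.Agent.R236

open Matrix Module

variable {g n : ℕ}

section aux

variable {V W : Type*} [AddCommGroup V] [Module ℂ V] [FiniteDimensional ℂ V]
  [AddCommGroup W] [Module ℂ W]

theorem pgc_finrank_le_map_add_ker (f : V →ₗ[ℂ] W) (P : Submodule ℂ V) :
    finrank ℂ P ≤ finrank ℂ (P.map f) + finrank ℂ (LinearMap.ker f) := by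
  have h := LinearMap.finrank_range_add_finrank_ker (f.domRestrict P)
  rw [LinearMap.range_domRestrict] at h
  have h2 : finrank ℂ (LinearMap.ker (f.domRestrict P)) ≤ finrank ℂ (LinearMap.ker f) := by
    let φ : LinearMap.ker (f.domRestrict P) →ₗ[ℂ] LinearMap.ker f :=
      LinearMap.codRestrict _ (P.subtype.comp (Submodule.subtype _)) (by
        intro x
        have h := x.2
        rw [LinearMap.mem_ker] at h
        rw [LinearMap.mem_ker]
        exact h)
    apply LinearMap.finrank_le_finrank_of_injective (f := φ)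
    intro x y hxy
    have := congrArg (fun z : LinearMap.ker f => (z : V)) hxy
    apply Subtype.ext
    apply Subtype.ext
    simpa [φ] using this
  omega

theorem pgc_finrank_comap_le (f : V →ₗ[ℂ] W) (Q : Submodule ℂ W) [FiniteDimensional ℂ Q] :
    finrank ℂ (Q.comap f) ≤ finrank ℂ Q + finrank ℂ (LinearMap.ker f) := by
  have h := pgc_finrank_le_map_add_ker f (Q.comap f)
  have h2 : finrank ℂ ((Q.comap f).map f) ≤ finrank ℂ Q :=
    Submodule.finrank_mono (Submodule.map_comap_le f Q)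
  omega

theorem pgc_finrank_map_add_le (f : V →ₗ[ℂ] W) (Q K : Submodule ℂ V) (hKQ : K ≤ Q)
    (hK : K ≤ LinearMap.ker f) :
    finrank ℂ (Q.map f) + finrank ℂ K ≤ finrank ℂ Q := by
  have h := LinearMap.finrank_range_add_finrank_ker (f.domRestrict Q)
  rw [LinearMap.range_domRestrict] at h
  have h2 : finrank ℂ K ≤ finrank ℂ (LinearMap.ker (f.domRestrict Q)) := by
    let φ : K →ₗ[ℂ] LinearMap.ker (f.domRestrict Q) :=
      LinearMap.codRestrict _ (Submodule.inclusion hKQ) (by
        intro x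
        have h := hK x.2
        rw [LinearMap.mem_ker] at h
        rw [LinearMap.mem_ker]
        exact h)
    apply LinearMap.finrank_le_finrank_of_injective (f := φ)
    intro x y hxy
    have := congrArg (fun z : LinearMap.ker (f.domRestrict Q) => ((z : Q) : V)) hxy
    apply Subtype.ext
    simpa [φ] using this
  omega

end aux

/-- blockwise `δ ↦ (η δ_v - δ_v η)_v`. -/
def pgcA (g : ℕ) (η : Mat n) : Tup g n →ₗ[ℂ] Tup g n where
  toFun δ := fun i c => η * δ i c - δ i c * η
  map_add' x y := by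
    funext i c
    simp only [Pi.add_apply]
    noncomm_ring
  map_smul' t x := by
    funext i c
    simp only [Pi.smul_apply, RingHom.id_apply, mul_smul_comm, smul_mul_assoc, smul_sub]

/-- `u ↦ (u X_v - X_v u)_v`. -/
def pgcT (σ : Tup g n) : Mat n →ₗ[ℂ] Tup g n :=
  LinearMap.pi fun i => LinearMap.pi fun c => adL (σ i c)

theorem pgcA_apply (η : Mat n) (δ : Tup g n) (i : Fin g) (c : Fin 2) :
    pgcA g η δ i c = η * δ i c - δ i c * η := rfl

theorem pgcT_apply (σ : Tup g n) (u : Mat n) (i : Fin g) (c : Fin 2) :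
    pgcT σ u i c = u * σ i c - σ i c * u := by
  simp [pgcT, adL]

theorem pgc_finrank_ker_A (η : Mat n) :
    finrank ℂ (LinearMap.ker (pgcA g η)) ≤ 2 * g * finrank ℂ (LinearMap.ker (adL η)) := by
  have hmem : ∀ (x : LinearMap.ker (pgcA g η)) (i : Fin g) (c : Fin 2),
      (x : Tup g n) i c ∈ LinearMap.ker (adL η) := by
    intro x i c
    have h := x.2
    rw [LinearMap.mem_ker] at h
    have h2 := congrFun (congrFun h i) c
    rw [pgcA_apply] at h2
    rw [mem_ker_adL_iff]
    simp only [Pi.zero_apply] at h2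
    exact (sub_eq_zero.mp h2).symm
  let φ : LinearMap.ker (pgcA g η) →ₗ[ℂ] (Fin g → Fin 2 → LinearMap.ker (adL η)) :=
    { toFun := fun x i c => ⟨(x : Tup g n) i c, hmem x i c⟩
      map_add' := fun x y => rfl
      map_smul' := fun t x => rfl }
  have hinj : Function.Injective φ := by
    intro x y hxy
    apply Subtype.ext
    funext i c
    have := congrArg (fun z : LinearMap.ker (adL η) => (z : Mat n)) (congrFun (congrFun hxy i) c)
    simpa [φ] using this
  have h := LinearMap.finrank_le_finrank_of_injective hinj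
  rw [Module.finrank_pi_fintype] at h
  simp only [Module.finrank_pi_fintype, Finset.sum_const, Finset.card_univ, Fintype.card_fin,
    smul_eq_mul] at h
  calc _ ≤ _ := h
    _ = _ := by ring

theorem pgc_finrank_tup : finrank ℂ (Tup g n) = 2 * g * n ^ 2 := by
  rw [Module.finrank_pi_fintype]
  simp only [Module.finrank_pi_fintype, Module.finrank_matrix, Finset.sum_const, Finset.card_univ,
    Fintype.card_fin, smul_eq_mul, Module.finrank_self]
  ring

/-- **Counting lemma** (pure linear algebra).  `r := rank (adL η) ≥ 2n - 2` (`RankAd`).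
Let `a δ = (η δ_v - δ_v η)_v`, `T u = (u X_v - X_v u)_v`.  Suppose `a Pr ⊆ range T`.
* `dim a(Pr) ≥ dim range a - codim Pr ≥ 2 g r - (n - 1)`.
* `a(Pr) ⊆ T(Q)`, `Q = {u | T u ∈ range a} ⊆ {u | adL (σ i₀ c₀) u ∈ range (adL η)}`, which has dimension
  `≤ r + dim ker (adL (σ i₀ c₀)) ≤ r + n`; `ker T ⊆ Q` contains `1` and `η`, so `dim T(Q) ≤ r + n - 2`.
Hence `(2g - 1) r ≤ 2n - 3`, contradiction. -/
theorem exists_good (hg : 1 ≤ g) (σ : Tup g n) (η : Mat n) (hη : InComm σ η)
    (hns : ¬ ∃ a : ℂ, η = a • (1 : Mat n)) (i₀ : Fin g) (c₀ : Fin 2)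
    (h₀ : finrank ℂ (LinearMap.ker (adL (σ i₀ c₀))) ≤ n)
    (Pr : Submodule ℂ (Tup g n)) (hPr : 2 * g * n ^ 2 ≤ finrank ℂ Pr + (n - 1)) :
    ∃ δ ∈ Pr, ¬ ∃ u : Mat n, ∀ i c, u * σ i c - σ i c * u = η * δ i c - δ i c * η := by
  by_contra hcon
  push Not at hcon
  -- notation
  set a := pgcA g η with ha
  set T := pgcT σ with hT
  set Q : Submodule ℂ (Mat n) := (LinearMap.range a).comap T with hQ
  set K : Submodule ℂ (Mat n) := Submodule.span ℂ (Set.range ![(1 : Mat n), η]) with hK
  -- `K` has dimension two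
  have hli : LinearIndependent ℂ ![(1 : Mat n), η] := by
    rw [LinearIndependent.pair_iff]
    intro s t hst
    have ht : t = 0 := by
      by_contra ht
      apply hns
      refine ⟨-(s / t), ?_⟩
      have : t • η = -(s • (1 : Mat n)) := by
        rw [eq_neg_iff_add_eq_zero, add_comm]; exact hst
      calc η = t⁻¹ • (t • η) := by rw [smul_smul, inv_mul_cancel₀ ht, one_smul]
        _ = _ := by rw [this, smul_neg, smul_smul, neg_smul]; congr 2; field_simp
    subst ht
    refine ⟨?_, rfl⟩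
    by_contra hs
    apply hns
    rw [zero_smul, add_zero] at hst
    have h1 : (1 : Mat n) = 0 := by
      calc (1 : Mat n) = s⁻¹ • (s • (1 : Mat n)) := by rw [smul_smul, inv_mul_cancel₀ hs, one_smul]
        _ = 0 := by rw [hst, smul_zero]
    refine ⟨0, ?_⟩
    rw [zero_smul, ← mul_one η, h1, mul_zero]
  have hK2 : finrank ℂ K = 2 := by
    rw [hK, finrank_span_eq_card hli]; simp
  have hKker : K ≤ LinearMap.ker T := by
    rw [hK, Submodule.span_le]
    rintro _ ⟨j, rfl⟩
    rw [SetLike.mem_coe, LinearMap.mem_ker]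
    funext i c
    rw [hT, pgcT_apply]
    fin_cases j
    · simp
    · simpa using sub_eq_zero.mpr (hη i c)
  have hKQ : K ≤ Q := by
    intro x hx
    rw [hQ, Submodule.mem_comap, LinearMap.mem_ker.mp (hKker hx)]
    exact Submodule.zero_mem _
  -- `a Pr ≤ T Q`
  have hsub : Pr.map a ≤ Q.map T := by
    rintro _ ⟨δ, hδ, rfl⟩
    obtain ⟨u, hu⟩ := hcon δ hδ
    have hTu : T u = a δ := by
      funext i c
      rw [hT, ha, pgcT_apply, pgcA_apply]
      exact hu i c
    refine ⟨u, ?_, hTu⟩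
    rw [SetLike.mem_coe, hQ, Submodule.mem_comap, hTu]
    exact LinearMap.mem_range_self _ _
  -- `Q ≤ Q₀`
  have hQ0 : Q ≤ (LinearMap.range (adL η)).comap (adL (σ i₀ c₀)) := by
    intro u hu
    rw [hQ, Submodule.mem_comap] at hu
    obtain ⟨δ, hδ⟩ := hu
    rw [Submodule.mem_comap]
    refine ⟨-(δ i₀ c₀), ?_⟩
    have := congrFun (congrFun hδ i₀) c₀
    rw [ha, hT, pgcA_apply, pgcT_apply] at this
    simp only [adL, LinearMap.sub_apply, LinearMap.mulRight_apply, LinearMap.mulLeft_apply]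
    rw [← this]
    noncomm_ring
  have e1 := pgc_finrank_le_map_add_ker a Pr
  have e2 : finrank ℂ (Pr.map a) ≤ finrank ℂ (Q.map T) := Submodule.finrank_mono hsub
  have e3 := pgc_finrank_map_add_le T Q K hKQ hKker
  have e4 : finrank ℂ Q ≤ _ := Submodule.finrank_mono hQ0
  have e5 := pgc_finrank_comap_le (adL (σ i₀ c₀)) (LinearMap.range (adL η))
  have e6 := LinearMap.finrank_range_add_finrank_ker (adL η)
  have e7 : finrank ℂ (Mat n) = n ^ 2 := by
    rw [Module.finrank_matrix]; simp [sq]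
  have e8 := finrank_ker_adL_le_of_not_scalar η hns
  have e9 := pgc_finrank_ker_A (g := g) η
  rw [e7] at e6
  rw [← ha] at e9
  set r := finrank ℂ (LinearMap.range (adL η)) with hr
  set k := finrank ℂ (LinearMap.ker (adL η)) with hk
  have e10 : 2 * g * n ^ 2 = 2 * g * r + 2 * g * k := by rw [← e6]; ring
  have e11 : 2 * r ≤ 2 * g * r := by
    calc 2 * r = 2 * 1 * r := by ring
      _ ≤ 2 * g * r := Nat.mul_le_mul_right _ (Nat.mul_le_mul_left _ hg)
  clear_value r k a T Q K
  generalize 2 * g * r = x1 at *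
  generalize 2 * g * k = x2 at *
  generalize 2 * g * n ^ 2 = x3 at *
  generalize n ^ 2 = x4 at *
  omega

/-- projections to `σ` of the tangent vectors of `RC` at `(σ, C, D)`. -/
noncomputable def tanPr (σ : Tup g n) (C D : Mat n) : Submodule ℂ (Tup g n) :=
  Submodule.map (LinearMap.fst ℂ (Tup g n) (Mat n × Mat n))
    (LinearMap.ker ((dmuL (snocH σ C D)).comp (snocL g n).toLinearMap))

theorem mem_tanPr {σ : Tup g n} {C D : Mat n} {δσ : Tup g n} :
    δσ ∈ tanPr σ C D ↔ ∃ δC δD, dmu (snocH σ C D) (snocH δσ δC δD) = 0 := by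
  unfold tanPr
  rw [Submodule.mem_map]
  constructor
  · rintro ⟨⟨x, y, z⟩, hx, rfl⟩
    exact ⟨y, z, LinearMap.mem_ker.mp hx⟩
  · rintro ⟨y, z, h⟩
    exact ⟨(δσ, y, z), LinearMap.mem_ker.mpr h, rfl⟩

theorem pgc_finrank_ker_trace (hn : 1 ≤ n) :
    finrank ℂ (LinearMap.ker (Matrix.traceLinearMap (Fin n) ℂ ℂ)) + 1 = n ^ 2 := by
  have h := LinearMap.finrank_range_add_finrank_ker (Matrix.traceLinearMap (Fin n) ℂ ℂ)
  have hs : LinearMap.range (Matrix.traceLinearMap (Fin n) ℂ ℂ) = ⊤ := by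
    rw [LinearMap.range_eq_top]
    intro z
    refine ⟨Matrix.single ⟨0, hn⟩ ⟨0, hn⟩ z, ?_⟩
    simp
  rw [hs, finrank_top, Module.finrank_self, Module.finrank_matrix] at h
  simp only [Fintype.card_fin, Module.finrank_self, mul_one] at h
  rw [sq]
  omega

/-- codimension of `tanPr` is `≤ n - 1` if `dim Comm(C) ≤ n`.
`dmu (σ,C,D) (δσ,δC,δD) = dmu σ δσ · c + K · dcm`, `K c = 1`.  Both `dmu σ δσ · c = dmu σ δσ · K⁻¹` and
`K · dcm = K (dcm · c⁻¹) K⁻¹` are traceless; the second ones form a subspace of dimension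
`rank (dcmL C D) ≥ n² - n` of the traceless matrices (dimension `n² - 1`).  `tanPr` is the preimage of that
subspace under `δσ ↦ - dmu σ δσ · c`. -/
theorem finrank_tanPr {σ : Tup g n} {C D : Mat n} (hρ : snocH σ C D ∈ RC (g + 1) n)
    (hC : finrank ℂ (LinearMap.ker (adL C)) ≤ n) :
    2 * g * n ^ 2 ≤ finrank ℂ (tanPr σ C D) + (n - 1) := by
  rcases Nat.eq_zero_or_pos n with hn0 | hn
  · subst hn0; simp
  obtain ⟨hinv, hmu⟩ := hρ
  have hinv' := allInv_snocH.mp hinv
  set Λ : (Tup g n × Mat n × Mat n) →ₗ[ℂ] Mat n :=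
    (dmuL (snocH σ C D)).comp (snocL g n).toLinearMap with hΛ
  have hΛapp : ∀ x : Tup g n × Mat n × Mat n,
      Λ x = dmu σ x.1 * cm C D + mu σ * dcm C D x.2.1 x.2.2 := by
    intro x
    exact dmu_snocH σ x.1 C D x.2.1 x.2.2
  -- rank of `Λ`
  have hrange : LinearMap.range Λ ≤ LinearMap.ker (Matrix.traceLinearMap (Fin n) ℂ ℂ) := by
    rintro _ ⟨x, rfl⟩
    rw [LinearMap.mem_ker, Matrix.traceLinearMap_apply]
    have := trace_dmu hinv (snocL g n x)
    rw [hmu, inv_one, mul_one] at this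
    exact this
  have e1 : finrank ℂ (LinearMap.range Λ) + 1 ≤ n ^ 2 := by
    rw [← pgc_finrank_ker_trace hn]
    exact Nat.add_le_add_right (Submodule.finrank_mono hrange) 1
  have e3 := LinearMap.finrank_range_add_finrank_ker Λ
  have e4 : finrank ℂ (Tup g n × Mat n × Mat n) = 2 * g * n ^ 2 + (n ^ 2 + n ^ 2) := by
    rw [Module.finrank_prod, Module.finrank_prod, pgc_finrank_tup, Module.finrank_matrix]
    simp [sq]
  -- the projection
  set F := (LinearMap.fst ℂ (Tup g n) (Mat n × Mat n)).domRestrict (LinearMap.ker Λ) with hF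
  have e5 := LinearMap.finrank_range_add_finrank_ker F
  have e6 : LinearMap.range F = tanPr σ C D := by
    rw [hF, LinearMap.range_domRestrict]
    rfl
  have hKunit : IsUnit (mu σ).det := by rw [det_mu hinv'.1]; exact isUnit_one
  have hmem : ∀ x : LinearMap.ker F, ((x : LinearMap.ker Λ) : Tup g n × Mat n × Mat n).2 ∈
      LinearMap.ker (dcmL C D) := by
    intro x
    have h1 : ((x : LinearMap.ker Λ) : Tup g n × Mat n × Mat n).1 = 0 := LinearMap.mem_ker.mp x.2
    have h2 : Λ ((x : LinearMap.ker Λ) : Tup g n × Mat n × Mat n) = 0 :=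
      LinearMap.mem_ker.mp (x : LinearMap.ker Λ).2
    rw [hΛapp, h1] at h2
    have h3 : dmu σ 0 = 0 := (dmuL σ).map_zero
    rw [h3, zero_mul, zero_add] at h2
    rw [LinearMap.mem_ker]
    change dcm C D _ _ = 0
    have := congrArg (fun M => (mu σ)⁻¹ * M) h2
    simpa [← mul_assoc, nonsing_inv_mul _ hKunit] using this
  let φ : LinearMap.ker F →ₗ[ℂ] LinearMap.ker (dcmL C D) :=
    { toFun := fun x => ⟨_, hmem x⟩
      map_add' := fun x y => rfl
      map_smul' := fun t x => rfl }
  have hinj : Function.Injective φ := by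
    intro x y hxy
    have h1 : ((x : LinearMap.ker Λ) : Tup g n × Mat n × Mat n).1 = 0 := LinearMap.mem_ker.mp x.2
    have h2 : ((y : LinearMap.ker Λ) : Tup g n × Mat n × Mat n).1 = 0 := LinearMap.mem_ker.mp y.2
    have h3 := congrArg (fun z : LinearMap.ker (dcmL C D) => (z : Mat n × Mat n)) hxy
    apply Subtype.ext
    apply Subtype.ext
    exact Prod.ext (h1.trans h2.symm) h3
  have e7 := LinearMap.finrank_le_finrank_of_injective hinj
  have e8 := LinearMap.finrank_range_add_finrank_ker (dcmL C D)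
  have e9 : finrank ℂ (Mat n × Mat n) = n ^ 2 + n ^ 2 := by
    rw [Module.finrank_prod, Module.finrank_matrix]
    simp [sq]
  have e10 := finrank_range_dcmL hinv'.2.1 hinv'.2.2
  rw [e6] at e5
  rw [e4] at e3
  rw [e9] at e8
  generalize 2 * g * n ^ 2 = x3 at *
  generalize n ^ 2 = x4 at *
  omega

end Claimed.Agent.R236
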