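import Claimed.Agent.R236.Basic

/-!
# Row 236: abstract staged compositions (used in blueprint section 10)

`run stp K x s` applies the stages `stp 0, …, stp (K-1)` with parameters `s 0, …, s (K-1)`.
-/

namespace Claimed.Agent.R236

open Topology Filter

variable {n : ℕ}

/-- staged composition. -/
def run {Y Z : Type*} (stp : ℕ → Y → Z → Y) : ℕ → Y → (ℕ → Z) → Y
  | 0, x, _ => x
  | K + 1, x, s => stp K (run stp K x s) (s K)

/-- extend a finite family of parameters by the trivial parameter `z₀`. -/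
def embP {Z : Type*} (z₀ : Z) {K₀ : ℕ} (s : Fin K₀ → Z) : ℕ → Z :=
  fun k => if h : k < K₀ then s ⟨k, h⟩ else z₀

theorem run_trivial {Y Z : Type*} (stp : ℕ → Y → Z → Y) (z₀ : Z) (x : Y)
    (h : ∀ k, stp k x z₀ = x) (K : ℕ) : run stp K x (fun _ => z₀) = x := by
  induction K with
  | zero => rfl
  | succ K ih =>
    show stp K (run stp K x (fun _ => z₀)) z₀ = x
    rw [ih, h]

theorem embP_const {Z : Type*} (z₀ : Z) (K₀ : ℕ) :
    embP z₀ (fun _ : Fin K₀ => z₀) = fun _ => z₀ := by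
  funext k
  unfold embP
  split <;> rfl

variable {Y Z B : Type*} [NormedAddCommGroup Y] [NormedSpace ℂ Y]
  [NormedAddCommGroup Z] [NormedSpace ℂ Z] [NormedAddCommGroup B] [NormedSpace ℂ B]

/-- the derivative of `q ↦ embP z₀ q.2 K`. -/
noncomputable def embPD (B Z : Type*) [NormedAddCommGroup Z] [NormedSpace ℂ Z]
    [NormedAddCommGroup B] [NormedSpace ℂ B] (K₀ K : ℕ) : B × (Fin K₀ → Z) →L[ℂ] Z :=
  if h : K < K₀ then
    (ContinuousLinearMap.proj (⟨K, h⟩ : Fin K₀)).comp (ContinuousLinearMap.snd ℂ B (Fin K₀ → Z))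
  else 0

theorem hasStrictFDerivAt_embP (K₀ K : ℕ) (z₀ : Z) (q₀ : B × (Fin K₀ → Z)) :
    HasStrictFDerivAt (fun q : B × (Fin K₀ → Z) => embP z₀ q.2 K) (embPD B Z K₀ K) q₀ := by
  unfold embP embPD
  by_cases h : K < K₀
  · simp only [h, dif_pos]
    exact ((ContinuousLinearMap.proj (R := ℂ) (φ := fun _ : Fin K₀ => Z)
      (⟨K, h⟩ : Fin K₀)).comp (ContinuousLinearMap.snd ℂ B (Fin K₀ → Z))).hasStrictFDerivAt
  · simp only [h, dif_neg, not_false_eq_true]
    exact hasStrictFDerivAt_const _ _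

/-- a stage which is the identity at the trivial parameter has `x`-derivative the identity. -/
theorem stage_comp_inl (f : Y → Z → Y) (x₀ : Y) (z₀ : Z) (T : Y × Z →L[ℂ] Y)
    (hT : HasStrictFDerivAt (fun p : Y × Z => f p.1 p.2) T (x₀, z₀))
    (hid : ∀ᶠ x in 𝓝 x₀, f x z₀ = x) :
    T.comp (ContinuousLinearMap.inl ℂ Y Z) = ContinuousLinearMap.id ℂ Y := by
  have h1 : HasStrictFDerivAt (fun x : Y => (x, z₀)) (ContinuousLinearMap.inl ℂ Y Z) x₀ := by
    have := (hasStrictFDerivAt_id (𝕜 := ℂ) x₀).prodMk (hasStrictFDerivAt_const (𝕜 := ℂ) z₀ x₀)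
    exact this
  have h2 : HasStrictFDerivAt (fun x : Y => f x z₀) (T.comp (ContinuousLinearMap.inl ℂ Y Z)) x₀ :=
    HasStrictFDerivAt.comp (g := fun p : Y × Z => f p.1 p.2) (f := fun x : Y => (x, z₀)) x₀ hT h1
  have h3 : HasFDerivAt (fun x : Y => f x z₀) (ContinuousLinearMap.id ℂ Y) x₀ :=
    (hasFDerivAt_id x₀).congr_of_eventuallyEq hid
  exact h2.hasFDerivAt.unique h3

theorem sum_embPD {K₀ : ℕ} (K : ℕ) (D : ℕ → Z →L[ℂ] Y) :
    (∑ k : Fin K₀, if (k : ℕ) = K then (D k).comp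
          ((ContinuousLinearMap.proj k).comp (ContinuousLinearMap.snd ℂ B (Fin K₀ → Z))) else 0)
      = (D K).comp (embPD B Z K₀ K) := by
  unfold embPD
  by_cases h : K < K₀
  · simp only [h, dif_pos]
    rw [Finset.sum_eq_single (⟨K, h⟩ : Fin K₀)]
    · simp
    · intro b _ hb
      rw [if_neg]
      intro hbK
      exact hb (Fin.ext hbK)
    · intro hh
      exact absurd (Finset.mem_univ _) hh
  · simp only [h, dif_neg, not_false_eq_true, ContinuousLinearMap.comp_zero]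
    apply Finset.sum_eq_zero
    intro k _
    rw [if_neg]
    intro hk
    exact h (hk ▸ k.2)

theorem hasStrictFDerivAt_run_aux {K₀ : ℕ} (stp : ℕ → Y → Z → Y) (x₀ : Y) (z₀ : Z)
    (T : ℕ → Y × Z →L[ℂ] Y)
    (hT : ∀ k, HasStrictFDerivAt (fun p : Y × Z => stp k p.1 p.2) (T k) (x₀, z₀))
    (hid : ∀ k, ∀ᶠ x in 𝓝 x₀, stp k x z₀ = x)
    (β : B → Y) (β' : B →L[ℂ] Y) (b₀ : B) (hβ : HasStrictFDerivAt β β' b₀) (hb : β b₀ = x₀)
    (K : ℕ) :
    HasStrictFDerivAt (fun q : B × (Fin K₀ → Z) => run stp K (β q.1) (embP z₀ q.2))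
      (β'.comp (ContinuousLinearMap.fst ℂ B (Fin K₀ → Z)) +
        ∑ k : Fin K₀, if (k : ℕ) < K then ((T k).comp (ContinuousLinearMap.inr ℂ Y Z)).comp
          ((ContinuousLinearMap.proj k).comp (ContinuousLinearMap.snd ℂ B (Fin K₀ → Z))) else 0)
      (b₀, fun _ => z₀) := by
  have h0 : ∀ k, stp k x₀ z₀ = x₀ := fun k => (hid k).self_of_nhds
  induction K with
  | zero =>
    simp only [not_lt_zero, if_false, Finset.sum_const_zero, add_zero]
    show HasStrictFDerivAt (fun q : B × (Fin K₀ → Z) => β q.1) _ _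
    exact HasStrictFDerivAt.comp (g := β) (f := fun q : B × (Fin K₀ → Z) => q.1)
      (b₀, fun _ => z₀) hβ hasStrictFDerivAt_fst
  | succ K ih =>
    have hval : run stp K (β b₀) (embP z₀ (fun _ : Fin K₀ => z₀)) = x₀ := by
      rw [embP_const, hb, run_trivial stp z₀ x₀ h0]
    have hval2 : embP z₀ (fun _ : Fin K₀ => z₀) K = z₀ := by
      rw [embP_const]
    have hpair := ih.prodMk (hasStrictFDerivAt_embP (B := B) K₀ K z₀ (b₀, fun _ => z₀))
    have hTK : HasStrictFDerivAt (fun p : Y × Z => stp K p.1 p.2) (T K)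
        (run stp K (β (b₀, fun _ : Fin K₀ => z₀).1) (embP z₀ (b₀, fun _ : Fin K₀ => z₀).2),
          embP z₀ (b₀, fun _ : Fin K₀ => z₀).2 K) := by
      show HasStrictFDerivAt _ _ (run stp K (β b₀) (embP z₀ (fun _ : Fin K₀ => z₀)),
          embP z₀ (fun _ : Fin K₀ => z₀) K)
      rw [hval, hval2]
      exact hT K
    have hcomp := HasStrictFDerivAt.comp (g := fun p : Y × Z => stp K p.1 p.2)
      (f := fun q : B × (Fin K₀ → Z) => (run stp K (β q.1) (embP z₀ q.2), embP z₀ q.2 K))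
      (b₀, fun _ => z₀) hTK hpair
    have hinl := stage_comp_inl (stp K) x₀ z₀ (T K) (hT K) (hid K)
    -- linear algebra
    have hsplit : ∀ (L : B × (Fin K₀ → Z) →L[ℂ] Y) (E : B × (Fin K₀ → Z) →L[ℂ] Z),
        (T K).comp (L.prod E) = L + ((T K).comp (ContinuousLinearMap.inr ℂ Y Z)).comp E := by
      intro L E
      apply ContinuousLinearMap.ext
      intro v
      have h1 : (T K) (L v, 0) = L v := by
        have := congrArg (fun φ => φ (L v)) hinl
        simpa using this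
      have h2 : ((L v, E v) : Y × Z) = (L v, 0) + (0, E v) := by simp
      simp only [ContinuousLinearMap.comp_apply, ContinuousLinearMap.prod_apply,
        _root_.add_apply, ContinuousLinearMap.inr_apply]
      rw [h2, map_add, h1]
    rw [hsplit, ← sum_embPD (B := B) (K₀ := K₀) K
      (fun k => (T k).comp (ContinuousLinearMap.inr ℂ Y Z)), add_assoc,
      ← Finset.sum_add_distrib] at hcomp
    have hsum : (∑ k : Fin K₀, if (k : ℕ) < K + 1 then
          ((T k).comp (ContinuousLinearMap.inr ℂ Y Z)).comp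
          ((ContinuousLinearMap.proj k).comp (ContinuousLinearMap.snd ℂ B (Fin K₀ → Z))) else 0)
        = ∑ k : Fin K₀, ((if (k : ℕ) < K then
          ((T k).comp (ContinuousLinearMap.inr ℂ Y Z)).comp
          ((ContinuousLinearMap.proj k).comp (ContinuousLinearMap.snd ℂ B (Fin K₀ → Z))) else 0)
          + (if (k : ℕ) = K then
          ((T k).comp (ContinuousLinearMap.inr ℂ Y Z)).comp
          ((ContinuousLinearMap.proj k).comp (ContinuousLinearMap.snd ℂ B (Fin K₀ → Z))) else 0)) := by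
      apply Finset.sum_congr rfl
      intro k _
      rcases lt_trichotomy (k : ℕ) K with hk | hk | hk
      · rw [if_pos (by omega), if_pos hk, if_neg (by omega), add_zero]
      · rw [if_pos (by omega), if_neg (by omega), if_pos hk, zero_add]
      · rw [if_neg (by omega), if_neg (by omega), if_neg (by omega), add_zero]
    rw [hsum]
    exact hcomp

/-- **derivative of a staged composition at the trivial parameters.**
Each stage is strictly differentiable at `(x₀, z₀)` and is the identity for `z = z₀` near `x₀`.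
Then the derivative of the stage at `(x₀, z₀)` is `(δx, δz) ↦ δx + D k δz`, `D k` = the derivative of
`z ↦ stp k x₀ z`, and by induction on `K ≤ K₀` (chain rule) the derivative of the composition is
`(δb, δs) ↦ β' δb + ∑_{k<K₀} D k (δs k)`. -/
theorem hasStrictFDerivAt_run {K₀ : ℕ} (stp : ℕ → Y → Z → Y) (x₀ : Y) (z₀ : Z)
    (T : ℕ → Y × Z →L[ℂ] Y)
    (hT : ∀ k, HasStrictFDerivAt (fun p : Y × Z => stp k p.1 p.2) (T k) (x₀, z₀))
    (hid : ∀ k, ∀ᶠ x in 𝓝 x₀, stp k x z₀ = x)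
    (β : B → Y) (β' : B →L[ℂ] Y) (b₀ : B) (hβ : HasStrictFDerivAt β β' b₀) (hb : β b₀ = x₀) :
    HasStrictFDerivAt (fun q : B × (Fin K₀ → Z) => run stp K₀ (β q.1) (embP z₀ q.2))
      (β'.comp (ContinuousLinearMap.fst ℂ B (Fin K₀ → Z)) +
        ∑ k : Fin K₀, ((T k).comp (ContinuousLinearMap.inr ℂ Y Z)).comp
          ((ContinuousLinearMap.proj k).comp (ContinuousLinearMap.snd ℂ B (Fin K₀ → Z))))
      (b₀, fun _ => z₀) := by
  have := hasStrictFDerivAt_run_aux (K₀ := K₀) stp x₀ z₀ T hT hid β β' b₀ hβ hb K₀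
  convert this using 3 with k
  rw [if_pos k.2]

/-- value at the base point. -/
theorem run_base {K₀ : ℕ} (stp : ℕ → Y → Z → Y) (x₀ : Y) (z₀ : Z) (h : ∀ k, stp k x₀ z₀ = x₀) :
    run stp K₀ x₀ (embP z₀ (fun _ : Fin K₀ => z₀)) = x₀ := by
  rw [embP_const, run_trivial stp z₀ x₀ h]

theorem tendsto_embP (K₀ k : ℕ) (z₀ : Z) (b₀ : B) :
    Tendsto (fun q : B × (Fin K₀ → Z) => embP z₀ q.2 k) (𝓝 (b₀, fun _ => z₀)) (𝓝 z₀) := by
  have h := (hasStrictFDerivAt_embP (B := B) K₀ k z₀ (b₀, fun _ => z₀)).continuousAt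
  have hv : embP z₀ (fun _ : Fin K₀ => z₀) k = z₀ := by rw [embP_const]
  have h2 : Tendsto (fun q : B × (Fin K₀ → Z) => embP z₀ q.2 k) (𝓝 (b₀, fun _ => z₀))
      (𝓝 (embP z₀ (fun _ : Fin K₀ => z₀) k)) := h
  rwa [hv] at h2

theorem tendsto_run {K₀ : ℕ} (stp : ℕ → Y → Z → Y) (x₀ : Y) (z₀ : Z)
    (hc : ∀ k, ContinuousAt (fun p : Y × Z => stp k p.1 p.2) (x₀, z₀))
    (h0 : ∀ k, stp k x₀ z₀ = x₀)
    (β : B → Y) (b₀ : B) (hβ : ContinuousAt β b₀) (hb : β b₀ = x₀) (k : ℕ) :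
    Tendsto (fun q : B × (Fin K₀ → Z) => run stp k (β q.1) (embP z₀ q.2))
      (𝓝 (b₀, fun _ => z₀)) (𝓝 x₀) := by
  induction k with
  | zero =>
    show Tendsto (fun q : B × (Fin K₀ → Z) => β q.1) _ _
    have h1 : Tendsto β (𝓝 b₀) (𝓝 x₀) := by
      have : Tendsto β (𝓝 b₀) (𝓝 (β b₀)) := hβ
      rwa [hb] at this
    exact h1.comp (continuous_fst.tendsto (b₀, fun _ : Fin K₀ => z₀))
  | succ k ih =>
    show Tendsto (fun q : B × (Fin K₀ → Z) =>
      stp k (run stp k (β q.1) (embP z₀ q.2)) (embP z₀ q.2 k)) _ _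
    have h1 : Tendsto (fun p : Y × Z => stp k p.1 p.2) (𝓝 (x₀, z₀)) (𝓝 x₀) := by
      have : Tendsto (fun p : Y × Z => stp k p.1 p.2) (𝓝 (x₀, z₀)) (𝓝 (stp k x₀ z₀)) := hc k
      rwa [h0] at this
    exact h1.comp (ih.prodMk_nhds (tendsto_embP (B := B) K₀ k z₀ b₀))

/-- **all intermediate points are good near the trivial parameters.**  `Good k` is a neighbourhood
condition at `(x₀, z₀)`, each stage is continuous at `(x₀, z₀)` with value `x₀`. -/
theorem eventually_run_good {K₀ : ℕ} (stp : ℕ → Y → Z → Y) (x₀ : Y) (z₀ : Z)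
    (hc : ∀ k, ContinuousAt (fun p : Y × Z => stp k p.1 p.2) (x₀, z₀))
    (h0 : ∀ k, stp k x₀ z₀ = x₀)
    (Good : ℕ → Y → Z → Prop) (hG : ∀ k, ∀ᶠ p : Y × Z in 𝓝 (x₀, z₀), Good k p.1 p.2)
    (β : B → Y) (b₀ : B) (hβ : ContinuousAt β b₀) (hb : β b₀ = x₀) :
    ∀ᶠ q : B × (Fin K₀ → Z) in 𝓝 (b₀, fun _ => z₀), ∀ k < K₀,
      Good k (run stp k (β q.1) (embP z₀ q.2)) (embP z₀ q.2 k) := by
  have key : ∀ k, ∀ᶠ q : B × (Fin K₀ → Z) in 𝓝 (b₀, fun _ => z₀),
      Good k (run stp k (β q.1) (embP z₀ q.2)) (embP z₀ q.2 k) := by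
    intro k
    exact ((tendsto_run (K₀ := K₀) stp x₀ z₀ hc h0 β b₀ hβ hb k).prodMk_nhds
      (tendsto_embP (B := B) K₀ k z₀ b₀)).eventually (hG k)
  have := (Filter.eventually_all_finset (Finset.range K₀)).2 (fun k _ => key k)
  filter_upwards [this] with q hq k hk
  exact hq k (Finset.mem_range.2 hk)

end Claimed.Agent.R236
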