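import Claimed.Agent.R236.Moves2
import Claimed.Agent.R236.Stage

/-!
# Row 236: propagation of `VC` along a staged composition of flows (blueprint section 10, "In V")

`fam iv κ K x s` applies the stages `stepK iv (κ 0), …, stepK iv (κ (K-1))` with parameters
`s 0, …, s (K-1)` to the point `x`.
-/

namespace Claimed.Agent.R236

open Matrix

variable {g n : ℕ}

/-- staged composition of flows. -/
def fam (iv : Mat n → Mat n) (κ : ℕ → Bool × ℕ) (K : ℕ) (x : P4 g n) (s : ℕ → Fin n → ℂ) : P4 g n :=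
  run (fun k x s => stepK iv (κ k) x s) K x s

theorem fam_zero (iv : Mat n → Mat n) (κ : ℕ → Bool × ℕ) (x : P4 g n) (s : ℕ → Fin n → ℂ) :
    fam iv κ 0 x s = x := rfl

theorem fam_succ (iv : Mat n → Mat n) (κ : ℕ → Bool × ℕ) (K : ℕ) (x : P4 g n)
    (s : ℕ → Fin n → ℂ) : fam iv κ (K + 1) x s = stepK iv (κ K) (fam iv κ K x s) (s K) := rfl

/-- only the first `K` parameters matter. -/
theorem fam_congr (iv : Mat n → Mat n) (κ : ℕ → Bool × ℕ) (K : ℕ) (x : P4 g n)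
    {s s' : ℕ → Fin n → ℂ} (h : ∀ k < K, s k = s' k) : fam iv κ K x s = fam iv κ K x s' := by
  induction K with
  | zero => rfl
  | succ K ih =>
    rw [fam_succ, fam_succ, ih (fun k hk => h k (Nat.lt_succ_of_lt hk)), h K (Nat.lt_succ_self K)]

/-- the starting point is invertible and all the flow elements `z` met on the way are invertible. -/
def GoodRun (κ : ℕ → Bool × ℕ) (K : ℕ) (x : P4 g n) (s : ℕ → Fin n → ℂ) : Prop :=
  AllInv4 x ∧ ∀ k < K, IsUnit (pS (s k) (mxK minv (κ k) (fam minv κ k x s))).det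

theorem GoodRun.mono {κ : ℕ → Bool × ℕ} {K K' : ℕ} {x : P4 g n} {s : ℕ → Fin n → ℂ}
    (h : GoodRun κ K x s) (hK : K' ≤ K) : GoodRun κ K' x s :=
  ⟨h.1, fun k hk => h.2 k (lt_of_lt_of_le hk hK)⟩

/-- iterated (F1): induction on `K` with `stepK_spec`. -/
theorem fam_spec {κ : ℕ → Bool × ℕ} {K : ℕ} {x : P4 g n} {s : ℕ → Fin n → ℂ}
    (h : GoodRun κ K x s) :
    AllInv4 (fam minv κ K x s) ∧ ∃ γ : Mat n, IsUnit γ.det ∧
      mu (tup4 (fam minv κ K x s)) = γ⁻¹ * mu (tup4 x) * γ := by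
  induction K with
  | zero =>
    refine ⟨h.1, 1, by rw [det_one]; exact isUnit_one, ?_⟩
    rw [fam_zero, inv_one, Matrix.one_mul, Matrix.mul_one]
  | succ K ih =>
    obtain ⟨h1, γ, hγ, hmu⟩ := ih (h.mono (Nat.le_succ K))
    obtain ⟨h2, γ', hγ', hmu'⟩ := stepK_spec (κ K) h1 (h.2 K (Nat.lt_succ_self K))
    refine ⟨h2, γ * γ', by rw [det_mul]; exact hγ.mul hγ', ?_⟩
    rw [fam_succ, hmu', hmu, Matrix.mul_inv_rev]
    simp only [Matrix.mul_assoc]

/-- consequence of `fam_spec`. -/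
theorem fam_mu_eq_one_iff {κ : ℕ → Bool × ℕ} {K : ℕ} {x : P4 g n} {s : ℕ → Fin n → ℂ}
    (h : GoodRun κ K x s) : mu (tup4 (fam minv κ K x s)) = 1 ↔ mu (tup4 x) = 1 := by
  obtain ⟨-, γ, hγ, hmu⟩ := fam_spec h
  rw [hmu]
  constructor
  · intro h1
    have h2 : γ * (γ⁻¹ * mu (tup4 x) * γ) * γ⁻¹ = γ * 1 * γ⁻¹ := by rw [h1]
    rw [Matrix.mul_one, Matrix.mul_nonsing_inv _ hγ] at h2
    rw [← h2]
    simp only [Matrix.mul_assoc]
    rw [Matrix.mul_nonsing_inv _ hγ, Matrix.mul_one, ← Matrix.mul_assoc,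
      Matrix.mul_nonsing_inv _ hγ, Matrix.one_mul]
  · intro h1
    rw [h1, Matrix.mul_one, Matrix.nonsing_inv_mul _ hγ]

/-- iterated (F2). -/
theorem fam_e0 (hn : 1 ≤ n) (κ : ℕ → Bool × ℕ) (K : ℕ) {x : P4 g n} (hx : AllInv4 x) :
    fam minv κ K x (fun _ => e0) = x := by
  exact run_trivial _ e0 x (fun k => stepK_e0 hn (κ k) hx) K

/-- (F7) for the composition.  Induction on `K` (`polyMap_flowK`, `polyMap_mxK`, `polyMap_pS`; the
evaluation `s ↦ s K` is linear). -/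
theorem polyMap_fam {𝔅 : Type*} [AddCommGroup 𝔅] [Module ℂ 𝔅] {β : 𝔅 → P4 g n} (hβ : PolyMap β)
    (κ : ℕ → Bool × ℕ) (K : ℕ) :
    PolyMap fun θ : 𝔅 × (ℕ → Fin n → ℂ) => fam madj κ K (β θ.1) θ.2 := by
  induction K with
  | zero => exact hβ.comp polyMap_id.fst
  | succ K ih =>
    have hs : PolyMap fun θ : 𝔅 × (ℕ → Fin n → ℂ) => θ.2 K :=
      polyMap_linear ((LinearMap.proj (R := ℂ) (φ := fun _ : ℕ => Fin n → ℂ) K).comp
        (LinearMap.snd ℂ 𝔅 (ℕ → Fin n → ℂ)))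
    have hM : PolyMap fun θ : 𝔅 × (ℕ → Fin n → ℂ) =>
        mxK madj (κ K) (fam madj κ K (β θ.1) θ.2) := by
      have h1 := polyMap_mxK (g := g) (n := n) (κ K)
      intro ℓ
      have h4 := PolyFun.comp (h1 ℓ) ih
      exact h4
    have hz : PolyMap fun θ : 𝔅 × (ℕ → Fin n → ℂ) =>
        pS (θ.2 K) (mxK madj (κ K) (fam madj κ K (β θ.1) θ.2)) := polyMap_pS hM hs
    have hp : PolyMap fun θ : 𝔅 × (ℕ → Fin n → ℂ) =>
        (fam madj κ K (β θ.1) θ.2, pS (θ.2 K) (mxK madj (κ K) (fam madj κ K (β θ.1) θ.2))) :=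
      ih.prodMk hz
    have h1 := polyMap_flowK (g := g) (n := n) (κ K)
    intro ℓ
    have h4 := PolyFun.comp (h1 ℓ) hp
    exact h4

/-- at the trivial parameters the adjugate version is blockwise proportional to the starting point
(induction on `K`: `flowK_link` with `z = z' = 1`, `stepK_e0`, `pS_e0`). -/
theorem fam_madj_e0 (hn : 1 ≤ n) (κ : ℕ → Bool × ℕ) (K : ℕ) {x : P4 g n} (hx : AllInv4 x) :
    PrpT (tup4 x) (tup4 (fam madj κ K x (fun _ => e0))) := by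
  induction K with
  | zero => exact fun i c => Prp.refl _
  | succ K ih =>
    have h1 := flowK_link (κ K) hx ih (z := 1) (z' := 1)
      (by rw [det_one]; exact isUnit_one) (Prp.refl _)
    have h2 : flowK minv (κ K) x 1 = x := by
      have := stepK_e0 hn (κ K) hx
      unfold stepK at this
      rwa [pS_e0 hn] at this
    rw [h2] at h1
    rw [fam_succ]
    unfold stepK
    rw [pS_e0 hn]
    exact h1

/-- iterated (F5): induction on `K` with `stepK_link`, `fam_spec`, `fam_congr`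
(`s' := Function.update s' K _`). -/
theorem fam_link {κ : ℕ → Bool × ℕ} {K : ℕ} {x : P4 g n} {s : ℕ → Fin n → ℂ}
    (h : GoodRun κ K x s) :
    ∃ s' : ℕ → Fin n → ℂ, PrpT (tup4 (fam minv κ K x s)) (tup4 (fam madj κ K x s')) := by
  induction K with
  | zero =>
    refine ⟨s, ?_⟩
    rw [fam_zero, fam_zero]
    exact fun i c => Prp.refl _
  | succ K ih =>
    obtain ⟨s', hs'⟩ := ih (h.mono (Nat.le_succ K))
    obtain ⟨t, ht⟩ := stepK_link (κ K) (fam_spec (h.mono (Nat.le_succ K))).1 hs' (s K)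
      (h.2 K (Nat.lt_succ_self K))
    refine ⟨Function.update s' K t, ?_⟩
    rw [fam_succ, fam_succ, Function.update_self,
      fam_congr madj κ K x (s := Function.update s' K t) (s' := s')
        (fun k hk => Function.update_of_ne (ne_of_lt hk) _ _)]
    exact ht

/-- **propagation, polynomial version.**  Induction on `K`.  Step: `flow_lemma` with
`P = 𝔅 × (ℕ → Fin n → ℂ)`, `Mx θ = mxK madj (κ K) (fam madj κ K (β θ.1) θ.2)`,
`Fam (θ, z) = tup4 (flowK madj (κ K) (fam madj κ K (β θ.1) θ.2) z)` (through the linear map `tup4L`),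
hypothesis `h` from `flowK_mem_VC` and the induction hypothesis, `θ₀ = (b, fun _ => e0)` with `b` from
`hgen K`: `fam_madj_e0` and `mxK_link` give `Prp (mxK minv (κ K) (β b)) (Mx θ₀)`. -/
theorem fam_madj_mem_VC (hn : 1 ≤ n) (S : Subring ℂ) {𝔅 : Type*} [AddCommGroup 𝔅] [Module ℂ 𝔅]
    {β : 𝔅 → P4 g n} (hβ : PolyMap β) (hV : ∀ b, tup4 (β b) ∈ VC S (g + 2) n)
    (κ : ℕ → Bool × ℕ)
    (hgen : ∀ K, ∃ b, AllInv4 (β b) ∧ Prp (primeDiag n) (mxK minv (κ K) (β b))) :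
    ∀ K b s, tup4 (fam madj κ K (β b) s) ∈ VC S (g + 2) n := by
  intro K
  induction K with
  | zero => exact fun b _ => hV b
  | succ K ih =>
    intro b s
    obtain ⟨b₀, hinv, hp⟩ := hgen K
    obtain ⟨c, hc, h0⟩ := hp.trans (mxK_link (κ K) hinv (fam_madj_e0 hn κ K hinv))
    have hf := polyMap_fam hβ κ K
    have hMx : PolyMap fun θ : 𝔅 × (ℕ → Fin n → ℂ) =>
        mxK madj (κ K) (fam madj κ K (β θ.1) θ.2) := by
      have h1 := polyMap_mxK (g := g) (n := n) (κ K)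
      intro ℓ
      have h4 := PolyFun.comp (h1 ℓ) hf
      exact h4
    have hf' : PolyMap fun p : (𝔅 × (ℕ → Fin n → ℂ)) × Mat n =>
        fam madj κ K (β p.1.1) p.1.2 := by
      have h1 : PolyMap fun p : (𝔅 × (ℕ → Fin n → ℂ)) × Mat n => p.1 := polyMap_id.fst
      intro ℓ
      have h4 := PolyFun.comp (hf ℓ) h1
      exact h4
    have hp : PolyMap fun p : (𝔅 × (ℕ → Fin n → ℂ)) × Mat n =>
        (fam madj κ K (β p.1.1) p.1.2, p.2) := hf'.prodMk polyMap_id.snd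
    have hfl : PolyMap fun p : (𝔅 × (ℕ → Fin n → ℂ)) × Mat n =>
        flowK madj (κ K) (fam madj κ K (β p.1.1) p.1.2) p.2 := by
      have h1 := polyMap_flowK (g := g) (n := n) (κ K)
      intro ℓ
      have h4 := PolyFun.comp (h1 ℓ) hp
      exact h4
    have hFam : PolyMap fun p : (𝔅 × (ℕ → Fin n → ℂ)) × Mat n =>
        tup4 (flowK madj (κ K) (fam madj κ K (β p.1.1) p.1.2) p.2) := by
      have h1 := Moves2_polyMap_tup4 (g := g) (n := n)
      intro ℓ
      have h4 := PolyFun.comp (h1 ℓ) hfl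
      exact h4
    have key := flow_lemma (Cone S (g + 2) n) _ hMx _ hFam
      (fun θ m l => flowK_mem_VC S (κ K) (ih θ.1 θ.2) m l) (b₀, fun _ => e0) c hc h0 (b, s) (s K)
    exact key

/-- **propagation, honest version** (`fam_link`, `fam_madj_mem_VC`, `PrpT.mem_VC`). -/
theorem fam_minv_mem_VC (hn : 1 ≤ n) (S : Subring ℂ) {𝔅 : Type*} [AddCommGroup 𝔅] [Module ℂ 𝔅]
    {β : 𝔅 → P4 g n} (hβ : PolyMap β) (hV : ∀ b, tup4 (β b) ∈ VC S (g + 2) n)
    (κ : ℕ → Bool × ℕ)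
    (hgen : ∀ K, ∃ b, AllInv4 (β b) ∧ Prp (primeDiag n) (mxK minv (κ K) (β b)))
    {K : ℕ} {b : 𝔅} {s : ℕ → Fin n → ℂ} (h : GoodRun κ K (β b) s) :
    tup4 (fam minv κ K (β b) s) ∈ VC S (g + 2) n := by
  obtain ⟨s', hs'⟩ := fam_link h
  exact PrpT.mem_VC S (fun i c => (hs' i c).symm) (fam_madj_mem_VC hn S hβ hV κ hgen K b s')

end Claimed.Agent.R236
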