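import Claimed.Agent.R236.Basic

/-!
# Row 236: `rank (ad η) ≥ 2n - 2` for non-scalar `η` (blueprint section 7: R7)
-/

namespace Claimed.Agent.R236

open Matrix Module

variable {n : ℕ}

/-- a non-scalar matrix has a vector `e` with `e, η e` linearly independent. -/
theorem exists_linearIndependent_of_not_scalar (η : Mat n) (hη : ¬ ∃ a : ℂ, η = a • (1 : Mat n)) :
    ∃ e : Fin n → ℂ, LinearIndependent ℂ ![e, η *ᵥ e] := by
  by_contra hcon
  push Not at hcon
  have key : ∀ e : Fin n → ℂ, e ≠ 0 → ∃ a : ℂ, a • e = η *ᵥ e := by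
    intro e he
    have := hcon e
    rw [LinearIndependent.pair_iff' he] at this
    push Not at this
    exact this
  have hs : ∀ i : Fin n, (Pi.single i (1 : ℂ) : Fin n → ℂ) ≠ 0 := fun i h => by
    have := congrFun h i
    simp at this
  choose a ha using fun i => key _ (hs i)
  have hcol : ∀ i j, η j i = a i * (if j = i then 1 else 0) := by
    intro i j
    have := congrFun (ha i) j
    rw [Matrix.mulVec_single_one] at this
    simp only [Pi.smul_apply, smul_eq_mul, Matrix.col_apply, Pi.single_apply] at this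
    exact this.symm
  have haa : ∀ i j, a i = a j := by
    intro i j
    by_cases hij : i = j
    · rw [hij]
    obtain ⟨c, hc⟩ := key (Pi.single i 1 + Pi.single j 1) (by
      intro h
      have := congrFun h i
      simp [hij] at this)
    rw [Matrix.mulVec_add, ← ha i, ← ha j] at hc
    have h1 := congrFun hc i
    have h2 := congrFun hc j
    simp [hij, Ne.symm hij] at h1 h2
    rw [← h1, ← h2]
  apply hη
  rcases isEmpty_or_nonempty (Fin n) with hE | ⟨⟨i0⟩⟩
  · exact ⟨0, by ext i; exact hE.elim i⟩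
  · refine ⟨a i0, ?_⟩
    ext j i
    rw [hcol i j, haa i i0]
    simp [Matrix.one_apply]

/-- a dual vector: `β · e = 0`, `β · f = 1`. -/
theorem rankAd_exists_dot_dual {e f : Fin n → ℂ} (h : LinearIndependent ℂ ![e, f]) :
    ∃ β : Fin n → ℂ, β ⬝ᵥ e = 0 ∧ β ⬝ᵥ f = 1 := by
  have hf : f ∉ Submodule.span ℂ {e} := by
    intro hmem
    obtain ⟨a, ha⟩ := Submodule.mem_span_singleton.1 hmem
    have := (LinearIndependent.pair_iff.1 h) a (-1) (by rw [ha]; simp)
    simp at this
  obtain ⟨g, hg1, hg2⟩ := Submodule.exists_dual_map_eq_bot_of_notMem hf inferInstance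
  have hge : g e = 0 := by
    have : g e ∈ (Submodule.span ℂ {e}).map g :=
      Submodule.mem_map_of_mem (Submodule.mem_span_singleton_self e)
    rw [hg2] at this
    simpa using this
  have hgv : ∀ v : Fin n → ℂ,
      (fun i => (g f)⁻¹ * g (fun j => if i = j then 1 else 0)) ⬝ᵥ v = (g f)⁻¹ * g v := by
    intro v
    rw [LinearMap.pi_apply_eq_sum_univ g v, dotProduct, Finset.mul_sum]
    refine Finset.sum_congr rfl fun i _ => ?_
    simp only [smul_eq_mul]
    ring
  refine ⟨fun i => (g f)⁻¹ * g (fun j => if i = j then 1 else 0), ?_, ?_⟩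
  · rw [hgv, hge, mul_zero]
  · rw [hgv, inv_mul_cancel₀ hg1]

/-- `ψ ↦ ψ · v` as a linear map. -/
def rankAd_dotL (v : Fin n → ℂ) : (Fin n → ℂ) →ₗ[ℂ] ℂ where
  toFun := fun ψ => ψ ⬝ᵥ v
  map_add' := fun a b => add_dotProduct a b v
  map_smul' := fun c a => by simp [smul_dotProduct]

/-- `b ↦ b ⊗ β`. -/
def rankAd_left (β : Fin n → ℂ) : (Fin n → ℂ) →ₗ[ℂ] Mat n where
  toFun := fun b => vecMulVec b β
  map_add' := fun a b => add_vecMulVec a b β
  map_smul' := fun c a => by simp [smul_vecMulVec]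

/-- `ψ ↦ u ⊗ ψ`. -/
def rankAd_right (u : Fin n → ℂ) : (Fin n → ℂ) →ₗ[ℂ] Mat n where
  toFun := fun ψ => vecMulVec u ψ
  map_add' := fun a b => vecMulVec_add u a b
  map_smul' := fun c a => by simp [vecMulVec_smul]

/-- (R7) `dim Comm(η) ≤ n² - 2n + 2`.
Take `e` with `e, η e` independent and (applying the previous lemma to `ηᵀ`) a row vector `φ` with
`φ, φ η` independent.  With `β · e = 0`, `β · η e = 1`, `φ · u = 0`, `φ η · u = 1`, the map
`(b, ψ) ↦ ad η (b ⊗ β + u ⊗ ψ)` is injective on `ℂⁿ × Ann (e, η e)`, a space of dimension `≥ 2n - 2`. -/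
theorem finrank_ker_adL_le_of_not_scalar (η : Mat n) (hη : ¬ ∃ a : ℂ, η = a • (1 : Mat n)) :
    finrank ℂ (LinearMap.ker (adL η)) + 2 * n ≤ n ^ 2 + 2 := by
  obtain ⟨e, he⟩ := exists_linearIndependent_of_not_scalar η hη
  have hηT : ¬ ∃ a : ℂ, ηᵀ = a • (1 : Mat n) := by
    rintro ⟨a, ha⟩
    apply hη
    refine ⟨a, ?_⟩
    have := congrArg Matrix.transpose ha
    simpa using this
  obtain ⟨φ, hφ⟩ := exists_linearIndependent_of_not_scalar ηᵀ hηT
  obtain ⟨β, hβ0, hβ1⟩ := rankAd_exists_dot_dual he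
  obtain ⟨u, hu0, hu1⟩ := rankAd_exists_dot_dual hφ
  rw [Matrix.mulVec_transpose] at hu1
  -- the annihilator of `e, η e`
  set L : (Fin n → ℂ) →ₗ[ℂ] ℂ × ℂ := (rankAd_dotL e).prod (rankAd_dotL (η *ᵥ e)) with hL
  set Ann := LinearMap.ker L with hAnn
  have hAnnDim : n ≤ finrank ℂ Ann + 2 := by
    have h1 := LinearMap.finrank_range_add_finrank_ker L
    have h2 : finrank ℂ (LinearMap.range L) ≤ 2 := by
      have := Submodule.finrank_le (LinearMap.range L)
      simpa using this
    simp only [finrank_fintype_fun_eq_card, Fintype.card_fin] at h1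
    have h3 : finrank ℂ Ann = finrank ℂ (LinearMap.ker L) := rfl
    omega
  have hAnn_mem : ∀ ψ : Ann, (ψ : Fin n → ℂ) ⬝ᵥ e = 0 ∧ (ψ : Fin n → ℂ) ⬝ᵥ (η *ᵥ e) = 0 := by
    intro ψ
    have h0 : L (ψ : Fin n → ℂ) = 0 := LinearMap.mem_ker.1 ψ.2
    rw [hL, LinearMap.prod_apply, Prod.mk_eq_zero] at h0
    exact h0
  -- the parametrisation
  set par : (Fin n → ℂ) × Ann →ₗ[ℂ] Mat n :=
    (rankAd_left β).coprod ((rankAd_right u).comp Ann.subtype) with hpar
  set J : (Fin n → ℂ) × Ann →ₗ[ℂ] Mat n := (adL η).comp par with hJ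
  have hinj : Function.Injective J := by
    rw [← LinearMap.ker_eq_bot, LinearMap.ker_eq_bot']
    rintro ⟨b, ψ⟩ hz
    have hw : par (b, ψ) = vecMulVec b β + vecMulVec u (ψ : Fin n → ℂ) := rfl
    have hcomm : par (b, ψ) * η = η * par (b, ψ) := by
      have : par (b, ψ) * η - η * par (b, ψ) = 0 := hz
      exact sub_eq_zero.1 this
    obtain ⟨hψ0, hψ1⟩ := hAnn_mem ψ
    have h1 : par (b, ψ) *ᵥ e = 0 := by
      rw [hw, Matrix.add_mulVec, vecMulVec_mulVec, vecMulVec_mulVec, hβ0, hψ0]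
      simp
    have h2 : par (b, ψ) *ᵥ (η *ᵥ e) = b := by
      rw [hw, Matrix.add_mulVec, vecMulVec_mulVec, vecMulVec_mulVec, hβ1, hψ1]
      simp
    have hb : b = 0 := by
      have := congrArg (fun M => M *ᵥ e) hcomm
      simp only [← Matrix.mulVec_mulVec] at this
      rw [h2, h1, Matrix.mulVec_zero] at this
      exact this
    subst hb
    have hw' : par (0, ψ) = vecMulVec u (ψ : Fin n → ℂ) := by
      rw [hw]; simp
    have h3 : φ ᵥ* par (0, ψ) = 0 := by
      rw [hw', vecMul_vecMulVec, dotProduct_comm, hu0, zero_smul]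
    have h4 : (φ ᵥ* η) ᵥ* par (0, ψ) = (ψ : Fin n → ℂ) := by
      rw [hw', vecMul_vecMulVec, dotProduct_comm, hu1, one_smul]
    have hψ : (ψ : Fin n → ℂ) = 0 := by
      have := congrArg (fun M => φ ᵥ* M) hcomm
      simp only [← Matrix.vecMul_vecMul] at this
      rw [h3, h4, Matrix.zero_vecMul] at this
      exact this.symm
    have : ψ = 0 := Subtype.ext hψ
    rw [this]
    rfl
  have hr1 : finrank ℂ (LinearMap.range J) = n + finrank ℂ Ann := by
    rw [LinearMap.finrank_range_of_inj hinj, Module.finrank_prod]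
    simp
  have hr2 : finrank ℂ (LinearMap.range J) ≤ finrank ℂ (LinearMap.range (adL η)) :=
    Submodule.finrank_mono (LinearMap.range_comp_le_range par (adL η))
  have hr3 := LinearMap.finrank_range_add_finrank_ker (adL η)
  have hr4 : finrank ℂ (Mat n) = n ^ 2 := by
    rw [Module.finrank_matrix]
    simp [sq]
  rw [hr4] at hr3
  omega

end Claimed.Agent.R236
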