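import Claimed.Agent.R236.Loc2
import Claimed.Agent.R236.LocG
import Claimed.Agent.R236.Chain
import Claimed.Agent.R236.ChartPath

/-!
# Row 236: `P(g)`: every Schur point of `RC` lies in `VC` (blueprint section 11)
-/

namespace Claimed.Agent.R236

open Matrix Topology Filter

variable {g n : ℕ}

attribute [local instance] Matrix.linftyOpNormedRing Matrix.linftyOpNormedAlgebra

/-- from local fullness at one Schur point to all Schur points. -/
theorem schur_of_local (hn : 1 ≤ n) (S : Subring ℂ) {ρ₀ : Tup (g + 2) n} (h0 : ρ₀ ∈ RC (g + 2) n)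
    (hS0 : IsSchur ρ₀) (hloc : ∀ᶠ ρ' in 𝓝 ρ₀, ρ' ∈ RC (g + 2) n → ρ' ∈ VC S (g + 2) n) :
    ∀ ρ ∈ RC (g + 2) n, IsSchur ρ → ρ ∈ VC S (g + 2) n := by
  obtain ⟨N, hNsub, hNo, hN0⟩ := eventually_nhds_iff.1 hloc
  have hcl0 : ρ₀ ∈ closure (Wset (g + 1) n) := schur_mem_closure_Wset hn h0 hS0
  have hne : (N ∩ Wset (g + 1) n).Nonempty := mem_closure_iff.1 hcl0 N hNo hN0
  have hW : Wset (g + 1) n ⊆ ZCl (Cone S (g + 2) n) :=
    Wset_subset_of_local hNo (fun ρ hρ hR => hNsub ρ hρ hR) hne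
  intro ρ hρ hS
  have hcl : ρ ∈ closure (Wset (g + 1) n) := schur_mem_closure_Wset hn hρ hS
  exact (closure_minimal hW (isClosed_ZCl _)) hcl

/-- **P(g).** -/
theorem schur_mem_VC (hn : 1 ≤ n) (S : Subring ℂ) :
    ∀ g, ∀ ρ ∈ RC (g + 2) n, IsSchur ρ → ρ ∈ VC S (g + 2) n := by
  intro g
  induction g with
  | zero => exact schur_of_local hn S (base2_mem_RC n) (base2_isSchur n) (loc2 hn S)
  | succ g ih =>
    refine schur_of_local hn S (base3_mem_RC g n) (base3_isSchur g n) (locG hn S g ?_)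
    have hopen : ∀ᶠ ρ' in 𝓝 (base1 g n), IsSchur ρ' :=
      (isOpen_isSchur hn).mem_nhds (base1_isSchur g n)
    filter_upwards [hopen] with ρ' hS hR
    exact ih ρ' hR hS

end Claimed.Agent.R236
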