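import Mathlib

/-!
# Row 236: polynomial functions on vector spaces and semantic Zariski closure
(blueprint section 1).  Hints: `PolyFun.comp` by `Algebra.adjoin_induction`; a linear form on a finite
product / matrix space is a linear combination of coordinate forms; `det`, `adjugate`, `charpoly.coeff`
are polynomial in the entries (`Matrix.det_apply`, `Matrix.adjugate_apply`/`det_updateRow`,
for `charpoly.coeff` e.g. interpolate `det (t • 1 - M)` or use `Matrix.charpoly` as a `det` over `ℂ[X]`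
expanded with `det_apply` and `Polynomial.coeff` of finite sums and products by induction).
-/

namespace Claimed.Agent.R236

open Matrix

section Defs
variable (V : Type*) [AddCommGroup V] [Module ℂ V]

/-- polynomial functions on a complex vector space: the algebra generated by the linear forms. -/
def PolyFun : Subalgebra ℂ (V → ℂ) :=
  Algebra.adjoin ℂ (Set.range fun ℓ : V →ₗ[ℂ] ℂ => (ℓ : V → ℂ))

end Defs

variable {V W U : Type*} [AddCommGroup V] [Module ℂ V] [AddCommGroup W] [Module ℂ W]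
  [AddCommGroup U] [Module ℂ U]

/-- polynomial maps. -/
def PolyMap (Φ : V → W) : Prop := ∀ ℓ : W →ₗ[ℂ] ℂ, (fun v => ℓ (Φ v)) ∈ PolyFun V

/-- semantic Zariski closure. -/
def ZCl (A : Set V) : Set V := {x | ∀ f ∈ PolyFun V, (∀ a ∈ A, f a = 0) → f x = 0}

/-! ### PolyFun -/

theorem PolyFun.linear (ℓ : V →ₗ[ℂ] ℂ) : (fun v => ℓ v) ∈ PolyFun V :=
  Algebra.subset_adjoin ⟨ℓ, rfl⟩

theorem PolyFun.const (c : ℂ) : (fun _ : V => c) ∈ PolyFun V :=
  (PolyFun V).algebraMap_mem c

theorem PolyFun.add {f h : V → ℂ} (hf : f ∈ PolyFun V) (hh : h ∈ PolyFun V) :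
    (fun v => f v + h v) ∈ PolyFun V := (PolyFun V).add_mem hf hh

theorem PolyFun.mul {f h : V → ℂ} (hf : f ∈ PolyFun V) (hh : h ∈ PolyFun V) :
    (fun v => f v * h v) ∈ PolyFun V := (PolyFun V).mul_mem hf hh

theorem PolyFun.neg {f : V → ℂ} (hf : f ∈ PolyFun V) : (fun v => - f v) ∈ PolyFun V :=
  (PolyFun V).neg_mem hf

theorem PolyFun.sub {f h : V → ℂ} (hf : f ∈ PolyFun V) (hh : h ∈ PolyFun V) :
    (fun v => f v - h v) ∈ PolyFun V := (PolyFun V).sub_mem hf hh

theorem PolyFun.pow {f : V → ℂ} (hf : f ∈ PolyFun V) (k : ℕ) :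
    (fun v => f v ^ k) ∈ PolyFun V := (PolyFun V).pow_mem hf k

theorem PolyFun.sum {ι : Type*} (s : Finset ι) {f : ι → V → ℂ} (hf : ∀ i ∈ s, f i ∈ PolyFun V) :
    (fun v => ∑ i ∈ s, f i v) ∈ PolyFun V := by
  have := (PolyFun V).sum_mem hf
  convert this using 1
  ext v; simp

theorem PolyFun.prod {ι : Type*} (s : Finset ι) {f : ι → V → ℂ} (hf : ∀ i ∈ s, f i ∈ PolyFun V) :
    (fun v => ∏ i ∈ s, f i v) ∈ PolyFun V := by
  have := (PolyFun V).prod_mem hf
  convert this using 1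
  ext v; simp

theorem PolyFun.comp {f : W → ℂ} (hf : f ∈ PolyFun W) {Φ : V → W} (hΦ : PolyMap Φ) :
    (fun v => f (Φ v)) ∈ PolyFun V := by
  induction hf using Algebra.adjoin_induction with
  | mem x hx =>
    obtain ⟨ℓ, rfl⟩ := hx
    exact hΦ ℓ
  | algebraMap r => exact PolyFun.const r
  | add x y _ _ hx hy => exact PolyFun.add hx hy
  | mul x y _ _ hx hy => exact PolyFun.mul hx hy

/-! ### PolyMap -/

theorem PolyMap.comp {Ψ : W → U} (hΨ : PolyMap Ψ) {Φ : V → W} (hΦ : PolyMap Φ) :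
    PolyMap (fun v => Ψ (Φ v)) := fun ℓ => PolyFun.comp (hΨ ℓ) hΦ

theorem polyMap_id : PolyMap (fun v : V => v) := fun ℓ => PolyFun.linear ℓ

theorem polyMap_const (w : W) : PolyMap (fun _ : V => w) := fun ℓ => PolyFun.const (ℓ w)

theorem polyMap_linear (L : V →ₗ[ℂ] W) : PolyMap (fun v => L v) :=
  fun ℓ => PolyFun.linear (ℓ.comp L)

theorem PolyMap.add {Φ Ψ : V → W} (h1 : PolyMap Φ) (h2 : PolyMap Ψ) :
    PolyMap (fun v => Φ v + Ψ v) := fun ℓ => by
  simpa using PolyFun.add (h1 ℓ) (h2 ℓ)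

theorem PolyMap.sub {Φ Ψ : V → W} (h1 : PolyMap Φ) (h2 : PolyMap Ψ) :
    PolyMap (fun v => Φ v - Ψ v) := fun ℓ => by
  simpa using PolyFun.sub (h1 ℓ) (h2 ℓ)

theorem PolyMap.neg {Φ : V → W} (h1 : PolyMap Φ) : PolyMap (fun v => - Φ v) := fun ℓ => by
  simpa using PolyFun.neg (h1 ℓ)

theorem PolyMap.smul {f : V → ℂ} (hf : f ∈ PolyFun V) {Φ : V → W} (h1 : PolyMap Φ) :
    PolyMap (fun v => f v • Φ v) := fun ℓ => by
  simpa using PolyFun.mul hf (h1 ℓ)

theorem PolyMap.sum {ι : Type*} (s : Finset ι) {Φ : ι → V → W} (h : ∀ i ∈ s, PolyMap (Φ i)) :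
    PolyMap (fun v => ∑ i ∈ s, Φ i v) := fun ℓ => by
  simpa using PolyFun.sum s (fun i hi => h i hi ℓ)

theorem polyMap_iff_polyFun {f : V → ℂ} : PolyMap f ↔ f ∈ PolyFun V := by
  constructor
  · intro h
    exact h LinearMap.id
  · intro h ℓ
    have h1 : (fun v => ℓ (f v)) = fun v => f v * ℓ 1 := by
      funext v
      have : ℓ (f v) = ℓ (f v • (1 : ℂ)) := by simp
      rw [this, map_smul, smul_eq_mul]
    rw [h1]
    exact PolyFun.mul h (PolyFun.const _)

theorem PolyMap.prodMk {Φ : V → W} {Ψ : V → U} (h1 : PolyMap Φ) (h2 : PolyMap Ψ) :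
    PolyMap (fun v => (Φ v, Ψ v)) := by
  intro ℓ
  have h : (fun v => ℓ (Φ v, Ψ v))
      = fun v => (ℓ.comp (LinearMap.inl ℂ W U)) (Φ v) + (ℓ.comp (LinearMap.inr ℂ W U)) (Ψ v) := by
    funext v
    simp only [LinearMap.comp_apply, LinearMap.inl_apply, LinearMap.inr_apply, ← map_add,
      Prod.mk_add_mk, add_zero, zero_add]
  rw [h]
  exact PolyFun.add (h1 _) (h2 _)

theorem PolyMap.fst {Φ : V → W × U} (h : PolyMap Φ) : PolyMap (fun v => (Φ v).1) :=
  (polyMap_linear (LinearMap.fst ℂ W U)).comp h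

theorem PolyMap.snd {Φ : V → W × U} (h : PolyMap Φ) : PolyMap (fun v => (Φ v).2) :=
  (polyMap_linear (LinearMap.snd ℂ W U)).comp h

theorem polyMap_pi {ι : Type*} [Finite ι] {X : ι → Type*} [∀ i, AddCommGroup (X i)]
    [∀ i, Module ℂ (X i)] {Φ : V → ∀ i, X i} :
    PolyMap Φ ↔ ∀ i, PolyMap (fun v => Φ v i) := by
  classical
  cases nonempty_fintype ι
  constructor
  · intro h i
    exact (polyMap_linear (LinearMap.proj i : (∀ i, X i) →ₗ[ℂ] X i)).comp h
  · intro h ℓ
    have h1 : (fun v => ℓ (Φ v))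
        = fun v => ∑ i, (ℓ.comp (LinearMap.single ℂ X i)) (Φ v i) := by
      funext v
      simp only [LinearMap.comp_apply, LinearMap.coe_single, ← map_sum, Finset.univ_sum_single]
    rw [h1]
    exact PolyFun.sum _ fun i _ => h i _

theorem polyMap_matrix {m k : Type*} [Finite m] [Finite k] {Φ : V → Matrix m k ℂ} :
    PolyMap Φ ↔ ∀ i j, (fun v => Φ v i j) ∈ PolyFun V := by
  have h1 : PolyMap Φ ↔ ∀ i, PolyMap (fun v => Φ v i) :=
    polyMap_pi (X := fun _ : m => k → ℂ) (Φ := Φ)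
  rw [h1]
  refine forall_congr' fun i => ?_
  rw [polyMap_pi (X := fun _ : k => ℂ)]
  exact forall_congr' fun j => polyMap_iff_polyFun

section Mat
variable {m k l : Type*} [Fintype m] [Fintype k] [Fintype l] [DecidableEq m]

theorem PolyMap.matMul {Φ : V → Matrix m k ℂ} {Ψ : V → Matrix k l ℂ} (h1 : PolyMap Φ)
    (h2 : PolyMap Ψ) : PolyMap (fun v => Φ v * Ψ v) := by
  rw [polyMap_matrix] at h1 h2 ⊢
  intro i j
  simp only [Matrix.mul_apply]
  exact PolyFun.sum _ fun x _ => PolyFun.mul (h1 i x) (h2 x j)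

theorem PolyMap.mulVec {Φ : V → Matrix m k ℂ} {Ψ : V → k → ℂ} (h1 : PolyMap Φ)
    (h2 : PolyMap Ψ) : PolyMap (fun v => Φ v *ᵥ Ψ v) := by
  rw [polyMap_matrix] at h1
  rw [polyMap_pi (X := fun _ : k => ℂ)] at h2
  rw [polyMap_pi (X := fun _ : m => ℂ)]
  intro i
  rw [polyMap_iff_polyFun]
  simp only [Matrix.mulVec, dotProduct]
  exact PolyFun.sum _ fun x _ => PolyFun.mul (h1 i x) (polyMap_iff_polyFun.mp (h2 x))

theorem PolyMap.matPow {Φ : V → Matrix m m ℂ} (h1 : PolyMap Φ) (j : ℕ) :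
    PolyMap (fun v => Φ v ^ j) := by
  induction j with
  | zero =>
    simp only [pow_zero]
    exact polyMap_const 1
  | succ j ih =>
    simp only [pow_succ]
    exact ih.matMul h1

theorem PolyMap.det {Φ : V → Matrix m m ℂ} (h1 : PolyMap Φ) :
    (fun v => (Φ v).det) ∈ PolyFun V := by
  rw [polyMap_matrix] at h1
  simp only [Matrix.det_apply']
  exact PolyFun.sum _ fun σ _ => PolyFun.mul (PolyFun.const _) (PolyFun.prod _ fun i _ => h1 _ _)

theorem PolyMap.adjugate {Φ : V → Matrix m m ℂ} (h1 : PolyMap Φ) :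
    PolyMap (fun v => (Φ v).adjugate) := by
  rw [polyMap_matrix]
  intro i j
  simp only [Matrix.adjugate_apply]
  refine PolyMap.det ?_
  rw [polyMap_matrix] at h1 ⊢
  intro a b
  by_cases hab : a = j
  · subst hab
    simp only [Matrix.updateRow_self]
    exact PolyFun.const _
  · simp only [Matrix.updateRow_ne hab]
    exact h1 a b

/-- all coefficients of a polynomial valued map are polynomial functions. -/
def ZClCoeff (p : V → Polynomial ℂ) : Prop := ∀ j, (fun v => (p v).coeff j) ∈ PolyFun V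

theorem ZClCoeff.const (q : Polynomial ℂ) : ZClCoeff (fun _ : V => q) := fun _ => PolyFun.const _

theorem ZClCoeff.add {p q : V → Polynomial ℂ} (hp : ZClCoeff p) (hq : ZClCoeff q) :
    ZClCoeff (fun v => p v + q v) := fun j => by
  simp only [Polynomial.coeff_add]
  exact PolyFun.add (hp j) (hq j)

theorem ZClCoeff.sub {p q : V → Polynomial ℂ} (hp : ZClCoeff p) (hq : ZClCoeff q) :
    ZClCoeff (fun v => p v - q v) := fun j => by
  simp only [Polynomial.coeff_sub]
  exact PolyFun.sub (hp j) (hq j)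

theorem ZClCoeff.mul {p q : V → Polynomial ℂ} (hp : ZClCoeff p) (hq : ZClCoeff q) :
    ZClCoeff (fun v => p v * q v) := fun j => by
  simp only [Polynomial.coeff_mul]
  exact PolyFun.sum _ fun x _ => PolyFun.mul (hp _) (hq _)

theorem ZClCoeff.C {f : V → ℂ} (hf : f ∈ PolyFun V) :
    ZClCoeff (fun v => Polynomial.C (f v)) := fun j => by
  simp only [Polynomial.coeff_C]
  by_cases hj : j = 0
  · simpa only [hj, if_true] using hf
  · simpa only [hj, if_false] using PolyFun.const 0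

theorem ZClCoeff.sum {ι : Type*} (s : Finset ι) {p : ι → V → Polynomial ℂ}
    (h : ∀ i ∈ s, ZClCoeff (p i)) : ZClCoeff (fun v => ∑ i ∈ s, p i v) := fun j => by
  simp only [Polynomial.finsetSum_coeff]
  exact PolyFun.sum _ fun i hi => h i hi j

theorem ZClCoeff.prod {ι : Type*} (s : Finset ι) {p : ι → V → Polynomial ℂ}
    (h : ∀ i ∈ s, ZClCoeff (p i)) : ZClCoeff (fun v => ∏ i ∈ s, p i v) := by
  classical
  induction s using Finset.induction_on with
  | empty =>
    simp only [Finset.prod_empty]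
    exact ZClCoeff.const 1
  | insert a s ha ih =>
    simp only [Finset.prod_insert ha]
    exact (h a (Finset.mem_insert_self a s)).mul
      (ih fun i hi => h i (Finset.mem_insert_of_mem hi))

theorem PolyMap.charpoly_coeff {Φ : V → Matrix m m ℂ} (h1 : PolyMap Φ) (j : ℕ) :
    (fun v => (Φ v).charpoly.coeff j) ∈ PolyFun V := by
  rw [polyMap_matrix] at h1
  have h : ZClCoeff (fun v => (Φ v).charpoly) := by
    simp only [Matrix.charpoly, Matrix.det_apply']
    refine ZClCoeff.sum _ fun σ _ => (ZClCoeff.const _).mul (ZClCoeff.prod _ fun i _ => ?_)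
    simp only [Matrix.charmatrix_apply]
    exact (ZClCoeff.const _).sub (ZClCoeff.C (h1 _ _))
  exact h j

end Mat

end Claimed.Agent.R236
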